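import Vale.Agent.P091.Multi.Layout

/-!
P091: counting with binary digit groups.
-/

noncomputable section

namespace Vale.Agent.P091.Multi

open Finset

variable {R : ℕ}

lemma sum_split {α : Type*} [CommSemiring α] (A B : ℕ) (f g : ℕ → α) :
    ∑ x ∈ range (A * B), f (x / B) * g (x % B) = (∑ a ∈ range A, f a) * ∑ b ∈ range B, g b := by
  induction A with
  | zero => simp
  | succ A ih =>
    rw [Nat.succ_mul, Finset.sum_range_add, ih, Finset.sum_range_succ (f := f), add_mul,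
      Finset.mul_sum (a := f A)]
    congr 1
    refine Finset.sum_congr rfl fun b hb => ?_
    have hb' := Finset.mem_range.1 hb
    rw [mul_comm A B, Nat.mul_add_div (by omega), Nat.div_eq_of_lt hb', add_zero, Nat.mul_add_mod,
      Nat.mod_eq_of_lt hb']

lemma sum_digits {α : Type*} [CommSemiring α] (L n : ℕ) (f : ℕ → ℕ → α) :
    ∑ v ∈ range (2 ^ (n * L)), ∏ j ∈ range n, f j (v / 2 ^ ((n - 1 - j) * L) % 2 ^ L)
      = ∏ j ∈ range n, ∑ d ∈ range (2 ^ L), f j d := by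
  induction n with
  | zero => simp
  | succ n ih =>
    rw [Finset.prod_range_succ, ← ih, Nat.succ_mul, pow_add,
      ← sum_split (2 ^ (n * L)) (2 ^ L)
        (fun a => ∏ j ∈ range n, f j (a / 2 ^ ((n - 1 - j) * L) % 2 ^ L)) (f n)]
    refine Finset.sum_congr rfl fun v _ => ?_
    rw [Finset.prod_range_succ]
    congr 1
    · refine Finset.prod_congr rfl fun j hj => ?_
      have hj' := Finset.mem_range.1 hj
      rw [Nat.div_div_eq_div_mul, ← pow_add]
      congr 4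
      rw [show n + 1 - 1 - j = (n - 1 - j) + 1 by omega]
      ring
    · rw [show n + 1 - 1 - n = 0 by omega]; simp

lemma card_mid {L : ℕ} (hL : 2 ≤ L) [DecidablePred (Mid L)] :
    ((range (2 ^ L)).filter (Mid L)).card = 2 ^ (L - 1) := by
  have e : 2 ^ L = 4 * 2 ^ (L - 2) := by
    rw [show (4 : ℕ) = 2 ^ 2 by rfl, ← pow_add]; congr 1; omega
  have e' : 2 ^ (L - 1) = 2 * 2 ^ (L - 2) := by rw [← pow_succ']; congr 1; omega
  have : (range (2 ^ L)).filter (Mid L) = Ico (2 ^ (L - 2)) (3 * 2 ^ (L - 2)) := by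
    ext d; simp only [mem_filter, mem_range, mem_Ico, Mid]; omega
  rw [this, Nat.card_Ico, e']
  omega

lemma card_outer {L : ℕ} (hL : 3 ≤ L) [DecidablePred (Outer L)] :
    ((range (2 ^ L)).filter (Outer L)).card = 2 ^ (L - 2) := by
  have e : 2 ^ L = 8 * 2 ^ (L - 3) := by
    rw [show (8 : ℕ) = 2 ^ 3 by rfl, ← pow_add]; congr 1; omega
  have e' : 2 ^ (L - 2) = 2 * 2 ^ (L - 3) := by rw [← pow_succ']; congr 1; omega
  have hd : Disjoint (range (2 ^ (L - 3))) (Ico (7 * 2 ^ (L - 3)) (2 ^ L)) := by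
    rw [Finset.disjoint_left]; intro d h1 h2; simp only [mem_range, mem_Ico] at h1 h2; omega
  have : (range (2 ^ L)).filter (Outer L)
      = range (2 ^ (L - 3)) ∪ Ico (7 * 2 ^ (L - 3)) (2 ^ L) := by
    ext d; simp only [mem_filter, mem_range, mem_union, mem_Ico, Outer]; omega
  rw [this, Finset.card_union_of_disjoint hd, Nat.card_Ico, Finset.card_range, e']
  omega

lemma blw_succ_le_tot {k : ℕ} (hk : k < num R) : blw R (k + 1) ≤ tot R := blw_mono hk

lemma sum_idk {α : Type*} [CommSemiring α] {k : ℕ} (hk : k < num R) (φ : ℕ → α) :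
    (∑ x ∈ range (2 ^ tot R), φ (idk R k x)) * 2 ^ (R * len R k)
      = 2 ^ tot R * ∑ v ∈ range (2 ^ (R * len R k)), φ v := by
  obtain ⟨c, hc⟩ := Nat.exists_eq_add_of_le (blw_succ_le_tot hk)
  rw [blw_succ] at hc
  set a := R * len R k
  set b := blw R k with hb
  have e : (2 : ℕ) ^ tot R = 2 ^ c * 2 ^ a * 2 ^ b := by
    rw [← pow_add, ← pow_add, hc]; congr 1; ring
  have h1 := sum_split (α := α) (2 ^ c * 2 ^ a) (2 ^ b) (fun q => φ (q % 2 ^ a)) (fun _ => 1)
  simp only [mul_one, Finset.sum_const, Finset.card_range, nsmul_eq_mul] at h1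
  have h2 := sum_split (α := α) (2 ^ c) (2 ^ a) (fun _ => 1) φ
  simp only [one_mul, Finset.sum_const, Finset.card_range, nsmul_eq_mul, mul_one] at h2
  have h3 : ∑ x ∈ range (2 ^ tot R), φ (idk R k x)
      = (((2 : ℕ) ^ c : ℕ) : α) * (∑ v ∈ range (2 ^ a), φ v) * (((2 : ℕ) ^ b : ℕ) : α) := by
    rw [e, ← h2]; exact h1
  rw [h3, hc]
  push_cast
  ring

lemma sum_idk₂ {α : Type*} [CommSemiring α] {k k' : ℕ} (hk : k < num R) (hkk : k' < k)
    (φ ψ : ℕ → α) :
    (∑ x ∈ range (2 ^ tot R), φ (idk R k x) * ψ (idk R k' x))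
        * (2 ^ (R * len R k) * 2 ^ (R * len R k'))
      = 2 ^ tot R *
        ((∑ v ∈ range (2 ^ (R * len R k)), φ v) * ∑ v ∈ range (2 ^ (R * len R k')), ψ v) := by
  obtain ⟨c, hc⟩ := Nat.exists_eq_add_of_le (blw_succ_le_tot hk)
  rw [blw_succ] at hc
  obtain ⟨e, he⟩ := Nat.exists_eq_add_of_le (blw_mono (R := R) (show k' + 1 ≤ k from hkk))
  rw [blw_succ] at he
  set a := R * len R k with ha
  set a' := R * len R k' with ha'
  set b := blw R k with hb
  set b' := blw R k' with hb'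
  have hT : (2 : ℕ) ^ tot R = 2 ^ c * 2 ^ a * 2 ^ b := by
    rw [← pow_add, ← pow_add, hc]; congr 1; ring
  have hB : (2 : ℕ) ^ b = 2 ^ e * 2 ^ a' * 2 ^ b' := by
    rw [← pow_add, ← pow_add, he]; congr 1; ring
  have hid : ∀ x, idk R k' x = x % 2 ^ b / 2 ^ b' % 2 ^ a' := by
    intro x
    unfold idk
    rw [← hb', ← ha', hB, mul_comm (2 ^ e * 2 ^ a'), Nat.mod_mul_right_div_self,
      Nat.mod_mod_of_dvd _ (Dvd.intro_left _ rfl)]
  have h1 := sum_split (α := α) (2 ^ c * 2 ^ a) (2 ^ b) (fun q => φ (q % 2 ^ a))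
    (fun r => ψ (r / 2 ^ b' % 2 ^ a'))
  have h2 := sum_split (α := α) (2 ^ c) (2 ^ a) (fun _ => 1) φ
  simp only [one_mul, Finset.sum_const, Finset.card_range, nsmul_eq_mul, mul_one] at h2
  have h3 := sum_split (α := α) (2 ^ e * 2 ^ a') (2 ^ b') (fun q => ψ (q % 2 ^ a')) (fun _ => 1)
  simp only [mul_one, Finset.sum_const, Finset.card_range, nsmul_eq_mul] at h3
  have h4 := sum_split (α := α) (2 ^ e) (2 ^ a') (fun _ => 1) ψ
  simp only [one_mul, Finset.sum_const, Finset.card_range, nsmul_eq_mul, mul_one] at h4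
  have h5 : ∑ x ∈ range (2 ^ tot R), φ (idk R k x) * ψ (idk R k' x)
      = ((((2 : ℕ) ^ c : ℕ) : α) * ∑ v ∈ range (2 ^ a), φ v) *
        (((((2 : ℕ) ^ e : ℕ) : α) * ∑ v ∈ range (2 ^ a'), ψ v) * (((2 : ℕ) ^ b' : ℕ) : α)) := by
    rw [hT, ← h4, ← h3, ← hB, ← h2, ← h1]
    refine Finset.sum_congr rfl fun x _ => ?_
    rw [hid]
    rfl
  rw [h5, hc, he]
  push_cast
  ring

end Vale.Agent.P091.Multi
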