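import Vale.Agent.P091.Multi.Vis
import Vale.Agent.P091.Multi.Digits

/-!
P091: the atoms of a component and their phases.
-/

noncomputable section

namespace Vale.Agent.P091.Multi

open Finset Real

variable {R : ℕ}

/-- The offset of an atom. -/
def offk (R k u : ℕ) : ℝ :=
  ∑ j ∈ range R, off (len R k) (dig R k j u) * ((2 : ℝ) ^ sh R k j)⁻¹

/-- The position of an atom. -/
def pos' (R k u : ℕ) : ℝ := ((u : ℝ) + (2 : ℝ) ^ blw R k / 2) / (2 : ℝ) ^ tot R + offk R k u

/-- The sampling points. -/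
def xpt (R x : ℕ) (θ : ℝ) : ℝ := ((x : ℝ) + θ) / (2 : ℝ) ^ tot R

/-- The atoms of component `k`. -/
def atoms (R k : ℕ) : Finset ℕ :=
  open scoped Classical in
  (range (2 ^ tot R)).filter fun u =>
    2 ^ blw R k ∣ u ∧ ∀ j < R, Mid (len R k) (dig R k j u)

lemma mem_atoms {k u : ℕ} : u ∈ atoms R k ↔
    u < 2 ^ tot R ∧ 2 ^ blw R k ∣ u ∧ ∀ j < R, Mid (len R k) (dig R k j u) := by
  classical
  rw [atoms, Finset.mem_filter, Finset.mem_range]

lemma blw_le_tot {k : ℕ} (hk : k < num R) : blw R k ≤ tot R := blw_mono hk.le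

lemma dig_eq {k j : ℕ} (hj : j < R) (x : ℕ) :
    dig R k j x = x / 2 ^ pexp R k (j + 1) % 2 ^ len R k := by
  unfold dig idk
  rw [show R * len R k = (R - 1 - j) * len R k + ((j + 1) * len R k) by
      rw [← add_mul]; congr 1; omega,
    pow_add, Nat.mod_mul_right_div_self, Nat.div_div_eq_div_mul, ← pow_add, pexp,
    show R - (j + 1) = R - 1 - j by omega]
  exact Nat.mod_mod_of_dvd _ (pow_dvd_pow 2 (Nat.le_mul_of_pos_left _ (by omega)))

lemma pexp_succ {k j : ℕ} (hj : j < R) : pexp R k j = pexp R k (j + 1) + len R k := by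
  unfold pexp
  rw [show R - j = R - (j + 1) + 1 by omega]
  ring

lemma pexp_le_tot {k : ℕ} (hk : k < num R) (r : ℕ) : pexp R k r ≤ tot R := by
  refine le_trans ?_ (blw_succ_le_tot hk)
  rw [pexp, blw_succ]
  gcongr
  exact Nat.sub_le _ _

lemma split_at {k r : ℕ} (hr : r < R) (z : ℕ) :
    z = 2 ^ pexp R k (r + 1) * (2 ^ len R k * (z / 2 ^ pexp R k r) + dig R k r z)
      + z % 2 ^ pexp R k (r + 1) := by
  rw [dig_eq hr, pexp_succ hr, pow_add _ (pexp R k (r + 1)) (len R k), ← Nat.div_div_eq_div_mul,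
    Nat.div_add_mod, Nat.div_add_mod]

lemma x_remainder (hR : 1 ≤ R) {k r x : ℕ} (hc : IsCls R k r x) :
    8 * (x % 2 ^ pexp R k (r + 1)) + 8 ≤ 2 ^ pexp R k (r + 1) ∨
      7 * 2 ^ pexp R k (r + 1) ≤ 8 * (x % 2 ^ pexp R k (r + 1)) := by
  have hr : r + 1 < R := hc.1
  have hL := len_large hR k
  set H' := 2 ^ pexp R k (r + 2) with hH'
  have hH : 2 ^ pexp R k (r + 1) = 2 ^ len R k * H' := by
    rw [pexp_succ hr, pow_add, mul_comm]
  have hd : dig R k (r + 1) x = x % 2 ^ pexp R k (r + 1) / H' := by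
    rw [dig_eq hr, hH, mul_comm (2 ^ len R k), Nat.mod_mul_right_div_self, hH']
  have e8 : 2 ^ len R k = 8 * 2 ^ (len R k - 3) := by
    rw [show (8 : ℕ) = 2 ^ 3 by rfl, ← pow_add]; congr 1; omega
  set z := x % 2 ^ pexp R k (r + 1)
  have h1 := Nat.div_add_mod z H'
  have h1' : H' * (z / H') ≤ z := Nat.mul_div_le z H'
  have h2 := Nat.mod_lt z (Nat.two_pow_pos (pexp R k (r + 2)))
  rw [hH, e8]
  rcases hc.2.2 with ho | ho <;> rw [hd] at ho
  · left
    have h3 : H' * (z / H' + 1) ≤ H' * 2 ^ (len R k - 3) := Nat.mul_le_mul_left _ ho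
    rw [← hH'] at h2
    nlinarith
  · right
    have h3 : H' * (7 * 2 ^ (len R k - 3)) ≤ H' * (z / H') := Nat.mul_le_mul_left _ ho
    nlinarith

lemma u_remainder (hR : 1 ≤ R) {k r u : ℕ} (hu : u ∈ atoms R k) (hr : r + 1 < R) :
    2 ^ pexp R k (r + 1) ≤ 4 * (u % 2 ^ pexp R k (r + 1)) ∧
      4 * (u % 2 ^ pexp R k (r + 1)) + 4 * 2 ^ blw R k ≤ 3 * 2 ^ pexp R k (r + 1) := by
  obtain ⟨-, hdvd, hmid⟩ := mem_atoms.1 hu
  have hL := len_large hR k
  set H' := 2 ^ pexp R k (r + 2) with hH'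
  have hH : 2 ^ pexp R k (r + 1) = 2 ^ len R k * H' := by
    rw [pexp_succ hr, pow_add, mul_comm]
  have hd : dig R k (r + 1) u = u % 2 ^ pexp R k (r + 1) / H' := by
    rw [dig_eq hr, hH, mul_comm (2 ^ len R k), Nat.mod_mul_right_div_self, hH']
  have e4 : 2 ^ len R k = 4 * 2 ^ (len R k - 2) := by
    rw [show (4 : ℕ) = 2 ^ 2 by rfl, ← pow_add]; congr 1; omega
  set z := u % 2 ^ pexp R k (r + 1)
  set b := 2 ^ blw R k with hb
  have hbz : b ∣ z := (Nat.dvd_mod_iff (pow_dvd_pow 2 (by unfold pexp; omega))).2 hdvd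
  have hbH : b ∣ H' := pow_dvd_pow 2 (by unfold pexp; omega)
  have h1 := Nat.div_add_mod z H'
  have h2 := Nat.mod_lt z (Nat.two_pow_pos (pexp R k (r + 2)))
  rw [← hH'] at h2
  obtain ⟨hm1, hm2⟩ := hmid (r + 1) hr
  rw [hd] at hm1 hm2
  have h3 : H' * 2 ^ (len R k - 2) ≤ H' * (z / H') := Nat.mul_le_mul_left _ hm1
  have h4 : H' * (z / H' + 1) ≤ H' * (3 * 2 ^ (len R k - 2)) := Nat.mul_le_mul_left _ hm2
  have h5 : z + b ≤ 3 * (2 ^ (len R k - 2) * H') := by
    obtain ⟨p, hp⟩ := hbz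
    obtain ⟨q, hq⟩ : b ∣ 3 * (2 ^ (len R k - 2) * H') := (hbH.mul_left _).mul_left _
    have hlt : z < 3 * (2 ^ (len R k - 2) * H') := by nlinarith
    rw [hp, hq] at hlt ⊢
    have : p < q := Nat.lt_of_mul_lt_mul_left hlt
    calc b * p + b = b * (p + 1) := by ring
      _ ≤ b * q := Nat.mul_le_mul_left _ this
  have h1' : H' * (z / H') ≤ z := Nat.mul_div_le z H'
  rw [hH, e4]
  constructor
  · nlinarith
  · nlinarith

lemma offk_nonneg (k u : ℕ) : 0 ≤ offk R k u :=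
  Finset.sum_nonneg fun j _ => mul_nonneg (off_nonneg _ _) (by positivity)

lemma offk_small (hR : 1 ≤ R) {k : ℕ} (u : ℕ) :
    offk R k u * (2 : ℝ) ^ tot R ≤ 1 / 16 := by
  have hL := len_large hR k
  have hterm : ∀ j ∈ range R, off (len R k) (dig R k j u) * ((2 : ℝ) ^ sh R k j)⁻¹
      ≤ (len R k : ℝ) * ((2 : ℝ) ^ base (len R k))⁻¹ * ((2 : ℝ) ^ (tot R + 4))⁻¹ := by
    intro j _
    refine mul_le_mul (off_le _ _) ?_ (by positivity) (by positivity)
    gcongr
    · norm_num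
    · have := bot_lt_sh (R := R) k j; have := tot_le_bot (R := R) k; omega
  unfold offk
  refine (mul_le_mul_of_nonneg_right (Finset.sum_le_sum hterm) (by positivity)).trans ?_
  rw [Finset.sum_const, Finset.card_range, nsmul_eq_mul]
  have h : R * len R k ≤ 2 ^ base (len R k) := by
    calc R * len R k ≤ len R k * len R k := by
          refine Nat.mul_le_mul_right _ ?_
          unfold len
          calc R = 1 * R * 1 := by ring
            _ ≤ _ := by gcongr <;> [norm_num; exact Nat.one_le_two_pow]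
      _ ≤ 2 ^ len R k * 2 ^ len R k :=
          Nat.mul_le_mul (Nat.lt_two_pow_self).le (Nat.lt_two_pow_self).le
      _ ≤ _ := by rw [← pow_add]; exact Nat.pow_le_pow_right (by norm_num) (by unfold base; omega)
  have h' : (R : ℝ) * (len R k : ℝ) ≤ (2 : ℝ) ^ base (len R k) := by exact_mod_cast h
  rw [show (R : ℝ) * ((len R k : ℝ) * ((2 : ℝ) ^ base (len R k))⁻¹ * ((2 : ℝ) ^ (tot R + 4))⁻¹)
      * (2 : ℝ) ^ tot R
      = ((R : ℝ) * (len R k : ℝ) / (2 : ℝ) ^ base (len R k)) * (1 / 16) by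
    rw [pow_add]; field_simp; ring]
  exact mul_le_of_le_one_left (by norm_num) (by rw [div_le_one (by positivity)]; exact h')

/-- Displacement of an atom, in cells of group `r`. -/
def arel (R k r x u : ℕ) (θ : ℝ) : ℝ :=
  ((dig R k r x : ℝ) - dig R k r u) +
    (((x % 2 ^ pexp R k (r + 1) : ℕ) : ℝ) + θ - ((u % 2 ^ pexp R k (r + 1) : ℕ) : ℝ)
      - (2 : ℝ) ^ blw R k / 2 - offk R k u * (2 : ℝ) ^ tot R) / (2 : ℝ) ^ pexp R k (r + 1)

lemma sub_pos_eq {k r x u : ℕ} (hr : r < R) (hp : x / 2 ^ pexp R k r = u / 2 ^ pexp R k r)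
    (θ : ℝ) :
    xpt R x θ - pos' R k u
      = arel R k r x u θ * (2 : ℝ) ^ pexp R k (r + 1) / (2 : ℝ) ^ tot R := by
  have hx : (x : ℝ) = (2 : ℝ) ^ pexp R k (r + 1) * ((2 : ℝ) ^ len R k * (x / 2 ^ pexp R k r : ℕ)
      + dig R k r x) + (x % 2 ^ pexp R k (r + 1) : ℕ) := by
    exact_mod_cast congrArg (fun n : ℕ => (n : ℝ)) (split_at (k := k) hr x)
  have hu : (u : ℝ) = (2 : ℝ) ^ pexp R k (r + 1) * ((2 : ℝ) ^ len R k * (u / 2 ^ pexp R k r : ℕ)
      + dig R k r u) + (u % 2 ^ pexp R k (r + 1) : ℕ) := by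
    exact_mod_cast congrArg (fun n : ℕ => (n : ℝ)) (split_at (k := k) hr u)
  rw [hp] at hx
  unfold xpt pos' arel
  field_simp
  linear_combination 2 * hx - 2 * hu

lemma arel_bounds (hR : 1 ≤ R) {k r x u : ℕ} (hk : k < num R) (hc : IsCls R k r x)
    (hu : u ∈ atoms R k) {θ : ℝ} (hθ : θ ∈ Set.Icc (1 / 8 : ℝ) (3 / 8)) :
    1 / 16 ≤ |arel R k r x u θ| ∧
    (dig R k r u ≠ dig R k r x →
      (Nat.dist (dig R k r x) (dig R k r u) : ℝ) / 8 ≤ |arel R k r x u θ| ∧
      |arel R k r x u θ| ≤ 2 * (Nat.dist (dig R k r x) (dig R k r u) : ℝ) ∧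
      (0 < arel R k r x u θ ↔ dig R k r u < dig R k r x)) ∧
    |arel R k r x u θ * (2 : ℝ) ^ pexp R k (r + 1) / (2 : ℝ) ^ tot R| ≤ 1 / 2 := by
  obtain ⟨hθ1, hθ2⟩ := hθ
  have hr : r + 1 < R := hc.1
  set H : ℝ := (2 : ℝ) ^ pexp R k (r + 1) with hH
  have hH0 : 0 < H := by positivity
  set q := dig R k r x with hq
  set l := dig R k r u with hl
  set a : ℝ := ((x % 2 ^ pexp R k (r + 1) : ℕ) : ℝ) with ha
  set b : ℝ := ((u % 2 ^ pexp R k (r + 1) : ℕ) : ℝ) with hb
  have ho1 := offk_nonneg (R := R) k u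
  have ho : 0 ≤ offk R k u * (2 : ℝ) ^ tot R := mul_nonneg ho1 (by positivity)
  have ho' := offk_small hR (k := k) u
  have hH1 : (1 : ℝ) ≤ H := one_le_pow₀ (by norm_num)
  obtain ⟨hb1, hb2⟩ := u_remainder hR hu hr
  have hb1' : H ≤ 4 * b := by rw [hH, hb]; exact_mod_cast hb1
  have hb2' : 4 * b + 4 * (2 : ℝ) ^ blw R k ≤ 3 * H := by rw [hH, hb]; exact_mod_cast hb2
  have hblw : (1 : ℝ) ≤ (2 : ℝ) ^ blw R k := one_le_pow₀ (by norm_num)
  have ha0 : 0 ≤ a := Nat.cast_nonneg _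
  have ha1 : a + 1 ≤ H := by
    rw [hH, ha]
    exact_mod_cast Nat.mod_lt x (Nat.two_pow_pos (pexp R k (r + 1)))
  set δ : ℝ := (a + θ - b - (2 : ℝ) ^ blw R k / 2 - offk R k u * (2 : ℝ) ^ tot R) / H with hδ
  have harel : arel R k r x u θ = ((q : ℝ) - l) + δ := rfl
  have hδb : 1 / 16 ≤ |δ| ∧ -7 / 8 ≤ δ ∧ δ ≤ 7 / 8 := by
    rcases x_remainder hR hc with h | h
    · have h' : 8 * a + 8 ≤ H := by rw [hH, ha]; exact_mod_cast h
      have hneg : δ ≤ -1 / 8 := by rw [hδ, div_le_iff₀ hH0]; linarith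
      refine ⟨?_, ?_, by linarith⟩
      · rw [abs_of_neg (by linarith)]; linarith
      · rw [hδ, le_div_iff₀ hH0]; linarith
    · have h' : 7 * H ≤ 8 * a := by rw [hH, ha]; exact_mod_cast h
      have hpos : 1 / 16 ≤ δ := by rw [hδ, le_div_iff₀ hH0]; linarith
      refine ⟨?_, by linarith, ?_⟩
      · rwa [abs_of_pos (by linarith)]
      · rw [hδ, div_le_iff₀ hH0]; linarith
  obtain ⟨hd1, hd2, hd3⟩ := hδb
  rw [harel]
  refine ⟨?_, fun hne => ?_, ?_⟩
  · rcases eq_or_ne l q with h | h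
    · rw [h, sub_self, zero_add]; exact hd1
    · rcases lt_or_gt_of_ne h with h | h
      · have : (l : ℝ) + 1 ≤ q := by exact_mod_cast h
        rw [abs_of_nonneg (by linarith)]; linarith
      · have : (q : ℝ) + 1 ≤ l := by exact_mod_cast h
        rw [abs_of_neg (by linarith)]; linarith
  · rcases lt_or_gt_of_ne hne with h | h
    · have h' : (l : ℝ) + 1 ≤ q := by exact_mod_cast h
      rw [Nat.dist_eq_sub_of_le_right h.le, Nat.cast_sub h.le, abs_of_nonneg (by linarith)]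
      refine ⟨by linarith, by linarith, ?_⟩
      exact ⟨fun _ => h, fun _ => by linarith⟩
    · have h' : (q : ℝ) + 1 ≤ l := by exact_mod_cast h
      rw [Nat.dist_eq_sub_of_le h.le, Nat.cast_sub h.le, abs_of_neg (by linarith)]
      refine ⟨by linarith, by linarith, ?_⟩
      exact ⟨fun h0 => absurd h0 (by linarith), fun h0 => absurd h0 (by omega)⟩
  · have hmq : Mid (len R k) q := hc.2.1 r le_rfl
    have hml : Mid (len R k) l := (mem_atoms.1 hu).2.2 r (by omega)
    have hL := len_large hR k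
    have hq1 : (2 : ℝ) ^ (len R k - 2) ≤ q := by exact_mod_cast hmq.1
    have hq2 : (q : ℝ) + 1 ≤ 3 * (2 : ℝ) ^ (len R k - 2) := by exact_mod_cast hmq.2
    have hl1 : (2 : ℝ) ^ (len R k - 2) ≤ l := by exact_mod_cast hml.1
    have hl2 : (l : ℝ) + 1 ≤ 3 * (2 : ℝ) ^ (len R k - 2) := by exact_mod_cast hml.2
    have habs : |(q : ℝ) - l + δ| ≤ 2 * (2 : ℝ) ^ (len R k - 2) := by
      rw [abs_le]; constructor <;> linarith
    have e : (2 : ℝ) ^ pexp R k r = 4 * (2 : ℝ) ^ (len R k - 2) * H := by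
      have e4 : (4 : ℝ) * (2 : ℝ) ^ (len R k - 2) = (2 : ℝ) ^ len R k := by
        rw [show (4 : ℝ) = 2 ^ 2 by norm_num, ← pow_add]; congr 1; omega
      rw [e4, pexp_succ (by omega : r < R), hH, pow_add]
      ring
    have hle : (2 : ℝ) ^ pexp R k r ≤ (2 : ℝ) ^ tot R :=
      pow_le_pow_right₀ (by norm_num) (pexp_le_tot hk r)
    rw [abs_div, abs_mul, abs_of_pos hH0, abs_of_pos (by positivity : (0 : ℝ) < 2 ^ tot R),
      div_le_iff₀ (by positivity)]
    have h1 := mul_le_mul_of_nonneg_right habs hH0.le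
    linarith

lemma off_int {L : ℕ} (l : ℕ) : ∃ z : ℕ, off L l * (2 : ℝ) ^ ex' L = z := by
  classical
  refine ⟨∑ e ∈ range L, if bit' e l = 0 then 2 ^ (ex' L - (coord L e l + 1)) else 0, ?_⟩
  unfold off
  push_cast
  rw [Finset.sum_mul]
  refine Finset.sum_congr rfl fun e he => ?_
  split_ifs
  · have hle : coord L e l + 1 ≤ ex' L := by
      have := pos_lt (Finset.mem_range.1 he) (Nat.mod_lt (par e l) (bk_pos L))
      have e2 : 2 * L * (32 * bk L) = 64 * L * bk L := by ring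
      rw [ex']
      unfold coord
      omega
    obtain ⟨c, hc⟩ := Nat.exists_eq_add_of_le hle
    rw [hc, Nat.add_sub_cancel_left, pow_add]
    field_simp
    try rw [pow_add, pow_add, pow_one]
    try ring
  · simp

/-- The error allowed in the phases. -/
def etak (R k : ℕ) : ℝ := 2 * (R : ℝ) * len R k * ((2 : ℝ) ^ base (len R k))⁻¹

lemma bot_zero_dvd_nlo (hR : 1 ≤ R) (k x : ℕ) : 2 ^ (tot R + 4) ∣ nlo R k x := by
  unfold nlo low
  refine dvd_add (Finset.dvd_sum fun i _ => ?_) (dvd_add ?_ ?_)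
  · exact (pow_dvd_pow 2 (tot_le_bot i)).trans (part'_dvd i x)
  · exact Dvd.dvd.mul_left (pow_dvd_pow 2 (tot_le_bot k)) _
  · refine (pow_dvd_pow 2 ?_).trans (codeTerm_dvd k x)
    have := bot_lt_sh (R := R) k 0; have := tot_le_bot (R := R) k; omega

lemma low_id_lt (hR : 1 ≤ R) (k x : ℕ) :
    low R k x + idk R k x * 2 ^ bot R k < 2 ^ sh R k 0 := by
  have h1 := low_lt hR k x
  have h2 : (idk R k x + 1) * 2 ^ bot R k ≤ 2 ^ (R * len R k) * 2 ^ bot R k :=
    Nat.mul_le_mul_right _ (idk_lt k x)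
  rw [← pow_add, add_mul, one_mul] at h2
  have h3 : 2 ^ (R * len R k + bot R k) ≤ 2 ^ sh R k 0 :=
    Nat.pow_le_pow_right (by norm_num) (by unfold sh; omega)
  omega

lemma phase_atom (hR : 1 ≤ R) {k r x u : ℕ} (hk : k < num R) (hc : IsCls R k r x)
    (hu : u ∈ atoms R k) (θ : ℝ) :
    |Real.sin (2 * π * ((nhi R k x : ℝ) * xpt R x θ
        + (nlo R k x : ℝ) * (xpt R x θ - pos' R k u)))
      - (if dig R k r u < dig R k r x then -1 else 1)
        * Real.sin (2 * π * ((nfreq R x : ℝ) * xpt R x θ))|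
      ≤ 2 * π * (perr (len R k) (dig R k r x) (dig R k r u) + etak R k) := by
  classical
  set L := len R k with hL
  set q := dig R k r x with hq
  set l := dig R k r u with hl
  have hrR : r < R := by have := hc.1; omega
  obtain ⟨m, hm⟩ := phase (dig_lt (R := R) k r x) (dig_lt (R := R) k r u)
  rw [← hL, ← hq, ← hl] at hm
  obtain ⟨c, hcdvd⟩ := bot_zero_dvd_nlo hR k x
  -- the integral part
  have hint : (nlo R k x : ℝ) * (((u : ℝ) + (2 : ℝ) ^ blw R k / 2) / (2 : ℝ) ^ tot R)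
      = (((c * (16 * u + 8 * 2 ^ blw R k) : ℕ) : ℤ) : ℝ) := by
    rw [hcdvd]
    push_cast
    rw [pow_add]
    field_simp
    ring
  -- the offsets
  have hcode : codeTerm R k x = freq L q * 2 ^ sh R k r := by
    unfold codeTerm; rw [sum_isCls_eq hR hc]
  set lid : ℕ := low R k x + idk R k x * 2 ^ bot R k with hlid
  have hnlo : nlo R k x = lid + freq L q * 2 ^ sh R k r := by
    unfold nlo; rw [hcode, hlid]; ring
  set δ : ℝ := ((2 : ℝ) ^ base L)⁻¹ * L with hδ
  have hδ0 : 0 ≤ δ := by positivity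
  have hlidb : ∀ j, 0 ≤ (lid : ℝ) * (off L (dig R k j u) * ((2 : ℝ) ^ sh R k j)⁻¹) ∧
      (lid : ℝ) * (off L (dig R k j u) * ((2 : ℝ) ^ sh R k j)⁻¹) ≤ δ := by
    intro j
    have := off_nonneg L (dig R k j u)
    refine ⟨by positivity, ?_⟩
    have h1 : (lid : ℝ) ≤ (2 : ℝ) ^ sh R k j := by
      have h := low_id_lt hR k x
      have h2 : 2 ^ sh R k 0 ≤ 2 ^ sh R k j :=
        Nat.pow_le_pow_right (by norm_num) (sh_mono (Nat.zero_le j))
      exact_mod_cast (h.le.trans h2 : lid ≤ 2 ^ sh R k j)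
    calc _ ≤ (2 : ℝ) ^ sh R k j * (off L (dig R k j u) * ((2 : ℝ) ^ sh R k j)⁻¹) :=
          mul_le_mul_of_nonneg_right h1 (by positivity)
      _ = off L (dig R k j u) := by field_simp
      _ ≤ _ := by rw [hδ, mul_comm]; exact off_le _ _
  have hcodeb : ∀ j ∈ range R, ∃ z : ℤ,
      |((freq L q * 2 ^ sh R k r : ℕ) : ℝ) * (off L (dig R k j u) * ((2 : ℝ) ^ sh R k j)⁻¹)
        - (if j = r then (gt' q l : ℝ) / 2 else 0) - z|
      ≤ (if j = r then perr L q l else δ) := by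
    intro j _
    rcases lt_trichotomy j r with hj | rfl | hj
    · rw [if_neg (Nat.ne_of_lt hj), if_neg (Nat.ne_of_lt hj)]
      obtain ⟨z, hz⟩ := off_int (L := L) (dig R k j u)
      obtain ⟨e, he⟩ := Nat.exists_eq_add_of_le (show sh R k j + ex' L ≤ sh R k r by
        have h1 := sh_succ (R := R) k j
        have h2 := sh_mono (R := R) (k := k) (show j + 1 ≤ r from hj)
        have : ex' L ≤ wid R k := by unfold wid; rw [hL]; omega
        omega)
      refine ⟨((freq L q * 2 ^ e * z : ℕ) : ℤ), ?_⟩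
      rw [he]
      push_cast
      rw [pow_add, pow_add, ← hz, sub_zero]
      refine le_of_eq_of_le ?_ hδ0
      rw [abs_eq_zero]
      field_simp
      ring
    · refine ⟨m, ?_⟩
      rw [if_pos rfl, if_pos rfl]
      refine le_of_eq_of_le ?_ hm
      rw [← hl]
      push_cast
      congr 2
      field_simp
    · rw [if_neg (Nat.ne_of_gt hj), if_neg (Nat.ne_of_gt hj)]
      refine ⟨0, ?_⟩
      have := off_nonneg L (dig R k j u)
      rw [Int.cast_zero, sub_zero, sub_zero, abs_of_nonneg (by positivity)]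
      have h1 : freq L q * 2 ^ sh R k r ≤ 2 ^ sh R k j := by
        have hf : freq L q ≤ 2 ^ ex' L :=
          (freq_le _ _).trans (Nat.pow_le_pow_right (by norm_num) (by rw [ex']; omega))
        refine (Nat.mul_le_mul_right _ hf).trans ?_
        rw [← pow_add]
        refine Nat.pow_le_pow_right (by norm_num) ?_
        have h1 := sh_succ (R := R) k r
        have h2 := sh_mono (R := R) (k := k) (show r + 1 ≤ j from hj)
        have : ex' L ≤ wid R k := by unfold wid; rw [hL]; omega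
        omega
      have h1' : ((freq L q * 2 ^ sh R k r : ℕ) : ℝ) ≤ (2 : ℝ) ^ sh R k j := by exact_mod_cast h1
      calc _ ≤ (2 : ℝ) ^ sh R k j * (off L (dig R k j u) * ((2 : ℝ) ^ sh R k j)⁻¹) :=
            mul_le_mul_of_nonneg_right h1' (by positivity)
        _ = off L (dig R k j u) := by field_simp
        _ ≤ _ := by rw [hδ, mul_comm]; exact off_le _ _
  choose! z hz using hcodeb
  set E : ℝ := (nlo R k x : ℝ) * offk R k u - (gt' q l : ℝ) / 2 - ((∑ j ∈ range R, z j : ℤ) : ℝ)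
    with hE
  have hEb : |E| ≤ perr L q l + etak R k := by
    have hsplit : E = ∑ j ∈ range R,
        ((lid : ℝ) * (off L (dig R k j u) * ((2 : ℝ) ^ sh R k j)⁻¹) +
        (((freq L q * 2 ^ sh R k r : ℕ) : ℝ) * (off L (dig R k j u) * ((2 : ℝ) ^ sh R k j)⁻¹)
          - (if j = r then (gt' q l : ℝ) / 2 else 0) - z j)) := by
      rw [hE, hnlo, offk]
      simp only [Finset.sum_add_distrib, Finset.sum_sub_distrib, Finset.sum_ite_eq',
        Finset.mem_range, hrR, if_true, ← hL]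
      push_cast
      rw [add_mul, Finset.mul_sum, Finset.mul_sum]
      ring
    rw [hsplit]
    refine (Finset.abs_sum_le_sum_abs _ _).trans ?_
    refine (Finset.sum_le_sum (g := fun j => δ + (if j = r then perr L q l else δ))
      fun j hj => (abs_add_le _ _).trans (add_le_add ?_ (hz j hj))).trans ?_
    · rw [abs_of_nonneg (hlidb j).1]; exact (hlidb j).2
    · have e : ∀ j ∈ range R, δ + (if j = r then perr L q l else δ)
          = 2 * δ + (if j = r then perr L q l - δ else 0) := by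
        intro j _; split_ifs <;> ring
      rw [Finset.sum_congr rfl e, Finset.sum_add_distrib, Finset.sum_ite_eq',
        if_pos (Finset.mem_range.2 hrR), Finset.sum_const, Finset.card_range, nsmul_eq_mul]
      have hη : etak R k = (R : ℝ) * (2 * δ) := by rw [etak, hδ, hL]; ring
      rw [hη]
      linarith
  have hN : (nfreq R x : ℝ) = (nhi R k x : ℝ) + (nlo R k x : ℝ) := by
    rw [nfreq_eq hk x]; push_cast; rfl
  set α := 2 * π * ((nfreq R x : ℝ) * xpt R x θ) with hα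
  have harg : 2 * π * ((nhi R k x : ℝ) * xpt R x θ + (nlo R k x : ℝ) * (xpt R x θ - pos' R k u))
      = (α - π * (gt' q l : ℝ) - 2 * π * E)
        + ((-((c * (16 * u + 8 * 2 ^ blw R k) : ℕ) : ℤ) - ∑ j ∈ range R, z j : ℤ) : ℝ)
          * (2 * π) := by
    rw [hα, hN, hE, pos']
    rw [Int.cast_sub, Int.cast_neg, ← hint]
    ring
  rw [harg, Real.sin_add_int_mul_two_pi]
  have hsign : (if l < q then (-1 : ℝ) else 1) * Real.sin α
      = Real.sin (α - π * (gt' q l : ℝ)) := by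
    unfold gt'
    split_ifs <;> simp [Real.sin_sub_pi]
  rw [hsign]
  refine (Real.abs_sin_sub_sin_le _ _).trans ?_
  rw [sub_sub_cancel_left, abs_neg, abs_mul, abs_of_pos (by positivity : (0 : ℝ) < 2 * π)]
  exact mul_le_mul_of_nonneg_left hEb (by positivity)

end Vale.Agent.P091.Multi
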