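import Vale.Agent.P091.Multi.Count

/-!
P091: the partial sum of one component.
-/

noncomputable section

namespace Vale.Agent.P091.Multi

open Finset Real

variable {R : ℕ}

/-- The mass of an atom. -/
def mass (R k : ℕ) : ℝ := (2 : ℝ) ^ (R + blw R k) / (2 : ℝ) ^ tot R

/-- The resolution of component `k`. -/
def mdeg (R k : ℕ) : ℕ := 2 ^ mex R k

/-- The partial sum of component `k` at a sampling point. -/
def csum (R k x : ℕ) (θ : ℝ) : ℂ :=
  ∑ u ∈ atoms R k, (mass R k : ℂ) *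
    asum (hfun R k u) (mdeg R k) (nfreq R x) (xpt R x θ) (xpt R x θ - pos' R k u)

/-- The gain of component `k` at the point `x`. -/
def gain (R k x : ℕ) : ℝ :=
  open scoped Classical in
  ∑ r ∈ range R, if IsCls R k r x then (2 : ℝ) ^ r else 0

attribute [irreducible] mdeg

lemma mass_pos (R k : ℕ) : 0 < mass R k := by unfold mass; positivity

lemma tot_gap_le_mex (k : ℕ) : tot R + gap R k ≤ mex R k := by
  have := bot_lt_sh (R := R) k R
  have := tot_le_bot (R := R) k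
  unfold mex; omega

lemma nlo_lt_sh (hR : 1 ≤ R) (k x : ℕ) : nlo R k x + 1 ≤ 2 ^ (sh R k R + 1) := by
  have h1 := code_lt hR k x
  have h2 := low_lt hR k x
  have h3 : 2 ^ bot R k ≤ 2 ^ sh R k R := Nat.pow_le_pow_right (by norm_num) (by unfold sh; omega)
  unfold nlo
  rw [pow_succ]
  omega

lemma sum_inv_sq_le (n : ℕ) : ∑ i ∈ range n, 1 / ((i : ℝ) + 1) ^ 2 ≤ 2 - 2 / ((n : ℝ) + 1) := by
  induction n with
  | zero => simp
  | succ n ih =>
    rw [Finset.sum_range_succ]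
    push_cast
    have h1 : (0 : ℝ) < (n : ℝ) + 1 := by positivity
    have h2 : 1 / ((n : ℝ) + 1) ^ 2 ≤ 2 / ((n : ℝ) + 1) - 2 / ((n : ℝ) + 1 + 1) := by
      have e : 2 / ((n : ℝ) + 1) - 2 / ((n : ℝ) + 1 + 1)
          = 2 / (((n : ℝ) + 1) * ((n : ℝ) + 1 + 1)) := by field_simp; ring
      rw [e, div_le_div_iff₀ (by positivity) (by positivity)]
      nlinarith
    linarith

lemma sum_int_inv_sq_le (S : Finset ℤ) : ∑ D ∈ S, 1 / ((|D| : ℝ) + 1) ^ 2 ≤ 4 := by
  classical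
  have key : ∀ T : Finset ℕ, ∑ i ∈ T, 1 / ((i : ℝ) + 1) ^ 2 ≤ 2 := by
    intro T
    obtain ⟨n, hn⟩ : ∃ n, T ⊆ range n := ⟨T.sup id + 1, fun i hi => by
      have := Finset.le_sup (f := id) hi
      simp only [id_eq] at this
      exact Finset.mem_range.2 (by omega)⟩
    refine (Finset.sum_le_sum_of_subset_of_nonneg hn fun i _ _ => by positivity).trans
      ((sum_inv_sq_le n).trans ?_)
    have : 0 ≤ 2 / ((n : ℝ) + 1) := by positivity
    linarith
  have hside : ∀ S' : Finset ℤ, Set.InjOn (fun D : ℤ => D.natAbs) S' →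
      ∑ D ∈ S', 1 / ((|D| : ℝ) + 1) ^ 2 ≤ 2 := by
    intro S' hinj
    refine le_trans (le_of_eq ?_) (key (S'.image fun D : ℤ => D.natAbs))
    rw [Finset.sum_image hinj]
    refine Finset.sum_congr rfl fun D _ => ?_
    rw [Nat.cast_natAbs, Int.cast_abs]
  rw [← Finset.sum_filter_add_sum_filter_not S (fun D => 0 ≤ D)]
  have h1 := hside (S.filter fun D => 0 ≤ D) fun a ha b hb h => by
    simp only [Finset.coe_filter, Set.mem_ofPred_eq] at ha hb
    simp only at h; omega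
  have h2 := hside (S.filter fun D => ¬ 0 ≤ D) fun a ha b hb h => by
    simp only [Finset.coe_filter, Set.mem_ofPred_eq] at ha hb
    simp only at h; omega
  linarith

lemma fejer_periodic (M : ℕ) (y : ℝ) (m : ℤ) : fejer M (y + m) = fejer M y := by
  unfold fejer
  have e : ∀ j : ℕ, ee ((j : ℝ) * (y + m)) = ee ((j : ℝ) * y) := by
    intro j
    rw [mul_add, ee_add, show (j : ℝ) * (m : ℝ) = (((j : ℤ) * m : ℤ) : ℝ) by push_cast; ring,
      ee_intCast, mul_one]
  simp only [e]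

lemma sum_fejer_le (hR : 1 ≤ R) {k x : ℕ} (hk : k < num R) (hx : x < 2 ^ tot R) {θ : ℝ}
    (hθ : θ ∈ Set.Icc (1 / 8 : ℝ) (3 / 8)) :
    ∑ u ∈ atoms R k, fejer (mdeg R k) (xpt R x θ - pos' R k u)
      ≤ 3 * 1024 * 4 * ((2 : ℝ) ^ tot R) ^ 2 / ((mdeg R k : ℝ) + 1) := by
  classical
  obtain ⟨hθ1, hθ2⟩ := hθ
  set T : ℕ := 2 ^ tot R with hT
  set M := mdeg R k
  have hTr : (2 : ℝ) ^ tot R = (T : ℝ) := by rw [hT]; push_cast; rfl
  have hT1 : (1 : ℝ) ≤ T := by rw [← hTr]; exact one_le_pow₀ (by norm_num)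
  set hb : ℕ := 2 ^ blw R k / 2 with hhb
  set D : ℕ → ℤ := fun u => (x : ℤ) - u - hb with hD
  set g : ℤ → ℝ := fun D => 1 / ((|D| : ℝ) + 1) ^ 2 with hg
  have hkey : ∀ u ∈ atoms R k, fejer M (xpt R x θ - pos' R k u)
      ≤ 1024 * (T : ℝ) ^ 2 / ((M : ℝ) + 1) * (g (D u) + g (D u + T) + g (D u - T)) := by
    intro u hu
    obtain ⟨hu1, hu2, -⟩ := mem_atoms.1 hu
    have ho' := offk_small hR (k := k) u
    have ho : 0 ≤ offk R k u * (2 : ℝ) ^ tot R := mul_nonneg (offk_nonneg k u) (by positivity)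
    rw [hTr] at ho ho'
    set θ' : ℝ := θ - ((2 : ℝ) ^ blw R k / 2 - (hb : ℝ)) - offk R k u * T with hθ'
    have hθb : 1 / 32 ≤ |θ'| ∧ |θ'| ≤ 1 / 2 := by
      rcases Nat.eq_zero_or_pos (blw R k) with h0 | h0
      · have : θ' = θ - 1 / 2 - offk R k u * T := by rw [hθ', hhb, h0]; norm_num
        rw [this, abs_of_neg (by linarith)]
        constructor <;> linarith
      · have e : (hb : ℝ) = (2 : ℝ) ^ blw R k / 2 := by
          obtain ⟨c, hc⟩ := Nat.exists_eq_add_of_le h0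
          rw [hhb, hc, pow_add, pow_one, Nat.mul_div_cancel_left _ (by norm_num)]
          push_cast
          rw [pow_add]; ring
        have : θ' = θ - offk R k u * T := by rw [hθ', e]; ring
        rw [this, abs_of_pos (by linarith)]
        constructor <;> linarith
    have hy : xpt R x θ - pos' R k u = ((D u : ℝ) + θ') / T := by
      rw [hθ', hD, xpt, pos', hTr]
      push_cast
      field_simp
      ring
    have hhb2 : u + hb < T := by
      obtain ⟨p, hp⟩ := hu2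
      obtain ⟨q, hq⟩ : 2 ^ blw R k ∣ T := pow_dvd_pow 2 (blw_le_tot hk)
      rw [hT] at hq ⊢
      have hlt : p < q := Nat.lt_of_mul_lt_mul_left (hp ▸ hq ▸ hu1)
      have h1 : 2 ^ blw R k * (p + 1) ≤ 2 ^ blw R k * q := Nat.mul_le_mul_left _ hlt
      rw [mul_add, mul_one, ← hp, ← hq] at h1
      have := Nat.div_lt_self (Nat.two_pow_pos (blw R k)) (by norm_num : 1 < 2)
      omega
    have hDb : |(D u : ℝ)| ≤ (T : ℝ) - 1 := by
      have h1 : |D u| ≤ (T : ℤ) - 1 := by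
        rw [hD]; dsimp only; rw [abs_le]; constructor <;> omega
      exact_mod_cast h1
    set z : ℝ := (D u : ℝ) + θ' with hz
    have hzb : |z / T| ≤ 3 / 2 := by
      rw [abs_div, Nat.abs_cast, div_le_iff₀ (by linarith)]
      refine (abs_add_le _ _).trans ?_
      linarith [hθb.2]
    obtain ⟨p, hp1, hp2⟩ : ∃ p : ℤ, (p = 0 ∨ p = 1 ∨ p = -1) ∧ |z / T + (p : ℝ)| ≤ 1 / 2 := by
      obtain ⟨h1, h2⟩ := abs_le.1 hzb
      rcases le_or_gt (z / (T : ℝ)) (-(1 / 2)) with h | h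
      · exact ⟨1, by simp, by rw [abs_le]; push_cast; constructor <;> linarith⟩
      · rcases le_or_gt (z / (T : ℝ)) (1 / 2) with h' | h'
        · exact ⟨0, by simp, by rw [abs_le]; push_cast; constructor <;> linarith⟩
        · exact ⟨-1, by simp, by rw [abs_le]; push_cast; constructor <;> linarith⟩
    set D' : ℤ := D u + p * T with hD'
    have hz' : z / T + (p : ℝ) = ((D' : ℝ) + θ') / T := by
      rw [hD', hz]; push_cast; field_simp; ring
    have hlow : ((|D'| : ℝ) + 1) / 32 ≤ |(D' : ℝ) + θ'| := by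
      rcases eq_or_ne D' 0 with h0 | h0
      · rw [h0]; simpa using hθb.1
      · have h1 : (1 : ℝ) ≤ |(D' : ℝ)| := by exact_mod_cast Int.one_le_abs h0
        have h2 := abs_sub_abs_le_abs_sub (D' : ℝ) (-θ')
        rw [abs_neg, sub_neg_eq_add] at h2
        linarith [hθb.2]
    have hne : z / T + (p : ℝ) ≠ 0 := by
      rw [hz']
      intro h
      rcases div_eq_zero_iff.1 h with h | h
      · rw [h, abs_zero] at hlow
        have : 0 ≤ (|D'| : ℝ) := abs_nonneg _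
        linarith
      · linarith
    rw [hy, ← fejer_periodic M (z / T) p]
    refine (fejer_decay M hne hp2).trans ?_
    rw [hz']
    have hgle : g D' ≤ g (D u) + g (D u + T) + g (D u - T) := by
      have hg0 : ∀ d, 0 ≤ g d := fun d => by rw [hg]; positivity
      have := hg0 (D u); have := hg0 (D u + T); have := hg0 (D u - T)
      rcases hp1 with rfl | rfl | rfl <;> rw [hD'] <;> simp only [zero_mul, one_mul, add_zero,
        neg_one_mul, ← sub_eq_add_neg] <;> linarith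
    refine le_trans ?_ (mul_le_mul_of_nonneg_left hgle (by positivity))
    have hsq : ((|D'| : ℝ) + 1) ^ 2 / 1024 ≤ ((D' : ℝ) + θ') ^ 2 := by
      rw [← sq_abs ((D' : ℝ) + θ')]
      calc ((|D'| : ℝ) + 1) ^ 2 / 1024 = (((|D'| : ℝ) + 1) / 32) ^ 2 := by ring
        _ ≤ _ := pow_le_pow_left₀ (by positivity) hlow 2
    rw [hg]; dsimp only
    rw [div_pow, mul_div_assoc', one_div_div, div_mul_div_comm, mul_one]
    have hzpos : 0 < ((D' : ℝ) + θ') ^ 2 :=
      lt_of_lt_of_le (by positivity) hsq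
    rw [div_le_div_iff₀ (mul_pos (by positivity) hzpos) (by positivity)]
    have h4 := mul_le_mul_of_nonneg_left hsq (show (0 : ℝ) ≤ (T : ℝ) ^ 2 * ((M : ℝ) + 1) by positivity)
    have h5 : (0 : ℝ) ≤ (T : ℝ) ^ 2 * ((M : ℝ) + 1) * ((D' : ℝ) + θ') ^ 2 := by positivity
    linarith
  refine (Finset.sum_le_sum hkey).trans ?_
  rw [← Finset.mul_sum, hTr]
  have hinj : ∀ c : ℤ, Set.InjOn (fun u => D u + c) (atoms R k) := by
    intro c a _ b _ h; rw [hD] at h; simp only at h; omega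
  have hsum : ∀ c : ℤ, ∑ u ∈ atoms R k, g (D u + c) ≤ 4 := fun c => by
    rw [← Finset.sum_image (f := g) (hinj c)]; exact sum_int_inv_sq_le _
  have h0 := hsum 0
  have h1 := hsum T
  have h2 := hsum (-T)
  simp only [add_zero, ← sub_eq_add_neg] at h0 h2
  rw [Finset.sum_add_distrib, Finset.sum_add_distrib]
  calc 1024 * (T : ℝ) ^ 2 / ((M : ℝ) + 1) * (((∑ u ∈ atoms R k, g (D u))
        + ∑ u ∈ atoms R k, g (D u + T)) + ∑ u ∈ atoms R k, g (D u - T))
      ≤ 1024 * (T : ℝ) ^ 2 / ((M : ℝ) + 1) * (4 + 4 + 4) :=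
        mul_le_mul_of_nonneg_left (by linarith) (by positivity)
    _ = _ := by ring

lemma killed_total (hR : 1 ≤ R) {k x : ℕ} (hk : k < num R) (hx : x < 2 ^ tot R) {θ : ℝ}
    (hθ : θ ∈ Set.Icc (1 / 8 : ℝ) (3 / 8)) :
    mass R k * (2 ^ R * ∑ u ∈ atoms R k, fejer (mdeg R k) (xpt R x θ - pos' R k u)) ≤ 1 := by
  refine (mul_le_mul_of_nonneg_left (mul_le_mul_of_nonneg_left (sum_fejer_le hR hk hx hθ)
    (by positivity)) (mass_pos R k).le).trans ?_
  have hM : (2 : ℝ) ^ (tot R + gap R k) ≤ (mdeg R k : ℝ) + 1 := by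
    have h : 2 ^ (tot R + gap R k) ≤ mdeg R k + 1 := by
      rw [mdeg]
      exact (Nat.pow_le_pow_right (by norm_num) (tot_gap_le_mex k)).trans (Nat.le_succ _)
    exact_mod_cast h
  have hexp : (2 : ℝ) ^ (2 * R + blw R k + 14) ≤ (2 : ℝ) ^ gap R k := by
    refine pow_le_pow_right₀ (by norm_num) ?_
    have := blw_le (R := R) k
    unfold gap; nlinarith
  calc mass R k * (2 ^ R * (3 * 1024 * 4 * ((2 : ℝ) ^ tot R) ^ 2 / ((mdeg R k : ℝ) + 1)))
      ≤ mass R k * (2 ^ R * (3 * 1024 * 4 * ((2 : ℝ) ^ tot R) ^ 2 / (2 : ℝ) ^ (tot R + gap R k))) :=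
        mul_le_mul_of_nonneg_left (mul_le_mul_of_nonneg_left
          (div_le_div_of_nonneg_left (by positivity) (by positivity) hM) (by positivity))
          (mass_pos R k).le
    _ = (2 : ℝ) ^ (2 * R + blw R k) * 12288 / (2 : ℝ) ^ gap R k := by
        unfold mass
        rw [pow_add _ (tot R), pow_add, show 2 * R + blw R k = R + (R + blw R k) by ring,
          pow_add _ R, pow_add]
        field_simp
        ring
    _ ≤ 1 := by
        rw [div_le_one (by positivity)]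
        refine le_trans ?_ hexp
        rw [pow_add _ _ 14]
        exact mul_le_mul_of_nonneg_left (by norm_num) (by positivity)

lemma re_mul_ge {g : ℝ} (hg : |g| ≤ 1) (z : ℂ) (s : ℝ) :
    g * s - ‖z - (s : ℂ)‖ ≤ g * z.re := by
  have h := Complex.abs_re_le_norm (z - (s : ℂ))
  rw [Complex.sub_re, Complex.ofReal_re] at h
  have h2 : |g * (z.re - s)| ≤ ‖z - (s : ℂ)‖ := by
    rw [abs_mul]
    exact le_trans (mul_le_of_le_one_left (abs_nonneg _) hg) h
  have := neg_le_of_abs_le h2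
  linarith

lemma killed_atom (hR : 1 ≤ R) {k x u : ℕ} (hk : k < num R) (hx : x < 2 ^ tot R)
    (hu : u ∈ atoms R k) (θ : ℝ) {g : ℝ} (hg : |g| ≤ 1)
    (h : ∀ r : Fin R, IsCls R k (r : ℕ) x → x / 2 ^ pexp R k r ≠ u / 2 ^ pexp R k r) :
    -(2 ^ R * fejer (mdeg R k) (xpt R x θ - pos' R k u)) ≤
      g * (asum (hfun R k u) (mdeg R k) (nfreq R x) (xpt R x θ) (xpt R x θ - pos' R k u)).re := by
  have hb := asum_killed (M := mdeg R k) (N := nfreq R x) (hfun R k u) (xpt R x θ)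
    (xpt R x θ - pos' R k u)
    (by rw [nfreq_eq hk x, mdeg]; exact killed hR hk hx (mem_atoms.1 hu).1 h)
  have := re_mul_ge hg (asum (hfun R k u) (mdeg R k) (nfreq R x) (xpt R x θ)
    (xpt R x θ - pos' R k u)) 0
  rw [Complex.ofReal_zero, sub_zero, mul_zero] at this
  linarith

lemma visible_atom (hR : 1 ≤ R) {k r x u : ℕ} (hk : k < num R) (hx : x < 2 ^ tot R)
    (hc : IsCls R k r x) (hu : u ∈ atoms R k) (hp : x / 2 ^ pexp R k r = u / 2 ^ pexp R k r)
    {θ : ℝ} (hθ : θ ∈ Set.Icc (1 / 8 : ℝ) (3 / 8)) {g : ℝ} (hg : |g| ≤ 1) :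
    g * (Real.sin (2 * π * ((nhi R k x : ℝ) * xpt R x θ
          + (nlo R k x : ℝ) * (xpt R x θ - pos' R k u)))
        / (2 * (π * (xpt R x θ - pos' R k u))))
      - (2 + (2 : ℝ) ^ (R + 10) * (2 : ℝ) ^ tot R / (2 : ℝ) ^ gap R k)
      ≤ g * (asum (hfun R k u) (mdeg R k) (nfreq R x) (xpt R x θ) (xpt R x θ - pos' R k u)).re := by
  classical
  have hrR : r < R := by have := hc.1; omega
  set rr : Fin R := ⟨r, hrR⟩ with hrr
  obtain ⟨hq, hout⟩ := visible hR hk hx (mem_atoms.1 hu).1 (r := rr) hc hp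
  obtain ⟨hb1, -, hb3⟩ := arel_bounds hR hk hc hu hθ
  set y := xpt R x θ - pos' R k u with hy
  have hyeq : y = arel R k r x u θ * (2 : ℝ) ^ pexp R k (r + 1) / (2 : ℝ) ^ tot R :=
    sub_pos_eq hrR hp θ
  have hylow : 1 / 16 / (2 : ℝ) ^ tot R ≤ |y| := by
    rw [hyeq, abs_div, abs_mul, abs_of_pos (by positivity : (0 : ℝ) < 2 ^ pexp R k (r + 1)),
      abs_of_pos (by positivity : (0 : ℝ) < 2 ^ tot R)]
    refine div_le_div_of_nonneg_right ?_ (by positivity)
    calc (1 / 16 : ℝ) ≤ |arel R k r x u θ| * 1 := by rw [mul_one]; exact hb1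
      _ ≤ _ := mul_le_mul_of_nonneg_left (one_le_pow₀ (by norm_num)) (abs_nonneg _)
  have hy0 : y ≠ 0 := by
    intro h
    rw [h, abs_zero] at hylow
    have : (0 : ℝ) < 1 / 16 / (2 : ℝ) ^ tot R := by positivity
    linarith
  have hmem : Pi.single rr (1 : ℤ) ∈ pats R := by
    simp only [pats, Fintype.mem_piFinset, Finset.mem_Icc]
    intro s
    by_cases hs : s = rr
    · subst hs; simp
    · rw [Pi.single_eq_of_ne hs]; omega
  have hcoef : pcoef (Pi.single rr (1 : ℤ) : Fin R → ℤ) = 1 / 2 := by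
    unfold pcoef
    rw [Finset.prod_eq_single_of_mem rr (Finset.mem_univ _) (fun s _ hs => by
      rw [Pi.single_eq_of_ne hs, if_pos rfl]), Pi.single_eq_same]
    norm_num
  have hne : (Pi.single rr (1 : ℤ) : Fin R → ℤ) ≠ 0 := by simp
  have hyb : |y| ≤ 1 / 2 := by rw [hyeq]; exact hb3
  have hv := asum_visible (R := R) (M := mdeg R k) (N' := nlo R k x) (Nh := nhi R k x) (hfun R k u)
    (by rw [mdeg]; exact nlo_lt hR k x) (by rw [mdeg]; exact two_mex_lt_nhi hR hk x) hmem hne hq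
    hcoef (x := xpt R x θ) hy0 hyb (by rw [mdeg]; exact hout)
  rw [← nfreq_eq hk x] at hv
  have h := re_mul_ge hg (asum (hfun R k u) (mdeg R k) (nfreq R x) (xpt R x θ) y)
    (Real.sin (2 * π * ((nhi R k x : ℝ) * xpt R x θ + (nlo R k x : ℝ) * y)) / (2 * (π * y)))
  have hTpos : (0 : ℝ) < (2 : ℝ) ^ tot R := by positivity
  have hGpos : (0 : ℝ) < (2 : ℝ) ^ gap R k := by positivity
  set M := mdeg R k with hMdef
  have hM1 : (2 : ℝ) ^ (tot R + gap R k) ≤ (M : ℝ) + 1 := by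
    have h : 2 ^ (tot R + gap R k) ≤ M + 1 := by
      rw [hMdef, mdeg]
      exact (Nat.pow_le_pow_right (by norm_num) (tot_gap_le_mex k)).trans (Nat.le_succ _)
    exact_mod_cast h
  have hN1 : ((nlo R k x : ℝ) + 1) * (2 : ℝ) ^ gap R k ≤ 2 * ((M : ℝ) + 1) := by
    have h := Nat.mul_le_mul_right (2 ^ gap R k) (nlo_lt_sh hR k x)
    rw [← pow_add] at h
    have h2 : 2 ^ (sh R k R + 1 + gap R k) ≤ 2 * (M + 1) := by
      rw [hMdef, mdeg, show sh R k R + 1 + gap R k = mex R k + 1 by unfold mex; ring, pow_succ']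
      omega
    exact_mod_cast h.trans h2
  have hy2 : (1 / 16 / (2 : ℝ) ^ tot R) ^ 2 ≤ y ^ 2 := by
    rw [← sq_abs y]; exact pow_le_pow_left₀ (by positivity) hylow 2
  have hR1' : (1 : ℝ) ≤ (2 : ℝ) ^ R := one_le_pow₀ (by norm_num)
  have ht1 : ((2 : ℝ) ^ R + 1) / (4 * ((M : ℝ) + 1) * y ^ 2)
      ≤ 128 * (2 : ℝ) ^ R * (2 : ℝ) ^ tot R / (2 : ℝ) ^ gap R k := by
    calc ((2 : ℝ) ^ R + 1) / (4 * ((M : ℝ) + 1) * y ^ 2)
        ≤ (2 * (2 : ℝ) ^ R) / (4 * (2 : ℝ) ^ (tot R + gap R k) * (1 / 16 / (2 : ℝ) ^ tot R) ^ 2) :=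
          div_le_div₀ (by positivity) (by linarith) (by positivity)
            (mul_le_mul (by linarith) hy2 (by positivity) (by positivity))
      _ = _ := by rw [pow_add]; field_simp; ring
  have ht2 : ((nlo R k x : ℝ) + 1) / (((M : ℝ) + 1) * |y|)
      ≤ 32 * (2 : ℝ) ^ tot R / (2 : ℝ) ^ gap R k := by
    calc ((nlo R k x : ℝ) + 1) / (((M : ℝ) + 1) * |y|)
        ≤ (2 * ((M : ℝ) + 1) / (2 : ℝ) ^ gap R k)
            / (((M : ℝ) + 1) * (1 / 16 / (2 : ℝ) ^ tot R)) :=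
          div_le_div₀ (by positivity) (by rw [le_div_iff₀ hGpos]; exact hN1) (by positivity)
            (mul_le_mul_of_nonneg_left hylow (by positivity))
      _ = _ := by field_simp; ring
  have ht3 : 128 * (2 : ℝ) ^ R * (2 : ℝ) ^ tot R / (2 : ℝ) ^ gap R k
      + 32 * (2 : ℝ) ^ tot R / (2 : ℝ) ^ gap R k
      ≤ (2 : ℝ) ^ (R + 10) * (2 : ℝ) ^ tot R / (2 : ℝ) ^ gap R k := by
    rw [← add_div, pow_add _ R 10]
    refine div_le_div_of_nonneg_right ?_ hGpos.le
    nlinarith [mul_le_mul_of_nonneg_right hR1' hTpos.le]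
  linarith

lemma signal_mid {L q : ℕ} (hL : 4 ≤ L) (hq : Mid L q) [DecidablePred (Mid L)] :
    ((L : ℝ) - 2) * Real.log 2
      ≤ ∑ l ∈ ((range (2 ^ L)).filter (Mid L)).erase q, 1 / (Nat.dist q l : ℝ) := by
  set o := 2 ^ (L - 2) with ho
  have e1 : 2 ^ (L - 1) = 2 * o := by rw [ho, ← pow_succ']; congr 1; omega
  have e2 : 2 ^ L = 4 * o := by
    rw [ho, show (4 : ℕ) = 2 ^ 2 by rfl, ← pow_add]; congr 1; omega
  have h := signal_le (L := L - 1) (q := q - o) (by omega)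
    (by have := hq.1; have := hq.2; omega)
  rw [Nat.cast_sub (by omega : 1 ≤ L)] at h
  push_cast at h
  rw [show ((L : ℝ) - 2) = (L : ℝ) - 1 - 1 by ring]
  refine h.trans (le_of_eq ?_)
  have h1 := hq.1
  have h2 := hq.2
  refine Finset.sum_nbij' (fun l => l + o) (fun l => l - o) ?_ ?_ ?_ ?_ ?_
  · intro l hl
    simp only [Finset.mem_erase, Finset.mem_filter, Finset.mem_range, Mid] at hl ⊢
    omega
  · intro l hl
    simp only [Finset.mem_erase, Finset.mem_filter, Finset.mem_range, Mid] at hl ⊢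
    omega
  · intro l _; simp
  · intro l hl
    simp only [Finset.mem_erase, Finset.mem_filter, Finset.mem_range, Mid] at hl ⊢
    omega
  · intro l _
    rw [show Nat.dist (q - o) l = Nat.dist q (l + o) by rw [Nat.dist, Nat.dist]; omega]

end Vale.Agent.P091.Multi
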