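import Vale.Agent.P091.Multi.Comp

/-!
P091: a lower bound for the partial sum of one component.
-/

noncomputable section

namespace Vale.Agent.P091.Multi

open Finset Real

variable {R : ℕ}

lemma val_bound (hR : 1 ≤ R) {k r x u : ℕ} (hk : k < num R) (hc : IsCls R k r x)
    (hu : u ∈ atoms R k) {θ : ℝ} (hθ : θ ∈ Set.Icc (1 / 8 : ℝ) (3 / 8)) {g : ℝ}
    (hg : |g| ≤ 1)
    (hgσ : g * Real.sin (2 * π * ((nfreq R x : ℝ) * xpt R x θ))
      = -|Real.sin (2 * π * ((nfreq R x : ℝ) * xpt R x θ))|)
    (hσ : 1 / 4 ≤ |Real.sin (2 * π * ((nfreq R x : ℝ) * xpt R x θ))|) :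
    (dig R k r u = dig R k r x → -16 ≤ g * Real.sin (2 * π * ((nhi R k x : ℝ) * xpt R x θ
        + (nlo R k x : ℝ) * (xpt R x θ - pos' R k u))) / arel R k r x u θ) ∧
    (dig R k r u ≠ dig R k r x →
      (1 / 8) / (Nat.dist (dig R k r x) (dig R k r u) : ℝ)
        - 16 * π * (perr (len R k) (dig R k r x) (dig R k r u) + etak R k)
          / (Nat.dist (dig R k r x) (dig R k r u) : ℝ)
      ≤ g * Real.sin (2 * π * ((nhi R k x : ℝ) * xpt R x θ
        + (nlo R k x : ℝ) * (xpt R x θ - pos' R k u))) / arel R k r x u θ) := by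
  set s := Real.sin (2 * π * ((nhi R k x : ℝ) * xpt R x θ
        + (nlo R k x : ℝ) * (xpt R x θ - pos' R k u)))
  set σ := Real.sin (2 * π * ((nfreq R x : ℝ) * xpt R x θ))
  set a := arel R k r x u θ
  set q := dig R k r x
  set l := dig R k r u
  obtain ⟨hb1, hb2, -⟩ := arel_bounds hR hk hc hu hθ
  refine ⟨fun _ => ?_, fun hne => ?_⟩
  · have h1 : |g * s / a| ≤ 16 := by
      rw [abs_div, abs_mul]
      calc |g| * |s| / |a| ≤ 1 * 1 / (1 / 16) := div_le_div₀ (by norm_num)
            (mul_le_mul hg (Real.abs_sin_le_one _) (abs_nonneg _) zero_le_one) (by norm_num) hb1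
        _ = 16 := by norm_num
    linarith [neg_le_of_abs_le h1]
  · obtain ⟨hd1, hd2, hd3⟩ := hb2 hne
    have hd0 : (1 : ℝ) ≤ (Nat.dist q l : ℝ) := by
      exact_mod_cast (by rw [Nat.dist]; omega : 1 ≤ Nat.dist q l)
    have hph := phase_atom hR hk hc hu θ
    set e := s - (if l < q then -1 else 1) * σ with he
    have hmain : g * ((if l < q then (-1 : ℝ) else 1) * σ) / a = |σ| / |a| := by
      split_ifs with h
      · rw [abs_of_pos (hd3.2 h)]
        rw [show g * ((-1 : ℝ) * σ) = -(g * σ) by ring, hgσ, neg_neg]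
      · have ha : a ≤ 0 := le_of_not_gt fun h0 => h (hd3.1 h0)
        rw [abs_of_nonpos ha, one_mul, hgσ, neg_div, div_neg]
    have hsplit : g * s / a = |σ| / |a| + g * e / a := by
      rw [← hmain, he]; ring
    have h1 : (1 / 8) / (Nat.dist q l : ℝ) ≤ |σ| / |a| := by
      calc (1 / 8) / (Nat.dist q l : ℝ) = (1 / 4) / (2 * (Nat.dist q l : ℝ)) := by ring
        _ ≤ _ := div_le_div₀ (abs_nonneg _) hσ (by linarith) hd2
    have h2 : |g * e / a| ≤ 16 * π * (perr (len R k) q l + etak R k) / (Nat.dist q l : ℝ) := by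
      have hb : 0 ≤ 2 * π * (perr (len R k) q l + etak R k) := (abs_nonneg _).trans hph
      rw [abs_div, abs_mul]
      calc |g| * |e| / |a| ≤ 1 * (2 * π * (perr (len R k) q l + etak R k))
            / ((Nat.dist q l : ℝ) / 8) :=
            div_le_div₀ (by linarith) (mul_le_mul hg hph (abs_nonneg _) zero_le_one)
              (by linarith) hd1
        _ = _ := by ring
    rw [hsplit]
    linarith [neg_le_of_abs_le h2]

/-- The lower bound for one component. -/
lemma comp_bound (hR : 1 ≤ R) {k x : ℕ} (hk : k < num R) (hx : x < 2 ^ tot R) {θ : ℝ}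
    (hθ : θ ∈ Set.Icc (1 / 8 : ℝ) (3 / 8)) {g : ℝ} (hg : |g| ≤ 1)
    (hgσ : g * Real.sin (2 * π * ((nfreq R x : ℝ) * xpt R x θ))
      = -|Real.sin (2 * π * ((nfreq R x : ℝ) * xpt R x θ))|)
    (hσ : 1 / 4 ≤ |Real.sin (2 * π * ((nfreq R x : ℝ) * xpt R x θ))|) :
    gain R k x * (len R k : ℝ) / 200 - 1 ≤ g * (csum R k x θ).re := by
  classical
  have hL := len_large hR k
  set F : ℕ → ℝ := fun u =>
    g * (asum (hfun R k u) (mdeg R k) (nfreq R x) (xpt R x θ) (xpt R x θ - pos' R k u)).re with hF
  have hre : g * (csum R k x θ).re = ∑ u ∈ atoms R k, mass R k * F u := by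
    rw [csum, Complex.re_sum, Finset.mul_sum]
    refine Finset.sum_congr rfl fun u _ => ?_
    rw [Complex.re_ofReal_mul, hF]; ring
  rw [hre]
  have hkill : ∀ S ⊆ atoms R k,
      (∀ u ∈ S, -(2 ^ R * fejer (mdeg R k) (xpt R x θ - pos' R k u)) ≤ F u) →
      -1 ≤ ∑ u ∈ S, mass R k * F u := by
    intro S hS h
    calc (-1 : ℝ) ≤ -(mass R k * (2 ^ R * ∑ u ∈ atoms R k,
          fejer (mdeg R k) (xpt R x θ - pos' R k u))) := by
          linarith [killed_total hR hk hx hθ]
      _ = ∑ u ∈ atoms R k, mass R k * -(2 ^ R * fejer (mdeg R k) (xpt R x θ - pos' R k u)) := by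
          rw [Finset.mul_sum, Finset.mul_sum, ← Finset.sum_neg_distrib]
          exact Finset.sum_congr rfl fun u _ => by ring
      _ ≤ ∑ u ∈ S, mass R k * -(2 ^ R * fejer (mdeg R k) (xpt R x θ - pos' R k u)) := by
          rw [← Finset.sum_sdiff hS]
          refine add_le_of_nonpos_left (Finset.sum_nonpos fun u _ => ?_)
          rw [mul_neg, neg_nonpos]
          exact mul_nonneg (mass_pos R k).le (mul_nonneg (by positivity) (fejer_nonneg _ _))
      _ ≤ _ := Finset.sum_le_sum fun u hu => mul_le_mul_of_nonneg_left (h u hu) (mass_pos R k).le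
  by_cases hcls : ∃ r, IsCls R k r x
  · obtain ⟨r, hc⟩ := hcls
    have hr : r + 1 < R := hc.1
    have hgain : gain R k x = (2 : ℝ) ^ r := by unfold gain; rw [sum_isCls_eq hR hc]
    rw [hgain]
    set L := len R k with hLdef
    set q := dig R k r x with hq
    set V := (atoms R k).filter fun u => x / 2 ^ pexp R k r = u / 2 ^ pexp R k r with hV
    rw [← Finset.sum_filter_add_sum_filter_not (atoms R k)
      (fun u => x / 2 ^ pexp R k r = u / 2 ^ pexp R k r), ← hV]
    have hrest : -1 ≤ ∑ u ∈ (atoms R k).filter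
        (fun u => ¬ x / 2 ^ pexp R k r = u / 2 ^ pexp R k r), mass R k * F u := by
      refine hkill _ (Finset.filter_subset _ _) fun u hu => ?_
      obtain ⟨hu1, hu2⟩ := Finset.mem_filter.1 hu
      refine killed_atom hR hk hx hu1 θ hg fun r' hr' hp => ?_
      rw [isCls_unique hR hr' hc] at hp
      exact hu2 hp
    set H : ℝ := (2 : ℝ) ^ pexp R k (r + 1) with hH
    set T : ℝ := (2 : ℝ) ^ tot R with hT
    set s : ℕ → ℝ := fun u => Real.sin (2 * π * ((nhi R k x : ℝ) * xpt R x θ
        + (nlo R k x : ℝ) * (xpt R x θ - pos' R k u))) with hs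
    set C : ℝ := 2 + (2 : ℝ) ^ (R + 10) * T / (2 : ℝ) ^ gap R k with hC
    have hvis : ∀ u ∈ V, T / (2 * π * H) * (g * s u / arel R k r x u θ) - C ≤ F u := by
      intro u hu
      obtain ⟨hu1, hu2⟩ := Finset.mem_filter.1 hu
      have h := visible_atom hR hk hx hc hu1 hu2 hθ hg
      refine le_trans (le_of_eq ?_) h
      rw [hC, hT, hs, hH]
      dsimp only
      generalize Real.sin (2 * π * ((nhi R k x : ℝ) * xpt R x θ
        + (nlo R k x : ℝ) * (xpt R x θ - pos' R k u))) = S
      rw [sub_pos_eq (by omega : r < R) hu2 θ]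
      field_simp
    have hmaps : ∀ u ∈ V, dig R k r u ∈ (range (2 ^ L)).filter (Mid L) := by
      intro u hu
      rw [Finset.mem_filter, Finset.mem_range]
      exact ⟨dig_lt k r u, (mem_atoms.1 (Finset.mem_filter.1 hu).1).2.2 r (by omega)⟩
    have hqmid : q ∈ (range (2 ^ L)).filter (Mid L) := by
      rw [Finset.mem_filter, Finset.mem_range]; exact ⟨dig_lt k r x, hc.2.1 r le_rfl⟩
    set val : ℕ → ℝ := fun l => if l = q then -16 else
      (1 / 8) / (Nat.dist q l : ℝ) - 16 * π * (perr L q l + etak R k) / (Nat.dist q l : ℝ) with hval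
    set c : ℝ := (((2 ^ (L - 1)) ^ (R - r - 1) : ℕ) : ℝ) with hc'
    have hmc : mass R k * c = (2 : ℝ) ^ (r + 1) * H / T := by
      have key : R + blw R k + (L - 1) * (R - r - 1) = r + 1 + pexp R k (r + 1) := by
        rw [pexp, hLdef, ← Nat.sub_add_eq]
        obtain ⟨m, hm⟩ := Nat.exists_eq_add_of_le (show r + 1 ≤ R by omega)
        obtain ⟨l, hl⟩ := Nat.exists_eq_add_of_le (show 1 ≤ len R k by omega)
        rw [hm, Nat.add_sub_cancel_left, ← hm, hl, Nat.add_sub_cancel_left]
        subst hm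
        ring
      rw [hc', mass, Nat.cast_pow, Nat.cast_pow, Nat.cast_ofNat, ← pow_mul, div_mul_eq_mul_div,
        ← pow_add, key, pow_add]
    have hsum : ∑ l ∈ (range (2 ^ L)).filter (Mid L),
        ((2 : ℝ) ^ r / π * val l - (2 : ℝ) ^ (r + 1) * H / T * C) ≤ ∑ u ∈ V, mass R k * F u := by
      rw [← Finset.sum_fiberwise_of_maps_to hmaps]
      refine Finset.sum_le_sum fun l hl => ?_
      obtain ⟨hl1, hl2⟩ := Finset.mem_filter.1 hl
      have hfib : V.filter (fun u => dig R k r u = l) = fib R k r x l := by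
        ext u; rw [hV, fib]; simp only [Finset.mem_filter]; tauto
      rw [hfib]
      have hcard : ((fib R k r x l).card : ℝ) = c := by
        rw [hc', card_fib hR hk hx hc (Finset.mem_range.1 hl1) hl2, hLdef]
      have hHne : H ≠ 0 := by positivity
      have hTne : T ≠ 0 := by positivity
      calc (2 : ℝ) ^ r / π * val l - (2 : ℝ) ^ (r + 1) * H / T * C
          = ∑ _u ∈ fib R k r x l, mass R k * (T / (2 * π * H) * val l - C) := by
            rw [Finset.sum_const, nsmul_eq_mul, hcard, ← mul_assoc, mul_comm c, hmc, pow_succ]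
            field_simp
            try ring
        _ ≤ _ := by
            refine Finset.sum_le_sum fun u hu => mul_le_mul_of_nonneg_left ?_ (mass_pos R k).le
            rw [fib, Finset.mem_filter] at hu
            obtain ⟨hu1, hu2, hu3⟩ := hu
            refine le_trans (sub_le_sub_right (mul_le_mul_of_nonneg_left ?_ (by positivity)) C)
              (hvis u (by rw [hV, Finset.mem_filter]; exact ⟨hu1, hu2⟩))
            have hb := val_bound hR hk hc hu1 hθ hg hgσ hσ
            rw [hu3] at hb
            rw [hval]; dsimp only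
            split_ifs with hlq
            · exact hb.1 hlq
            · exact hb.2 hlq
    have hsub : ((range (2 ^ L)).filter (Mid L)).erase q ⊆ (range (2 ^ L)).erase q :=
      Finset.erase_subset_erase _ (Finset.filter_subset _ _)
    have hη0 : 0 ≤ etak R k := by unfold etak; positivity
    have hetaL : (2 : ℝ) ^ L * etak R k ≤ 1 := by
      have h : 2 ^ L * (2 * R * L) ≤ 2 ^ base L := by
        have hRL : R ≤ L := by
          rw [hLdef]; unfold len
          calc R = 1 * R * 1 := by ring
            _ ≤ _ := by gcongr <;> [norm_num; exact Nat.one_le_two_pow]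
        have h2 : L * L ≤ 2 ^ (L + 9) := by
          have : L ^ 2 ≤ 2 ^ L := by
            clear_value L
            have hL4 : 4 ≤ L := by omega
            clear * - hL4
            induction L, hL4 using Nat.le_induction with
            | base => norm_num
            | succ n hn ih => rw [pow_succ 2 n]; nlinarith
          rw [← sq, pow_add]
          exact this.trans (Nat.le_mul_of_pos_right _ (by norm_num))
        calc 2 ^ L * (2 * R * L) ≤ 2 ^ L * (2 * L * L) := by gcongr
          _ ≤ 2 ^ L * (2 * 2 ^ (L + 9)) := by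
              rw [mul_assoc 2 L L]; gcongr
          _ = _ := by unfold base; rw [← pow_succ', ← pow_add]; ring_nf
      have h' : (2 : ℝ) ^ L * (2 * (R : ℝ) * L) ≤ (2 : ℝ) ^ base L := by exact_mod_cast h
      rw [etak, ← hLdef, ← mul_assoc, ← div_eq_mul_inv, div_le_one (by positivity)]
      exact h'
    have hvalsum : 0.035 * (L : ℝ) ≤ ∑ l ∈ (range (2 ^ L)).filter (Mid L), val l := by
      rw [← Finset.add_sum_erase _ _ hqmid, hval]
      simp only [if_true]
      rw [Finset.sum_congr rfl (g := fun l => (1 / 8 : ℝ) / (Nat.dist q l : ℝ)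
          - 16 * π * (perr L q l + etak R k) / (Nat.dist q l : ℝ))
          (fun l hl => if_neg (Finset.mem_erase.1 hl).1), Finset.sum_sub_distrib]
      have h1 := signal_mid (L := L) (q := q) (by omega) (hc.2.1 r le_rfl)
      have h1' : ∑ l ∈ ((range (2 ^ L)).filter (Mid L)).erase q, (1 / 8 : ℝ) / (Nat.dist q l : ℝ)
          = (1 / 8) * ∑ l ∈ ((range (2 ^ L)).filter (Mid L)).erase q,
            1 / (Nat.dist q l : ℝ) := by
        rw [Finset.mul_sum]; exact Finset.sum_congr rfl fun l _ => by ring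
      have h2 : ∑ l ∈ ((range (2 ^ L)).filter (Mid L)).erase q,
          16 * π * (perr L q l + etak R k) / (Nat.dist q l : ℝ)
          ≤ 16 * π * ((L : ℝ) / 1024 + 2) := by
        have hperr : ∀ l, 0 ≤ perr L q l := fun l => by
          unfold perr tiny
          exact add_nonneg (by positivity) (Finset.sum_nonneg fun e _ => lerr_nonneg _ _ _ _)
        refine (Finset.sum_le_sum_of_subset_of_nonneg hsub fun l _ _ => by
          have := hperr l; positivity).trans ?_
        refine (Finset.sum_le_sum (g := fun l =>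
          16 * π * (perr L q l / (Nat.dist q l : ℝ)) + 16 * π * etak R k) fun l hl => ?_).trans ?_
        · have hd0 : (1 : ℝ) ≤ (Nat.dist q l : ℝ) := by
            have := (Finset.mem_erase.1 hl).1
            exact_mod_cast (by rw [Nat.dist]; omega : 1 ≤ Nat.dist q l)
          rw [mul_add, add_div, mul_div_assoc]
          exact add_le_add le_rfl (div_le_self (by positivity) hd0)
        · rw [Finset.sum_add_distrib, ← Finset.mul_sum, Finset.sum_const, nsmul_eq_mul]
          have hcard : ((((range (2 ^ L)).erase q).card : ℕ) : ℝ) ≤ (2 : ℝ) ^ L := by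
            calc _ ≤ ((2 ^ L : ℕ) : ℝ) :=
                  Nat.cast_le.2 (Finset.card_erase_le.trans_eq (Finset.card_range _))
              _ = _ := by rw [Nat.cast_pow, Nat.cast_ofNat]
          have h3 := mul_le_mul_of_nonneg_right hcard (by positivity : 0 ≤ 16 * π * etak R k)
          have h4 := mul_le_mul_of_nonneg_left hetaL (by positivity : (0 : ℝ) ≤ 16 * π)
          have h5 := mul_le_mul_of_nonneg_left (perr_avg_le (q := q) (dig_lt k r x))
            (by positivity : (0 : ℝ) ≤ 16 * π)
          rw [← hLdef] at h5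
          linarith
      rw [h1']
      have hlog : (0.693 : ℝ) ≤ Real.log 2 := by linarith [Real.log_two_gt_d9]
      have hLr : (65536 : ℝ) ≤ L := by exact_mod_cast hL
      have h6 : ((L : ℝ) - 2) * 0.693 ≤ ((L : ℝ) - 2) * Real.log 2 :=
        mul_le_mul_of_nonneg_left hlog (by linarith)
      have h7 : 16 * π * ((L : ℝ) / 1024 + 2) ≤ 16 * 3.1416 * ((L : ℝ) / 1024 + 2) :=
        mul_le_mul_of_nonneg_right (by linarith [Real.pi_lt_d4]) (by positivity)
      linarith
    have hCsum : (((range (2 ^ L)).filter (Mid L)).card : ℝ) * ((2 : ℝ) ^ (r + 1) * H / T * C)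
        ≤ 5 * (2 : ℝ) ^ r := by
      rw [card_mid (by omega : 2 ≤ L)]
      push_cast
      have hHT : (2 : ℝ) ^ L * H ≤ T := by
        rw [hH, hT, ← pow_add]
        refine pow_le_pow_right₀ (by norm_num) ?_
        have := pexp_succ (R := R) (k := k) (by omega : r < R)
        have := pexp_le_tot (R := R) hk r
        omega
      have hG : (2 : ℝ) ^ (R + 10) * ((2 : ℝ) ^ L * H) ≤ (2 : ℝ) ^ gap R k := by
        rw [hH, ← pow_add, ← pow_add]
        refine pow_le_pow_right₀ (by norm_num) ?_
        have := pexp_succ (R := R) (k := k) (by omega : r < R)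
        have h1 : pexp R k r ≤ blw R (k + 1) := by
          rw [pexp, blw_succ]; gcongr; exact Nat.sub_le _ _
        have h2 := blw_succ (R := R) k
        have h3 := blw_le (R := R) k
        unfold gap
        nlinarith
      have hTpos : 0 < T := by positivity
      have hGpos : (0 : ℝ) < (2 : ℝ) ^ gap R k := by positivity
      have hL1 : (2 : ℝ) ^ L = 2 * (2 : ℝ) ^ (L - 1) := by
        rw [← pow_succ']; congr 1; omega
      calc (2 : ℝ) ^ (L - 1) * ((2 : ℝ) ^ (r + 1) * H / T * C)
          = (2 : ℝ) ^ r * (2 * ((2 : ℝ) ^ L * H / T))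
            + (2 : ℝ) ^ r * ((2 : ℝ) ^ (R + 10) * ((2 : ℝ) ^ L * H) / (2 : ℝ) ^ gap R k) := by
            rw [hC, hL1, pow_succ]; field_simp
        _ ≤ (2 : ℝ) ^ r * (2 * 1) + (2 : ℝ) ^ r * 1 := by
            gcongr
            · rw [div_le_one hTpos]; exact hHT
            · rw [div_le_one hGpos]; exact hG
        _ ≤ _ := by linarith [pow_pos (by norm_num : (0 : ℝ) < 2) r]
    rw [Finset.sum_sub_distrib, ← Finset.mul_sum, Finset.sum_const, nsmul_eq_mul] at hsum
    have h0 : (2 : ℝ) ^ r * (0.011 * (L : ℝ))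
        ≤ (2 : ℝ) ^ r / π * ∑ l ∈ (range (2 ^ L)).filter (Mid L), val l := by
      rw [div_mul_eq_mul_div, le_div_iff₀ Real.pi_pos, mul_assoc]
      refine mul_le_mul_of_nonneg_left (le_trans ?_ hvalsum) (by positivity)
      calc 0.011 * (L : ℝ) * π ≤ 0.011 * (L : ℝ) * 3.15 :=
            mul_le_mul_of_nonneg_left (by linarith [Real.pi_lt_d4]) (by positivity)
        _ ≤ _ := by linarith [(Nat.cast_nonneg L : (0 : ℝ) ≤ L)]
    have hr1 : (1 : ℝ) ≤ (2 : ℝ) ^ r := one_le_pow₀ (by norm_num)
    have hLr : (65536 : ℝ) ≤ L := by exact_mod_cast hL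
    have h9 : (2 : ℝ) ^ r * 10 ≤ (2 : ℝ) ^ r * (0.006 * (L : ℝ)) :=
      mul_le_mul_of_nonneg_left (by linarith) (by positivity)
    have h10 : (2 : ℝ) ^ r * (L : ℝ) / 200 = (2 : ℝ) ^ r * (0.005 * (L : ℝ)) := by ring
    linarith
  · push Not at hcls
    have hgain : gain R k x = 0 := by unfold gain; rw [sum_isCls_none hcls]
    rw [hgain, zero_mul, zero_div, zero_sub]
    exact hkill _ le_rfl fun u hu =>
      killed_atom hR hk hx hu θ hg fun r hr _ => hcls _ hr

end Vale.Agent.P091.Multi
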