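import Vale.Agent.P091.Multi.Comp

/-!
P091: most sampling points have a large total gain.
-/

noncomputable section

namespace Vale.Agent.P091.Multi

open Finset

variable {R : ℕ}

/-- Indicator that the digits `v` use group `r`. -/
def clsInd (R k r v : ℕ) : ℝ :=
  open scoped Classical in
  ∏ j ∈ range R,
    if j ≤ r then (if Mid (len R k) (v / 2 ^ ((R - 1 - j) * len R k) % 2 ^ len R k) then 1 else 0)
    else if j = r + 1 then
      (if Outer (len R k) (v / 2 ^ ((R - 1 - j) * len R k) % 2 ^ len R k) then 1 else 0)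
    else 1

/-- The gain as a function of the digits. -/
def gainV (R k v : ℕ) : ℝ := ∑ r ∈ range (R - 1), (2 : ℝ) ^ r * clsInd R k r v

lemma clsInd_eq {k r x : ℕ} (hr : r + 1 < R) [Decidable (IsCls R k r x)] :
    clsInd R k r (idk R k x) = if IsCls R k r x then 1 else 0 := by
  classical
  unfold clsInd
  by_cases h : IsCls R k r x
  · rw [if_pos h]
    refine Finset.prod_eq_one fun j _ => ?_
    split_ifs with h1 h2 h3 h4
    · rfl
    · exact absurd (h.2.1 j h1) h2
    · rfl
    · subst h3; exact absurd h.2.2 h4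
    · rfl
  · rw [if_neg h]
    rw [IsCls, not_and, not_and_or] at h
    rcases h hr with h | h
    · push Not at h
      obtain ⟨j, hj, hm⟩ := h
      refine Finset.prod_eq_zero (Finset.mem_range.2 (by omega : j < R)) ?_
      rw [if_pos hj]
      exact if_neg hm
    · refine Finset.prod_eq_zero (Finset.mem_range.2 hr) ?_
      rw [if_neg (by omega), if_pos rfl]
      exact if_neg h

lemma gain_eq (k x : ℕ) : gain R k x = gainV R k (idk R k x) := by
  classical
  unfold gain gainV
  rcases Nat.eq_zero_or_pos R with rfl | hR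
  · simp
  rw [← Finset.sum_subset (Finset.range_mono (Nat.sub_le R 1))
    (fun r hr hr' => if_neg fun h => hr' (Finset.mem_range.2 (by have := h.1; omega)))]
  refine Finset.sum_congr rfl fun r hr => ?_
  rw [clsInd_eq (by have := Finset.mem_range.1 hr; omega)]
  simp

lemma clsInd_mul_self (k r v : ℕ) : clsInd R k r v * clsInd R k r v = clsInd R k r v := by
  classical
  unfold clsInd
  rw [← Finset.prod_mul_distrib]
  exact Finset.prod_congr rfl fun j _ => by split_ifs <;> simp

lemma sum_clsInd (hR : 1 ≤ R) (k : ℕ) {r : ℕ} (hr : r + 1 < R) :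
    ∑ v ∈ range (2 ^ (R * len R k)), clsInd R k r v
      = (2 : ℝ) ^ (R * len R k) / 2 ^ (r + 3) := by
  classical
  have hL := len_large hR k
  set L := len R k with hLdef
  unfold clsInd
  rw [← hLdef, sum_digits L R (fun j d => if j ≤ r then (if Mid L d then (1 : ℝ) else 0)
    else if j = r + 1 then (if Outer L d then 1 else 0) else 1)]
  set a : ℕ → ℝ := fun j => if j ≤ r then (2 : ℝ)⁻¹ else if j = r + 1 then (4 : ℝ)⁻¹ else 1 with ha
  have h1 : ∀ j ∈ range R, (∑ d ∈ range (2 ^ L), if j ≤ r then (if Mid L d then (1 : ℝ) else 0)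
      else if j = r + 1 then (if Outer L d then 1 else 0) else 1) = (2 : ℝ) ^ L * a j := by
    intro j _
    rw [ha]; dsimp only
    split_ifs
    · rw [Finset.sum_boole, card_mid (by omega)]
      push_cast
      obtain ⟨l, hl⟩ := Nat.exists_eq_add_of_le (show 1 ≤ L by omega)
      rw [hl, Nat.add_sub_cancel_left, pow_add]; ring
    · rw [Finset.sum_boole, card_outer (by omega)]
      push_cast
      obtain ⟨l, hl⟩ := Nat.exists_eq_add_of_le (show 2 ≤ L by omega)
      rw [hl, Nat.add_sub_cancel_left, pow_add]; ring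
    · simp
  rw [Finset.prod_congr rfl h1, Finset.prod_mul_distrib, Finset.prod_const, Finset.card_range,
    ← pow_mul, mul_comm L R, div_eq_mul_inv]
  congr 1
  rw [← Finset.prod_subset (Finset.range_mono (show r + 2 ≤ R by omega)) (fun j _ hj => by
    rw [Finset.mem_range] at hj
    rw [ha]; dsimp only
    rw [if_neg (by omega), if_neg (by omega)]), Finset.prod_range_succ,
    Finset.prod_congr rfl (g := fun _ => (2 : ℝ)⁻¹) (fun j hj => by
      rw [ha]; dsimp only
      rw [if_pos (by have := Finset.mem_range.1 hj; omega)]),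
    Finset.prod_const, Finset.card_range]
  simp only [ha, if_neg (show ¬ r + 1 ≤ r by omega), if_true]
  rw [inv_pow, ← mul_inv]
  congr 1
  ring

lemma clsInd_mul_ne (hR : 1 ≤ R) (k v : ℕ) {r r' : ℕ} (h : r < r') (hr' : r' < R) :
    clsInd R k r v * clsInd R k r' v = 0 := by
  classical
  unfold clsInd
  rw [← Finset.prod_mul_distrib]
  refine Finset.prod_eq_zero (Finset.mem_range.2 (by omega : r + 1 < R)) ?_
  rw [if_neg (show ¬ r + 1 ≤ r by omega), if_pos rfl, if_pos (show r + 1 ≤ r' by omega)]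
  have hL := len_large hR k
  have e : 2 ^ (len R k - 2) = 2 * 2 ^ (len R k - 3) := by
    rw [← pow_succ']; congr 1; omega
  split_ifs with h1 h2 <;> try simp only [mul_zero, zero_mul]
  exfalso
  unfold Mid at h2
  unfold Outer at h1
  rw [e] at h2
  omega

lemma sum_gainV (hR : 1 ≤ R) (k : ℕ) :
    ∑ v ∈ range (2 ^ (R * len R k)), gainV R k v
      = (2 : ℝ) ^ (R * len R k) * (((R : ℝ) - 1) / 8) := by
  unfold gainV
  rw [Finset.sum_comm, Finset.sum_congr rfl
    (g := fun _ => (2 : ℝ) ^ (R * len R k) * (1 / 8)) fun r hr => ?_]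
  · rw [Finset.sum_const, Finset.card_range, nsmul_eq_mul, Nat.cast_sub hR]
    push_cast; ring
  · rw [← Finset.mul_sum, sum_clsInd hR k (by have := Finset.mem_range.1 hr; omega), pow_add]
    field_simp
    norm_num

lemma sum_gainV_sq (hR : 1 ≤ R) (k : ℕ) :
    ∑ v ∈ range (2 ^ (R * len R k)), gainV R k v * gainV R k v
      ≤ (2 : ℝ) ^ (R * len R k) * ((2 : ℝ) ^ R / 8) := by
  classical
  have e : ∀ v, gainV R k v * gainV R k v
      = ∑ r ∈ range (R - 1), (4 : ℝ) ^ r * clsInd R k r v := by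
    intro v
    unfold gainV
    rw [Finset.sum_mul]
    refine Finset.sum_congr rfl fun r hr => ?_
    rw [Finset.mul_sum, Finset.sum_eq_single_of_mem r hr]
    · rw [mul_mul_mul_comm, clsInd_mul_self, ← mul_pow]; norm_num
    · intro s hs hne
      rw [mul_mul_mul_comm]
      have hr' := Finset.mem_range.1 hr
      have hs' := Finset.mem_range.1 hs
      rcases lt_or_gt_of_ne hne with h | h
      · rw [mul_comm (clsInd R k r v), clsInd_mul_ne hR k v h (by omega), mul_zero]
      · rw [clsInd_mul_ne hR k v h (by omega), mul_zero]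
  rw [Finset.sum_congr rfl fun v _ => e v, Finset.sum_comm,
    Finset.sum_congr rfl (g := fun r => (2 : ℝ) ^ (R * len R k) / 8 * (2 : ℝ) ^ r) fun r hr => ?_]
  · rw [← Finset.mul_sum]
    have hg : ∀ n : ℕ, ∑ r ∈ range n, (2 : ℝ) ^ r ≤ (2 : ℝ) ^ n := by
      intro n
      induction n with
      | zero => simp
      | succ n ih => rw [Finset.sum_range_succ, pow_succ]; linarith
    calc (2 : ℝ) ^ (R * len R k) / 8 * ∑ r ∈ range (R - 1), (2 : ℝ) ^ r
        ≤ (2 : ℝ) ^ (R * len R k) / 8 * (2 : ℝ) ^ R := mul_le_mul_of_nonneg_left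
          ((hg _).trans (pow_le_pow_right₀ (by norm_num) (Nat.sub_le R 1))) (by positivity)
      _ = _ := by ring
  · rw [← Finset.mul_sum, sum_clsInd hR k (by have := Finset.mem_range.1 hr; omega), pow_add,
      show (4 : ℝ) ^ r = 2 ^ r * 2 ^ r by rw [← mul_pow]; norm_num]
    field_simp
    norm_num

/-- The total gain. -/
def zgain (R x : ℕ) : ℝ := ∑ k ∈ range (num R), gain R k x

/-- The sampling points with a large total gain. -/
def goodPts (R : ℕ) : Finset ℕ :=
  open scoped Classical in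
  (range (2 ^ tot R)).filter fun x => (num R : ℝ) * ((R : ℝ) - 1) / 16 ≤ zgain R x

lemma card_goodPts (hR : 9 ≤ R) : (2 : ℝ) ^ tot R / 2 ≤ ((goodPts R).card : ℝ) := by
  classical
  have hR1 : 1 ≤ R := by omega
  set T : ℝ := (2 : ℝ) ^ tot R with hT
  set μ : ℝ := ((R : ℝ) - 1) / 8 with hμ
  set Y : ℕ → ℕ → ℝ := fun k v => gainV R k v - μ with hY
  have hY0 : ∀ k, ∑ v ∈ range (2 ^ (R * len R k)), Y k v = 0 := by
    intro k
    rw [hY]; dsimp only
    rw [Finset.sum_sub_distrib, sum_gainV hR1, Finset.sum_const, Finset.card_range, nsmul_eq_mul,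
      Nat.cast_pow, Nat.cast_ofNat]
    ring
  have hY2 : ∀ k, ∑ v ∈ range (2 ^ (R * len R k)), Y k v * Y k v
      ≤ (2 : ℝ) ^ (R * len R k) * ((2 : ℝ) ^ R / 8) := by
    intro k
    refine le_trans ?_ (sum_gainV_sq hR1 k)
    have e : ∑ v ∈ range (2 ^ (R * len R k)), gainV R k v * gainV R k v
        = ∑ v ∈ range (2 ^ (R * len R k)), Y k v * Y k v
          + 2 * μ * ∑ v ∈ range (2 ^ (R * len R k)), Y k v
          + ∑ _v ∈ range (2 ^ (R * len R k)), μ * μ := by
      rw [Finset.mul_sum, ← Finset.sum_add_distrib, ← Finset.sum_add_distrib]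
      exact Finset.sum_congr rfl fun v _ => by rw [hY]; ring
    rw [e, hY0, mul_zero, add_zero]
    exact le_add_of_nonneg_right (Finset.sum_nonneg fun _ _ => mul_self_nonneg _)
  have hcross : ∀ k ∈ range (num R), ∀ k' ∈ range (num R), k ≠ k' →
      ∑ x ∈ range (2 ^ tot R), Y k (idk R k x) * Y k' (idk R k' x) = 0 := by
    intro k hk k' hk' hne
    wlog hlt : k' < k generalizing k k'
    · have := this k' hk' k hk (Ne.symm hne) (by omega)
      rw [← this]
      exact Finset.sum_congr rfl fun x _ => mul_comm _ _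
    have h := sum_idk₂ (α := ℝ) (Finset.mem_range.1 hk) hlt (Y k) (Y k')
    rw [hY0, zero_mul, mul_zero] at h
    exact (mul_eq_zero.1 h).resolve_right (by positivity)
  have hdiag : ∀ k ∈ range (num R),
      ∑ x ∈ range (2 ^ tot R), Y k (idk R k x) * Y k (idk R k x) ≤ T * ((2 : ℝ) ^ R / 8) := by
    intro k hk
    have h := sum_idk (α := ℝ) (Finset.mem_range.1 hk) (fun v => Y k v * Y k v)
    have h2 := mul_le_mul_of_nonneg_left (hY2 k) (show 0 ≤ T by positivity)
    rw [← hT] at h
    rw [← h, ← mul_assoc, mul_right_comm T] at h2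
    exact le_of_mul_le_mul_right h2 (by positivity)
  set Z : ℕ → ℝ := fun x => zgain R x - (num R : ℝ) * μ with hZ
  have hZ2 : ∑ x ∈ range (2 ^ tot R), Z x * Z x ≤ (num R : ℝ) * (T * ((2 : ℝ) ^ R / 8)) := by
    have e : ∀ x, Z x = ∑ k ∈ range (num R), Y k (idk R k x) := by
      intro x
      rw [hZ, hY]; dsimp only
      rw [Finset.sum_sub_distrib, zgain, Finset.sum_const, Finset.card_range, nsmul_eq_mul]
      simp only [gain_eq]
    simp only [e, Finset.sum_mul_sum]
    rw [Finset.sum_comm]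
    refine (Finset.sum_le_sum (g := fun _ => T * ((2 : ℝ) ^ R / 8)) fun k hk => ?_).trans
      (by rw [Finset.sum_const, Finset.card_range, nsmul_eq_mul])
    rw [Finset.sum_comm, Finset.sum_eq_single_of_mem k hk
      (fun k' hk' hne => hcross k hk k' hk' (Ne.symm hne))]
    exact hdiag k hk
  set bad := (range (2 ^ tot R)).filter fun x => ¬ (num R : ℝ) * ((R : ℝ) - 1) / 16 ≤ zgain R x
    with hbad
  have hm : (num R : ℝ) = (2 : ℝ) ^ R := by unfold num; push_cast; rfl
  have hR9 : (8 : ℝ) ≤ (R : ℝ) - 1 := by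
    have : (9 : ℝ) ≤ R := by exact_mod_cast hR
    linarith
  have hb : (bad.card : ℝ) * ((num R : ℝ) * μ / 2) ^ 2 ≤ (num R : ℝ) * (T * ((2 : ℝ) ^ R / 8)) := by
    refine le_trans ?_ hZ2
    refine le_trans ?_ (Finset.sum_le_sum_of_subset_of_nonneg
      (show bad ⊆ range (2 ^ tot R) from hbad ▸ Finset.filter_subset
        (fun x => ¬ (num R : ℝ) * ((R : ℝ) - 1) / 16 ≤ zgain R x) _)
      fun x _ _ => mul_self_nonneg _)
    rw [← nsmul_eq_mul, ← Finset.sum_const]
    refine Finset.sum_le_sum fun x hx => ?_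
    obtain ⟨-, hx2⟩ := Finset.mem_filter.1 hx
    push Not at hx2
    have h1 : (num R : ℝ) * μ / 2 ≤ -Z x := by rw [hZ, hμ]; dsimp only; linarith
    have h2 : 0 ≤ (num R : ℝ) * μ / 2 := by rw [hμ]; positivity
    nlinarith
  have hcard : ((goodPts R).card : ℝ) + (bad.card : ℝ) = T := by
    have h : (goodPts R).card + bad.card = 2 ^ tot R := by
      rw [goodPts, hbad, Finset.card_filter_add_card_filter_not
        (fun x => (num R : ℝ) * ((R : ℝ) - 1) / 16 ≤ zgain R x), Finset.card_range]
    rw [hT]; exact_mod_cast h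
  have hbad2 : (bad.card : ℝ) ≤ T / 2 := by
    rw [hm] at hb
    have hμ1 : 1 ≤ μ := by rw [hμ]; linarith
    have hX : (0 : ℝ) < (2 : ℝ) ^ R := by positivity
    have h3 : (bad.card : ℝ) * (((2 : ℝ) ^ R) ^ 2 / 4)
        ≤ (bad.card : ℝ) * ((2 : ℝ) ^ R * μ / 2) ^ 2 := by
      refine mul_le_mul_of_nonneg_left ?_ (Nat.cast_nonneg _)
      rw [div_pow, mul_pow]
      gcongr
      · exact le_mul_of_one_le_right (by positivity) (one_le_pow₀ hμ1)
      · norm_num
    have h4 : (bad.card : ℝ) * (((2 : ℝ) ^ R) ^ 2 / 4) ≤ T / 2 * (((2 : ℝ) ^ R) ^ 2 / 4) := by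
      refine (h3.trans hb).trans (le_of_eq ?_)
      ring
    exact le_of_mul_le_mul_right h4 (by positivity)
  linarith

end Vale.Agent.P091.Multi
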