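import Vale.Agent.P091.Multi.CompBound
import Vale.Agent.P091.Multi.Moments
import Vale.Agent.P091.Circle

/-!
P091: the components as trigonometric polynomials on `AddCircle T`.
-/

noncomputable section

namespace Vale.Agent.P091.Multi

open Finset Real MeasureTheory AddCircle

variable {T : ℝ} [hT : Fact (0 < T)] {R : ℕ}

/-- A term of a component: atom, sign pattern, Fejér frequency. -/
abbrev Tm (R : ℕ) : Type := ℕ × ((Fin R → ℤ) × ℤ)

/-- The terms of a component. -/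
def terms (R k : ℕ) : Finset (Tm R) :=
  atoms R k ×ˢ (pats R ×ˢ Icc (-(mdeg R k : ℤ)) (mdeg R k))

/-- The frequency of a term. -/
def tfreq (R k : ℕ) (p : Tm R) : ℤ := pfreq (hfun R k p.1) p.2.1 + p.2.2

/-- The coefficient of a term of a translated component. -/
def tcoef (R k : ℕ) (τ : ℝ) (p : Tm R) : ℂ :=
  (mass R k : ℂ) * (pcoef p.2.1 : ℂ) * (wgt (mdeg R k) p.2.2 : ℂ) *
    ee (-((p.2.2 : ℝ) * pos' R k p.1)) * ee (-((tfreq R k p : ℝ) * τ))

/-- A component, translated by `τ` and modulated by `Λ`. -/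
def gk (T : ℝ) (R k : ℕ) (Λ : ℤ) (τ : ℝ) (z : AddCircle T) : ℂ :=
  ∑ p ∈ terms R k, tcoef R k τ p * fourier (Λ + tfreq R k p) z

/-- The value of a component. -/
def gval (R k : ℕ) (y : ℝ) : ℝ :=
  ∑ u ∈ atoms R k, mass R k * (riesz (hfun R k u) y * fejer (mdeg R k) (y - pos' R k u))

/-- Height bound of a component. -/
def hgt (R k : ℕ) : ℝ := (2 : ℝ) ^ (2 ^ 27 * R * len R k * len R k)

/-- Degree bound. -/
def degR (R : ℕ) : ℕ := (3 * R + 2) * 2 ^ bot R (num R)

lemma term_fun (k : ℕ) (Λ : ℤ) (τ y : ℝ) (p : Tm R) :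
    tcoef R k τ p * fourier (Λ + tfreq R k p) ((T * y : ℝ) : AddCircle T)
      = ee ((Λ : ℝ) * y) * ((mass R k : ℂ) * (((pcoef p.2.1 : ℂ) *
          ee ((pfreq (hfun R k p.1) p.2.1 : ℝ) * (y - τ))) *
          ((wgt (mdeg R k) p.2.2 : ℂ) * ee ((p.2.2 : ℝ) * (y - τ - pos' R k p.1))))) := by
  rw [fourier_rep, tcoef, tfreq]
  have e : ee (-((p.2.2 : ℝ) * pos' R k p.1))
      * ee (-((((pfreq (hfun R k p.1) p.2.1 + p.2.2 : ℤ)) : ℝ) * τ))
      * ee (((Λ + (pfreq (hfun R k p.1) p.2.1 + p.2.2) : ℤ) : ℝ) * y)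
      = ee ((Λ : ℝ) * y) * (ee ((pfreq (hfun R k p.1) p.2.1 : ℝ) * (y - τ))
        * ee ((p.2.2 : ℝ) * (y - τ - pos' R k p.1))) := by
    simp only [← ee_add]
    congr 1
    push_cast
    ring
  linear_combination ((mass R k : ℂ) * (pcoef p.2.1 : ℂ) * (wgt (mdeg R k) p.2.2 : ℂ)) * e

lemma gk_rep (k : ℕ) (Λ : ℤ) (τ y : ℝ) :
    gk T R k Λ τ ((T * y : ℝ) : AddCircle T) = ee ((Λ : ℝ) * y) * (gval R k (y - τ) : ℂ) := by
  unfold gk
  rw [Finset.sum_congr rfl fun p _ => term_fun k Λ τ y p, ← Finset.mul_sum]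
  congr 1
  unfold gval terms
  rw [Finset.sum_product, Complex.ofReal_sum]
  refine Finset.sum_congr rfl fun u _ => ?_
  rw [Finset.sum_product, Complex.ofReal_mul, Complex.ofReal_mul, riesz_eq, fejer_eq_wgt,
    Finset.sum_mul_sum, Finset.mul_sum]
  refine Finset.sum_congr rfl fun ε _ => ?_
  rw [Finset.mul_sum]

lemma band_rep (k N : ℕ) (Λ : ℤ) (τ y : ℝ) :
    ∑ p ∈ (terms R k).filter (fun p => |tfreq R k p| ≤ (N : ℤ)),
      tcoef R k τ p * fourier (Λ + tfreq R k p) ((T * y : ℝ) : AddCircle T)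
      = ee ((Λ : ℝ) * y) * ∑ u ∈ atoms R k, (mass R k : ℂ) *
          asum (hfun R k u) (mdeg R k) N (y - τ) (y - τ - pos' R k u) := by
  rw [Finset.sum_congr rfl fun p _ => term_fun k Λ τ y p, ← Finset.mul_sum]
  congr 1
  rw [Finset.sum_filter]
  unfold terms
  rw [Finset.sum_product]
  refine Finset.sum_congr rfl fun u _ => ?_
  rw [Finset.sum_product, asum, Finset.mul_sum]
  refine Finset.sum_congr rfl fun ε _ => ?_
  rw [Finset.sum_filter, Finset.mul_sum, Finset.mul_sum]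
  refine Finset.sum_congr rfl fun ν _ => ?_
  unfold tfreq
  split_ifs <;> simp

lemma gk_continuous (k : ℕ) (Λ : ℤ) (τ : ℝ) : Continuous (gk T R k Λ τ) := by
  unfold gk
  exact continuous_finsetSum _ fun p _ => continuous_const.mul (map_continuous _)

lemma fourierCoeff_gk (k : ℕ) (Λ : ℤ) (τ : ℝ) (m : ℤ) :
    fourierCoeff (gk T R k Λ τ) m
      = ∑ p ∈ (terms R k).filter (fun p => Λ + tfreq R k p = m), tcoef R k τ p := by
  have e : gk T R k Λ τ = ∑ p ∈ terms R k, fun z => tcoef R k τ p * fourier (Λ + tfreq R k p) z := by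
    funext z; rw [Finset.sum_apply]; rfl
  rw [e, fourierCoeff.sum _ _ fun p _ => (integrable_fourier _).const_mul _, Finset.sum_apply,
    Finset.sum_filter]
  refine Finset.sum_congr rfl fun p _ => ?_
  rw [fourierCoeff.const_mul, fourierCoeff_fourier]
  by_cases h : Λ + tfreq R k p = m
  · rw [h, Pi.single_eq_same, mul_one, if_pos rfl]
  · rw [Pi.single_eq_of_ne (Ne.symm h), mul_zero, if_neg h]

lemma gval_nonneg (k : ℕ) (y : ℝ) : 0 ≤ gval R k y :=
  Finset.sum_nonneg fun u _ =>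
    mul_nonneg (mass_pos R k).le (mul_nonneg (riesz_nonneg _ _) (fejer_nonneg _ _))

lemma norm_gk_rep (k : ℕ) (Λ : ℤ) (τ y : ℝ) :
    ‖gk T R k Λ τ ((T * y : ℝ) : AddCircle T)‖ = gval R k (y - τ) := by
  rw [gk_rep, norm_mul, norm_ee, one_mul, Complex.norm_real, Real.norm_eq_abs,
    abs_of_nonneg (gval_nonneg k _)]

lemma pfreq_zero (hR : 1 ≤ R) {k : ℕ} (hk : k < num R) (u : ℕ) {ε : Fin R → ℤ} (hε : ε ∈ pats R)
    (h : pfreq (hfun R k u) ε = 0) : ε = 0 := by
  classical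
  set B : ℤ := 2 ^ lwid R k with hB
  set b0 : ℤ := 2 ^ lb R k 0 with hb0
  have hlbr : ∀ r, (2 : ℤ) ^ lb R k r = b0 * B ^ r := by
    intro r; rw [hb0, hB, ← pow_mul, ← pow_add]; congr 1; unfold lb; ring
  set d : ℕ → ℤ := fun i =>
    if hi : i < R then ε ⟨i, hi⟩ * ((loc' R k i u : ℤ) + 1) else 0 with hd'
  have hB1 : 1 ≤ B := one_le_pow₀ (by norm_num)
  have hdb : ∀ i < R, |d i| ≤ B - 1 := by
    intro i hi
    rw [hd']; dsimp only; rw [dif_pos hi]
    have he : |ε ⟨i, hi⟩| ≤ 1 := by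
      simp only [pats, Fintype.mem_piFinset, Finset.mem_Icc] at hε
      exact abs_le.2 (hε _)
    have hloc : (loc' R k i u : ℤ) + 1 ≤ 2 ^ (R * len R k) := by
      have := le_trans (loc'_lt (R := R) (k := k) (x := u) hi.le)
        (Nat.pow_le_pow_right (n := 2) (by norm_num) (Nat.mul_le_mul_right (len R k) hi.le))
      exact_mod_cast this
    have hB4 : B = 2 ^ (R * len R k) * 4 := by rw [hB, lwid, pow_add]; norm_num
    have hp : (1 : ℤ) ≤ 2 ^ (R * len R k) := one_le_pow₀ (by norm_num)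
    rw [abs_mul, abs_of_nonneg (a := (loc' R k i u : ℤ) + 1) (by positivity)]
    have := mul_le_mul_of_nonneg_right he (show (0 : ℤ) ≤ (loc' R k i u : ℤ) + 1 by positivity)
    omega
  set K : ℤ := ∑ r, ε r with hK
  have hp : pfreq (hfun R k u) ε = K * (hd R k u : ℤ) + b0 * ∑ i ∈ range R, d i * B ^ i := by
    rw [← Fin.sum_univ_eq_sum_range (fun i => d i * B ^ i) R, hK, Finset.sum_mul, Finset.mul_sum,
      ← Finset.sum_add_distrib, pfreq]
    refine Finset.sum_congr rfl fun r _ => ?_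
    rw [hd']; dsimp only
    rw [dif_pos r.isLt, hfun, hlbr]
    ring
  rw [h] at hp
  have hz : K * (hd R k u : ℤ) = 0 := by
    have hdvd : (2 : ℤ) ^ bot R (k + 1) ∣ K * (hd R k u : ℤ) :=
      Dvd.dvd.mul_left (by exact_mod_cast hd_dvd hk u) _
    refine Int.eq_zero_of_abs_lt_dvd hdvd ?_
    rw [show K * (hd R k u : ℤ) = -(b0 * ∑ i ∈ range R, d i * B ^ i) by linarith, abs_neg, abs_mul,
      abs_of_nonneg (a := b0) (by rw [hb0]; positivity)]
    calc b0 * |∑ i ∈ range R, d i * B ^ i| < b0 * B ^ R :=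
          mul_lt_mul_of_pos_left (digits_abs_lt hB1 d R hdb) (by rw [hb0]; positivity)
      _ = 2 ^ lb R k R := (hlbr R).symm
      _ ≤ _ := by rw [bot_succ]; exact pow_le_pow_right₀ (by norm_num) (by omega)
  have hdz : ∀ i < R, d i = 0 := by
    refine digits_zero hB1 R d hdb ?_
    rw [hz, zero_add] at hp
    exact (mul_eq_zero.1 hp.symm).resolve_left (by rw [hb0]; positivity)
  funext r
  have := hdz r r.isLt
  rw [hd'] at this; dsimp only at this
  rw [dif_pos r.isLt] at this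
  exact (mul_eq_zero.1 this).resolve_right (by positivity)

lemma integral_norm_gk (hR : 1 ≤ R) {k : ℕ} (hk : k < num R) (Λ : ℤ) (τ : ℝ) :
    ∫ z, ‖gk T R k Λ τ z‖ ∂haarAddCircle = 1 := by
  classical
  have h1 : ∀ z : AddCircle T, ((‖gk T R k Λ τ z‖ : ℝ) : ℂ) = gk T R k 0 τ z := by
    intro z
    obtain ⟨y, rfl⟩ := exists_rep z
    rw [norm_gk_rep, gk_rep]
    simp [ee]
  have h2 : ((∫ z, ‖gk T R k Λ τ z‖ ∂haarAddCircle : ℝ) : ℂ)
      = fourierCoeff (gk T R k 0 τ) 0 := by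
    rw [← integral_complex_ofReal]
    simp only [fourierCoeff, h1, neg_zero, fourier_zero, one_smul]
  rw [fourierCoeff_gk] at h2
  have h3 : (terms R k).filter (fun p => (0 : ℤ) + tfreq R k p = 0)
      = (atoms R k).image (fun u => (u, ((0 : Fin R → ℤ), (0 : ℤ)))) := by
    ext ⟨u, ε, ν⟩
    simp only [terms, Finset.mem_filter, Finset.mem_product, Finset.mem_image, zero_add, tfreq,
      Prod.mk.injEq]
    constructor
    · rintro ⟨⟨hu, hε, hν⟩, hzero⟩
      have hν0 : ν = 0 := by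
        have hdvd : (2 : ℤ) ^ lb R k 0 ∣ ν := by
          rw [show ν = -pfreq (hfun R k u) ε by omega]
          exact (pfreq_dvd hR hk u ε).neg_right
        refine Int.eq_zero_of_abs_lt_dvd hdvd ?_
        have h4 : 2 * (mdeg R k : ℤ) < 2 ^ lb R k 0 := by
          rw [mdeg]; exact_mod_cast two_mex_lt (R := R) k
        have := abs_le.2 (Finset.mem_Icc.1 hν)
        omega
      exact ⟨u, hu, rfl, (pfreq_zero hR hk u hε (by omega)).symm, hν0.symm⟩
    · rintro ⟨u', hu', rfl, rfl, rfl⟩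
      refine ⟨⟨hu', ?_, ?_⟩, ?_⟩
      · simp [pats]
      · simp
      · simp [pfreq]
  rw [h3, Finset.sum_image (fun a _ b _ h => (Prod.mk.inj h).1),
    Finset.sum_congr rfl (g := fun _ => (mass R k : ℂ)) fun u _ => ?_] at h2
  · rw [Finset.sum_const, nsmul_eq_mul, ← Complex.ofReal_natCast, ← Complex.ofReal_mul] at h2
    have h4 : ((atoms R k).card : ℝ) * mass R k = 1 := by
      have h5 : ((atoms R k).card : ℝ) * ((2 : ℝ) ^ R * (2 : ℝ) ^ blw R k) = (2 : ℝ) ^ tot R := by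
        exact_mod_cast card_atoms hR hk
      rw [mass, pow_add, mul_div_assoc', h5, div_self (by positivity)]
    rw [h4] at h2
    exact_mod_cast h2
  · unfold tcoef tfreq pfreq pcoef wgt
    simp [ee]

lemma step_le (hR : 1 ≤ R) (k : ℕ) :
    bot R (k + 1) + 2 * R + blw R k + 12 ≤ bot R k + 2 ^ 25 * R * (len R k * len R k) := by
  have hL := len_large hR k
  have hRL : R ≤ len R k := by
    unfold len
    calc R = 1 * R * 1 := by ring
      _ ≤ _ := by gcongr <;> [norm_num; exact Nat.one_le_two_pow]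
  have hb := blw_le (R := R) k
  set L := len R k with hLdef
  have hex : ex' L ≤ 2 ^ 22 * (L * L) := by
    have e : ex' L = 2 * L + 10 + 1048576 * (L * L) + 1048576 * L + L + 1 := by
      rw [ex', base, bk]; norm_num; ring
    have h2 : L ≤ L * L := Nat.le_mul_self L
    rw [e]; norm_num; omega
  have h1 : R * wid R k ≤ 2 ^ 23 * (R * (L * L)) + R * R := by
    unfold wid; rw [← hLdef]
    calc R * (2 * ex' L + R) = 2 * R * ex' L + R * R := by ring
      _ ≤ 2 * R * (2 ^ 22 * (L * L)) + R * R := by gcongr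
      _ = _ := by ring
  have h2 : R * R ≤ R * (L * L) := Nat.mul_le_mul_left _ (hRL.trans (Nat.le_mul_self L))
  have h3 : R * L ≤ R * (L * L) := Nat.mul_le_mul_left _ (Nat.le_mul_self L)
  have h4 : R * lwid R k ≤ R * (L * L) + 2 * R := by
    unfold lwid; rw [← hLdef, mul_add, mul_comm R 2]
    refine Nat.add_le_add ?_ le_rfl
    exact Nat.mul_le_mul_left _ (Nat.mul_le_mul_right _ hRL)
  have h5 : 65536 ≤ R * (L * L) := by
    calc 65536 = 1 * (1 * 65536) := by norm_num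
      _ ≤ _ := by gcongr; omega
  have h7 : 1 * R ≤ R * (L * L) := by
    rw [one_mul]; exact Nat.le_mul_of_pos_right _ (by positivity)
  have e : 2 ^ 25 * R * (L * L) = 2 ^ 25 * (R * (L * L)) := by ring
  rw [bot, e]
  unfold gap
  rw [← hLdef]
  have h6 : 4 * R * L = 4 * (R * L) := by ring
  omega

lemma bot_le (hR : 1 ≤ R) (k : ℕ) : bot R k ≤ tot R + 2 ^ 25 * R * (len R k * len R k) := by
  induction k with
  | zero =>
    rw [bot]
    have hL := len_large hR 0
    have : 4 ≤ 2 ^ 25 * R * (len R 0 * len R 0) :=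
      calc 4 = 4 * 1 * (1 * 1) := rfl
        _ ≤ _ := by gcongr <;> omega
    omega
  | succ k ih =>
    have h := step_le hR k
    have e : 2 ^ 25 * R * (len R (k + 1) * len R (k + 1))
        = 4 * (2 ^ 25 * R * (len R k * len R k)) := by unfold len; rw [pow_succ 2 k]; ring
    omega

lemma fejer_cell_le {M T₀ : ℕ} (hM : T₀ ≤ M + 1) (hT₀ : 4 ≤ T₀) {D : ℤ} {θ : ℝ}
    (hθ : |θ| ≤ 2) (hD : |((D : ℝ) + θ) / T₀| ≤ 3 / 2) :
    ∃ p : ℤ, (p = 0 ∨ p = 1 ∨ p = -1) ∧
      fejer M (((D : ℝ) + θ) / T₀) ≤ 64 * ((M : ℝ) + 1) / ((|D + p * T₀| : ℝ) + 1) ^ 2 := by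
  set z := (D : ℝ) + θ with hz
  have hT0 : (0 : ℝ) < T₀ := by
    have : (4 : ℝ) ≤ T₀ := by exact_mod_cast hT₀
    linarith
  obtain ⟨p, hp1, hp2⟩ : ∃ p : ℤ, (p = 0 ∨ p = 1 ∨ p = -1) ∧ |z / T₀ + (p : ℝ)| ≤ 1 / 2 := by
    obtain ⟨h1, h2⟩ := abs_le.1 hD
    rcases le_or_gt (z / (T₀ : ℝ)) (-(1 / 2)) with h | h
    · exact ⟨1, by simp, by rw [abs_le]; push_cast; constructor <;> linarith⟩
    · rcases le_or_gt (z / (T₀ : ℝ)) (1 / 2) with h' | h'
      · exact ⟨0, by simp, by rw [abs_le]; push_cast; constructor <;> linarith⟩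
      · exact ⟨-1, by simp, by rw [abs_le]; push_cast; constructor <;> linarith⟩
  refine ⟨p, hp1, ?_⟩
  rw [← fejer_periodic M (z / T₀) p]
  set D' : ℝ := (D : ℝ) + p * T₀ with hD'
  have hz' : z / T₀ + (p : ℝ) = (D' + θ) / T₀ := by rw [hD', hz]; field_simp; ring
  have hM0 : (0 : ℝ) < (M : ℝ) + 1 := by positivity
  rcases le_or_gt |D'| 4 with h | h
  · refine (fejer_le M _).trans ?_
    rw [le_div_iff₀ (by positivity)]
    have : (|D'| + 1) ^ 2 ≤ 25 := by nlinarith [abs_nonneg D']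
    calc ((M : ℝ) + 1) * (|D'| + 1) ^ 2 ≤ ((M : ℝ) + 1) * 25 :=
          mul_le_mul_of_nonneg_left this hM0.le
      _ ≤ _ := by linarith
  · have hlow : (|D'| + 1) / 3 ≤ |D' + θ| := by
      have h2 := abs_sub_abs_le_abs_sub D' (-θ)
      rw [abs_neg, sub_neg_eq_add] at h2
      linarith
    have hne : z / T₀ + (p : ℝ) ≠ 0 := by
      rw [hz']; intro h0
      rcases div_eq_zero_iff.1 h0 with h0 | h0
      · rw [h0, abs_zero] at hlow; linarith [abs_nonneg D']
      · linarith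
    refine (fejer_decay M hne hp2).trans ?_
    rw [hz', div_pow, mul_div_assoc', one_div_div]
    have hsq : (|D'| + 1) ^ 2 / 9 ≤ (D' + θ) ^ 2 := by
      rw [← sq_abs (D' + θ)]
      calc (|D'| + 1) ^ 2 / 9 = ((|D'| + 1) / 3) ^ 2 := by ring
        _ ≤ _ := pow_le_pow_left₀ (by positivity) hlow 2
    have hpos : 0 < (D' + θ) ^ 2 := lt_of_lt_of_le (by positivity) hsq
    rw [div_le_div_iff₀ (mul_pos (by positivity) hpos) (by positivity)]
    have hTM : (T₀ : ℝ) ^ 2 ≤ ((M : ℝ) + 1) ^ 2 :=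
      pow_le_pow_left₀ hT0.le (by exact_mod_cast hM) 2
    calc (T₀ : ℝ) ^ 2 * (|D'| + 1) ^ 2 ≤ ((M : ℝ) + 1) ^ 2 * (9 * (D' + θ) ^ 2) :=
          mul_le_mul hTM (by linarith) (by positivity) (by positivity)
      _ ≤ _ := by nlinarith [mul_nonneg (sq_nonneg ((M : ℝ) + 1)) hpos.le]

lemma gval_le (hR : 1 ≤ R) {k : ℕ} (hk : k < num R) (y : ℝ) : gval R k y ≤ hgt R k := by
  classical
  set T₀ : ℕ := 2 ^ tot R with hT0
  have hTr : (2 : ℝ) ^ tot R = (T₀ : ℝ) := by rw [hT0]; push_cast; rfl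
  set M := mdeg R k with hM
  have hMT : T₀ ≤ M + 1 := by
    rw [hM, mdeg, hT0]
    have := tot_gap_le_mex (R := R) k
    have := Nat.pow_le_pow_right (n := 2) (by norm_num) (show tot R ≤ mex R k by omega)
    omega
  have hT4 : 4 ≤ T₀ := by
    rw [hT0, show (4 : ℕ) = 2 ^ 2 by rfl]
    refine Nat.pow_le_pow_right (by norm_num) ?_
    have h1 := blw_succ_le_tot hk
    rw [blw_succ] at h1
    have := len_large hR k
    have : len R k ≤ R * len R k := Nat.le_mul_of_pos_left _ hR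
    omega
  have hTpos : (0 : ℝ) < T₀ := by rw [← hTr]; positivity
  set y' := Int.fract y with hy'
  set x : ℤ := ⌊y' * T₀⌋ with hx
  set hb : ℕ := 2 ^ blw R k / 2 with hhb
  set D : ℕ → ℤ := fun u => x - u - hb with hD
  set g : ℤ → ℝ := fun d => 1 / ((|d| : ℝ) + 1) ^ 2 with hg
  have hg0 : ∀ d, 0 ≤ g d := fun d => by rw [hg]; positivity
  have hx0 : 0 ≤ x := Int.floor_nonneg.2 (mul_nonneg (Int.fract_nonneg y) hTpos.le)
  have hxT : x < (T₀ : ℤ) := by
    rw [hx, Int.floor_lt]; push_cast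
    calc y' * T₀ < 1 * T₀ := mul_lt_mul_of_pos_right (Int.fract_lt_one y) hTpos
      _ = _ := one_mul _
  have hkey : ∀ u ∈ atoms R k, fejer M (y - pos' R k u)
      ≤ 64 * ((M : ℝ) + 1) * (g (D u) + g (D u + T₀) + g (D u - T₀)) := by
    intro u hu
    obtain ⟨hu1, hu2, -⟩ := mem_atoms.1 hu
    have ho' := offk_small hR (k := k) u
    have ho : 0 ≤ offk R k u * (2 : ℝ) ^ tot R := mul_nonneg (offk_nonneg k u) (by positivity)
    rw [hTr] at ho ho'
    set θ : ℝ := (y' * T₀ - x) - ((2 : ℝ) ^ blw R k / 2 - (hb : ℝ)) - offk R k u * T₀ with hθ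
    have h1 : 0 ≤ y' * T₀ - x ∧ y' * T₀ - x < 1 := by
      rw [hx]
      have h2 := Int.floor_le (y' * T₀)
      have h3 := Int.lt_floor_add_one (y' * T₀)
      constructor <;> linarith
    have h2 : 0 ≤ (2 : ℝ) ^ blw R k / 2 - (hb : ℝ) ∧ (2 : ℝ) ^ blw R k / 2 - (hb : ℝ) ≤ 1 / 2 := by
      have e1 : 2 * hb ≤ 2 ^ blw R k := by rw [hhb]; omega
      have e2 : 2 ^ blw R k ≤ 2 * hb + 1 := by rw [hhb]; omega
      have e1' : 2 * (hb : ℝ) ≤ (2 : ℝ) ^ blw R k := by exact_mod_cast e1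
      have e2' : (2 : ℝ) ^ blw R k ≤ 2 * (hb : ℝ) + 1 := by exact_mod_cast e2
      constructor <;> linarith
    have hθ2 : |θ| ≤ 2 := by rw [hθ, abs_le]; constructor <;> linarith [h1.1, h1.2, h2.1, h2.2]
    have hy : y - pos' R k u = ((D u : ℝ) + θ) / T₀ + (⌊y⌋ : ℤ) := by
      have e : y = y' + ⌊y⌋ := (Int.fract_add_floor y).symm
      rw [hθ, hD, pos', hTr]
      push_cast
      field_simp
      linear_combination (2 * (T₀ : ℝ)) * e
    have hhb2 : u + hb < T₀ := by
      obtain ⟨p, hp⟩ := hu2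
      obtain ⟨q, hq⟩ : 2 ^ blw R k ∣ T₀ := pow_dvd_pow 2 (blw_le_tot hk)
      rw [hT0] at hq ⊢
      have hlt : p < q := Nat.lt_of_mul_lt_mul_left (hp ▸ hq ▸ hu1)
      have h1 : 2 ^ blw R k * (p + 1) ≤ 2 ^ blw R k * q := Nat.mul_le_mul_left _ hlt
      rw [mul_add, mul_one, ← hp, ← hq] at h1
      have := Nat.div_lt_self (Nat.two_pow_pos (blw R k)) (by norm_num : 1 < 2)
      omega
    have hDb : |((D u : ℝ) + θ) / T₀| ≤ 3 / 2 := by
      have hD1 : |(D u : ℝ)| ≤ (T₀ : ℝ) := by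
        have : |D u| ≤ (T₀ : ℤ) := by rw [hD]; dsimp only; rw [abs_le]; constructor <;> omega
        exact_mod_cast this
      rw [abs_div, Nat.abs_cast, div_le_iff₀ hTpos]
      have : (4 : ℝ) ≤ T₀ := by exact_mod_cast hT4
      linarith [abs_add_le (D u : ℝ) θ]
    obtain ⟨p, hp, hle⟩ := fejer_cell_le hMT hT4 hθ2 hDb
    rw [hy, fejer_periodic]
    refine hle.trans ?_
    rw [div_eq_mul_one_div]
    refine mul_le_mul_of_nonneg_left ?_ (by positivity)
    have e : 1 / ((|(D u : ℝ) + (p : ℝ) * (T₀ : ℝ)| : ℝ) + 1) ^ 2 = g (D u + p * T₀) := by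
      rw [hg]; push_cast; rfl
    rw [e]
    have := hg0 (D u); have := hg0 (D u + T₀); have := hg0 (D u - T₀)
    rcases hp with rfl | rfl | rfl <;> simp only [zero_mul, one_mul, add_zero, neg_one_mul,
      ← sub_eq_add_neg] <;> linarith
  have hinj : ∀ c : ℤ, Set.InjOn (fun u => D u + c) (atoms R k) := by
    intro c a _ b _ h; rw [hD] at h; simp only at h; omega
  have hsum : ∀ c : ℤ, ∑ u ∈ atoms R k, g (D u + c) ≤ 4 := fun c => by
    rw [← Finset.sum_image (f := g) (hinj c)]; exact sum_int_inv_sq_le _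
  have htot : ∑ u ∈ atoms R k, fejer M (y - pos' R k u) ≤ 768 * ((M : ℝ) + 1) := by
    refine (Finset.sum_le_sum hkey).trans ?_
    rw [← Finset.mul_sum, Finset.sum_add_distrib, Finset.sum_add_distrib]
    have h0 := hsum 0
    have h1 := hsum T₀
    have h2 := hsum (-T₀)
    simp only [add_zero, ← sub_eq_add_neg] at h0 h2
    calc _ ≤ 64 * ((M : ℝ) + 1) * (4 + 4 + 4) :=
          mul_le_mul_of_nonneg_left (by linarith) (by positivity)
      _ = _ := by ring
  calc gval R k y ≤ ∑ u ∈ atoms R k, mass R k * ((2 : ℝ) ^ R * fejer M (y - pos' R k u)) :=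
        Finset.sum_le_sum fun u _ => mul_le_mul_of_nonneg_left
          (mul_le_mul_of_nonneg_right (riesz_le _ _) (fejer_nonneg _ _)) (mass_pos R k).le
    _ ≤ mass R k * ((2 : ℝ) ^ R * (768 * ((M : ℝ) + 1))) := by
        rw [← Finset.mul_sum, ← Finset.mul_sum]
        exact mul_le_mul_of_nonneg_left (mul_le_mul_of_nonneg_left htot (by positivity))
          (mass_pos R k).le
    _ ≤ _ := by
        have hM2 : 768 * ((M : ℝ) + 1) ≤ (2 : ℝ) ^ (mex R k + 11) := by
          have h : 768 * (M + 1) ≤ 2 ^ (mex R k + 11) := by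
            rw [hM, mdeg, pow_add]
            have := Nat.two_pow_pos (mex R k)
            omega
          exact_mod_cast h
        have hexp : R + blw R k + R + (mex R k + 11)
            ≤ tot R + 2 ^ 27 * R * len R k * len R k := by
          have h1 := step_le hR k
          have h2 := bot_le hR k
          have h3 : mex R k ≤ bot R (k + 1) := by
            rw [bot_succ]; have := mex_lt_lb (R := R) k R; omega
          have e : 2 ^ 27 * R * len R k * len R k
              = 4 * (2 ^ 25 * R * (len R k * len R k)) := by ring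
          omega
        calc mass R k * ((2 : ℝ) ^ R * (768 * ((M : ℝ) + 1)))
            ≤ mass R k * ((2 : ℝ) ^ R * (2 : ℝ) ^ (mex R k + 11)) :=
              mul_le_mul_of_nonneg_left (mul_le_mul_of_nonneg_left hM2 (by positivity))
                (mass_pos R k).le
          _ = (2 : ℝ) ^ (R + blw R k + R + (mex R k + 11)) / (2 : ℝ) ^ tot R := by
              rw [mass, div_mul_eq_mul_div, ← pow_add, ← pow_add, ← add_assoc]
          _ ≤ _ := by
              rw [div_le_iff₀ (by positivity), hgt, ← pow_add]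
              exact pow_le_pow_right₀ (by norm_num) (by omega)

lemma tfreq_bound (hR : 1 ≤ R) {k : ℕ} (hk : k < num R) {p : Tm R} (hp : p ∈ terms R k) :
    |tfreq R k p| ≤ (degR R : ℤ) := by
  simp only [terms, Finset.mem_product] at hp
  obtain ⟨-, hε, hν⟩ := hp
  set B := 2 ^ bot R (num R) with hB
  have hbk : 2 ^ bot R (k + 1) ≤ B := Nat.pow_le_pow_right (by norm_num) (bot_mono hk)
  have hH : ∀ r : Fin R, |hfun R k p.1 r| ≤ 3 * (B : ℤ) := by
    intro r
    have h1 : hd R k p.1 ≤ 2 * B := by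
      have e := nfreq_split hk p.1
      have h2 := low_lt hR (num R) p.1
      unfold nfreq at e
      unfold low at h2
      rw [hB] at *
      omega
    have h2 : (loc' R k r p.1 + 1) * 2 ^ lb R k r ≤ B := by
      refine le_trans ?_ hbk
      calc (loc' R k r p.1 + 1) * 2 ^ lb R k r ≤ 2 ^ ((r : ℕ) * len R k) * 2 ^ lb R k r :=
            Nat.mul_le_mul_right _ (loc'_lt r.isLt.le)
        _ ≤ _ := by
            rw [← pow_add]
            refine Nat.pow_le_pow_right (by norm_num) ?_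
            rw [bot_succ]
            have h3 := lb_succ (R := R) k r
            have h4 := lb_mono (R := R) (k := k) (show (r : ℕ) + 1 ≤ R from r.isLt)
            have h5 : (r : ℕ) * len R k ≤ R * len R k := Nat.mul_le_mul_right _ r.isLt.le
            unfold lwid at h3
            omega
    unfold hfun
    rw [abs_of_nonneg (by positivity)]
    have h1' : (hd R k p.1 : ℤ) ≤ 2 * (B : ℤ) := by exact_mod_cast h1
    have h2' : ((loc' R k r p.1 : ℤ) + 1) * 2 ^ lb R k r ≤ (B : ℤ) := by exact_mod_cast h2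
    linarith
  have hM : (mdeg R k : ℤ) ≤ 2 * (B : ℤ) := by
    have h : mdeg R k ≤ B := by
      rw [mdeg]
      refine le_trans (Nat.pow_le_pow_right (by norm_num) ?_) hbk
      rw [bot_succ]; have := mex_lt_lb (R := R) k R; omega
    omega
  unfold tfreq pfreq
  refine (abs_add_le _ _).trans ?_
  have h1 : |∑ r, p.2.1 r * hfun R k p.1 r| ≤ (R : ℤ) * (3 * (B : ℤ)) := by
    refine (Finset.abs_sum_le_sum_abs _ _).trans ?_
    refine (Finset.sum_le_sum (g := fun _ => 3 * (B : ℤ)) fun r _ => ?_).trans (le_of_eq (by simp))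
    rw [abs_mul]
    simp only [pats, Fintype.mem_piFinset, Finset.mem_Icc] at hε
    calc |p.2.1 r| * |hfun R k p.1 r| ≤ 1 * (3 * (B : ℤ)) :=
          mul_le_mul (abs_le.2 (hε r)) (hH r) (abs_nonneg _) zero_le_one
      _ = _ := one_mul _
  have h2 := abs_le.2 (Finset.mem_Icc.1 hν)
  have e : (degR R : ℤ) = (3 * (R : ℤ) + 2) * (B : ℤ) := by rw [degR, hB]; push_cast; ring
  rw [e]
  linarith

end Vale.Agent.P091.Multi
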