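import Vale.Agent.P091.Multi.Atoms

/-!
P091: the number of atoms of a component, and of those of a given group digit in a cluster.
-/

noncomputable section

namespace Vale.Agent.P091.Multi

open Finset

variable {R : ℕ}

lemma dig_congr {k r j x z : ℕ} (hr : r ≤ R) (hj : j < r)
    (h : z / 2 ^ pexp R k r = x / 2 ^ pexp R k r) : dig R k j z = dig R k j x := by
  rw [dig_eq (by omega), dig_eq (by omega)]
  obtain ⟨e, he⟩ := Nat.exists_eq_add_of_le (show pexp R k r ≤ pexp R k (j + 1) by
    unfold pexp; gcongr; omega)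
  rw [he, pow_add, ← Nat.div_div_eq_div_mul, ← Nat.div_div_eq_div_mul, h]

lemma card_filter_digits (hR : 1 ≤ R) (k n : ℕ)
    [DecidablePred fun v => ∀ j < n, Mid (len R k) (v / 2 ^ ((n - 1 - j) * len R k) % 2 ^ len R k)] :
    ((range (2 ^ (n * len R k))).filter
      fun v => ∀ j < n, Mid (len R k) (v / 2 ^ ((n - 1 - j) * len R k) % 2 ^ len R k)).card
      = (2 ^ (len R k - 1)) ^ n := by
  classical
  have hL := len_large hR k
  rw [Finset.card_filter]
  have e : ∀ v, (if ∀ j < n, Mid (len R k) (v / 2 ^ ((n - 1 - j) * len R k) % 2 ^ len R k)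
      then (1 : ℕ) else 0)
      = ∏ j ∈ range n,
        if Mid (len R k) (v / 2 ^ ((n - 1 - j) * len R k) % 2 ^ len R k) then 1 else 0 := by
    intro v
    rw [Finset.prod_boole]
    simp only [Finset.mem_range]
  simp only [e]
  rw [sum_digits (len R k) n (fun _ d => if Mid (len R k) d then 1 else 0), Finset.prod_const,
    Finset.card_range, ← Finset.card_filter, card_mid (by omega)]

lemma card_atoms (hR : 1 ≤ R) {k : ℕ} (hk : k < num R) :
    (atoms R k).card * (2 ^ R * 2 ^ blw R k) = 2 ^ tot R := by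
  classical
  obtain ⟨c, hc⟩ := Nat.exists_eq_add_of_le (blw_succ_le_tot hk)
  rw [blw_succ] at hc
  set L := len R k with hLdef
  set P : ℕ → Prop := fun v => ∀ j < R, Mid L (v / 2 ^ ((R - 1 - j) * L) % 2 ^ L) with hP
  have hset : atoms R k = (range (2 ^ tot R)).filter
      (fun x => 2 ^ blw R k ∣ x ∧ P (idk R k x)) := by
    ext x
    rw [mem_atoms, Finset.mem_filter, Finset.mem_range]
    rfl
  have hcount : (atoms R k).card = ∑ x ∈ range (2 ^ c * 2 ^ (R * L) * 2 ^ blw R k),
      (if P (x / 2 ^ blw R k % 2 ^ (R * L)) then 1 else 0) * (if x % 2 ^ blw R k = 0 then 1 else 0) := by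
    rw [hset, Finset.card_filter, show 2 ^ tot R = 2 ^ c * 2 ^ (R * L) * 2 ^ blw R k by
      rw [← pow_add, ← pow_add, hc]; congr 1; ring]
    refine Finset.sum_congr rfl fun x _ => ?_
    rw [ite_zero_mul_ite_zero, mul_one]
    simp only [Nat.dvd_iff_mod_eq_zero, idk, ← hLdef]
    exact if_congr and_comm rfl rfl
  rw [hcount, sum_split (2 ^ c * 2 ^ (R * L)) (2 ^ blw R k)
      (fun a => if P (a % 2 ^ (R * L)) then 1 else 0) (fun b => if b = 0 then 1 else 0)]
  have h2 := sum_split (2 ^ c) (2 ^ (R * L)) (fun _ => (1 : ℕ)) (fun v => if P v then 1 else 0)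
  simp only [one_mul, Finset.sum_const, Finset.card_range, smul_eq_mul, mul_one] at h2
  rw [h2, ← Finset.card_filter]
  simp only [hP, hLdef]
  rw [card_filter_digits hR k R, Finset.sum_ite_eq',
    if_pos (Finset.mem_range.2 (Nat.two_pow_pos _)), mul_one, ← pow_mul, ← hLdef,
    show (2 : ℕ) ^ c * 2 ^ ((L - 1) * R) * (2 ^ R * 2 ^ blw R k)
      = 2 ^ (c + (L - 1) * R + (R + blw R k)) by rw [← pow_add, ← pow_add, ← pow_add]]
  congr 1
  have hL := len_large hR k
  rw [← hLdef] at hL
  have e : R * L = (L - 1) * R + R := by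
    conv_lhs => rw [show L = L - 1 + 1 by omega]
    ring
  omega

/-- Atoms of a cluster with a given digit. -/
def fib (R k r x l : ℕ) : Finset ℕ :=
  open scoped Classical in
  (atoms R k).filter fun u => x / 2 ^ pexp R k r = u / 2 ^ pexp R k r ∧ dig R k r u = l

lemma card_fib (hR : 1 ≤ R) {k r x l : ℕ} (hk : k < num R) (hx : x < 2 ^ tot R)
    (hc : IsCls R k r x) (hl : l < 2 ^ len R k) (hm : Mid (len R k) l) :
    (fib R k r x l).card = (2 ^ (len R k - 1)) ^ (R - r - 1) := by
  classical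
  have hr : r + 1 < R := hc.1
  set L := len R k with hLdef
  set n := R - r - 1 with hn
  set b := blw R k with hb
  set P := x / 2 ^ pexp R k r with hPdef
  set A := 2 ^ L * P + l with hA
  have hp1 : pexp R k (r + 1) = b + n * L := by rw [pexp, hn, hLdef, hb, Nat.sub_add_eq]
  set φ : ℕ → ℕ := fun v => 2 ^ pexp R k (r + 1) * A + v * 2 ^ b with hφ
  rw [← card_filter_digits hR k n]
  refine (Finset.card_nbij φ ?_ ?_ ?_).symm
  · intro v hv
    simp only [Finset.coe_filter, Finset.mem_range, Set.mem_ofPred_eq] at hv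
    obtain ⟨hv1, hv2⟩ := hv
    have hlow : v * 2 ^ b < 2 ^ pexp R k (r + 1) := by
      rw [hp1, pow_add, mul_comm (2 ^ b)]
      exact Nat.mul_lt_mul_of_pos_right hv1 (Nat.two_pow_pos _)
    have hdiv : φ v / 2 ^ pexp R k (r + 1) = A := by
      rw [hφ]; dsimp only
      rw [Nat.mul_add_div (Nat.two_pow_pos _), Nat.div_eq_of_lt hlow, add_zero]
    have hdivr : φ v / 2 ^ pexp R k r = P := by
      rw [pexp_succ (by omega : r < R), pow_add, ← Nat.div_div_eq_div_mul, hdiv, hA,
        Nat.mul_add_div (Nat.two_pow_pos _), Nat.div_eq_of_lt hl, add_zero]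
    have hdig : dig R k r (φ v) = l := by
      rw [dig_eq (by omega), hdiv, hA, Nat.mul_add_mod, Nat.mod_eq_of_lt hl]
    have hdig' : ∀ j, r < j → j < R →
        dig R k j (φ v) = v / 2 ^ ((n - 1 - (j - r - 1)) * L) % 2 ^ L := by
      intro j hj hjR
      rw [dig_eq hjR]
      have he : pexp R k (j + 1) = b + (n - 1 - (j - r - 1)) * L := by
        rw [pexp, hn, hLdef, hb]; congr 2; omega
      rw [he, pow_add, ← Nat.div_div_eq_div_mul, hφ]
      dsimp only
      rw [hp1, pow_add, mul_assoc, mul_comm v, ← Nat.mul_add, Nat.mul_div_cancel_left _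
        (Nat.two_pow_pos _)]
      obtain ⟨e, he'⟩ := Nat.exists_eq_add_of_le (show (n - 1 - (j - r - 1)) * L + L ≤ n * L by
        calc (n - 1 - (j - r - 1)) * L + L = (n - 1 - (j - r - 1) + 1) * L := by ring
          _ ≤ n * L := Nat.mul_le_mul_right _ (by omega))
      rw [he', pow_add, pow_add, mul_assoc, mul_assoc, Nat.mul_add_div (Nat.two_pow_pos _),
        Nat.mul_add_mod]
    rw [Finset.mem_coe, fib, Finset.mem_filter, mem_atoms]
    refine ⟨⟨?_, ?_, ?_⟩, hdivr.symm, hdig⟩
    · have hT : 2 ^ pexp R k r ∣ 2 ^ tot R := pow_dvd_pow 2 (pexp_le_tot hk r)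
      obtain ⟨q, hq⟩ := hT
      rw [hq]
      refine (Nat.div_lt_iff_lt_mul (Nat.two_pow_pos _)).1 ?_ |>.trans_le (le_of_eq (mul_comm _ _))
      rw [hdivr, hPdef]
      refine (Nat.div_lt_iff_lt_mul (Nat.two_pow_pos _)).2 ?_
      rw [mul_comm, ← hq]; exact hx
    · rw [hφ]; dsimp only
      refine dvd_add ((pow_dvd_pow 2 ?_).mul_right _) (Dvd.intro_left _ rfl)
      rw [hp1]; omega
    · intro j hj
      rcases lt_trichotomy j r with hjr | rfl | hjr
      · rw [dig_congr (x := x) (by omega : r ≤ R) hjr hdivr]; exact hc.2.1 j hjr.le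
      · rw [hdig]; exact hm
      · rw [hdig' j hjr hj]; exact hv2 _ (by omega)
  · intro a _ c _ h
    rw [hφ] at h
    dsimp only at h
    exact Nat.eq_of_mul_eq_mul_right (Nat.two_pow_pos b) (Nat.add_left_cancel h)
  · intro u hu
    rw [Finset.mem_coe, fib, Finset.mem_filter] at hu
    obtain ⟨hua, hup, hul⟩ := hu
    obtain ⟨hu1, hu2, hu3⟩ := mem_atoms.1 hua
    set z := u % 2 ^ pexp R k (r + 1) with hz
    have hzdvd : 2 ^ b ∣ z :=
      (Nat.dvd_mod_iff (pow_dvd_pow 2 (by rw [hp1]; omega))).2 hu2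
    have hzv : z / 2 ^ b * 2 ^ b = z := Nat.div_mul_cancel hzdvd
    refine ⟨z / 2 ^ b, ?_, ?_⟩
    · simp only [Finset.coe_filter, Finset.mem_range, Set.mem_ofPred_eq]
      refine ⟨?_, fun j hj => ?_⟩
      · rw [Nat.div_lt_iff_lt_mul (Nat.two_pow_pos _), ← pow_add, add_comm, ← hp1]
        exact Nat.mod_lt _ (Nat.two_pow_pos _)
      · have hjR : r + 1 + j < R := by omega
        have := hu3 (r + 1 + j) hjR
        rw [dig_eq hjR] at this
        have e : u / 2 ^ pexp R k (r + 1 + j + 1) % 2 ^ L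
            = z / 2 ^ b / 2 ^ ((n - 1 - j) * L) % 2 ^ L := by
          rw [Nat.div_div_eq_div_mul, ← pow_add,
            show b + (n - 1 - j) * L = pexp R k (r + 1 + j + 1) by
              rw [pexp, hn, hLdef, hb]; congr 2; omega]
          set p := pexp R k (r + 1 + j + 1) with hp
          obtain ⟨e, he⟩ := Nat.exists_eq_add_of_le (show p + L ≤ pexp R k (r + 1) by
            rw [hp, hp1, pexp, hLdef]
            calc b + (R - (r + 1 + j + 1)) * len R k + len R k
                = b + (R - (r + 1 + j + 1) + 1) * len R k := by ring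
              _ ≤ _ := by gcongr; omega)
          rw [hz, he, add_assoc, pow_add _ p, Nat.mod_mul_right_div_self, Nat.mod_mod_of_dvd]
          exact pow_dvd_pow 2 (by omega)
        rwa [← hLdef, e] at this
    · rw [hφ]; dsimp only
      rw [hzv, hA, hPdef, hup, ← hul, hLdef]
      exact (split_at (by omega) u).symm

end Vale.Agent.P091.Multi
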