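import Vale.Agent.P091.Multi.Good

/-!
P091: covering the circle by translates of the good set.
-/

noncomputable section

namespace Vale.Agent.P091.Multi

open Finset Real MeasureTheory AddCircle

variable {T : ℝ} [hT : Fact (0 < T)]

/-- The good set on the circle. -/
def circSet (T : ℝ) [hT : Fact (0 < T)] (R : ℕ) : Set (AddCircle T) :=
  {z | ((AddCircle.equivIco T 0 z : ℝ)) / T ∈ goodSet R}

lemma circSet_measurable (R : ℕ) : MeasurableSet (circSet T R) := by
  refine (goodSet_measurable R).preimage ?_
  have h : Measurable (AddCircle.equivIco T 0) := (AddCircle.measurableEquivIco T 0).measurable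
  exact (measurable_subtype_coe.comp h).div_const T

lemma exists_good_rep {R : ℕ} {z : AddCircle T} (hz : z ∈ circSet T R) :
    ∃ w ∈ goodSet R, ((T * w : ℝ) : AddCircle T) = z := by
  refine ⟨(AddCircle.equivIco T 0 z : ℝ) / T, hz, ?_⟩
  rw [mul_div_cancel₀ _ hT.out.ne']
  exact AddCircle.coe_equivIco

lemma circSet_measure {R : ℕ} (hR : 9 ≤ R) :
    ENNReal.ofReal (1 / 20) ≤ haarAddCircle (circSet T R) := by
  have hTpos : 0 < T := hT.out
  have hmp := AddCircle.measurePreserving_mk T 0
  rw [zero_add] at hmp
  have hvol := hmp.measure_preimage (circSet_measurable (T := T) R).nullMeasurableSet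
  rw [Measure.restrict_apply (hmp.measurable (circSet_measurable R))] at hvol
  have hsub : (fun t => t * T⁻¹) ⁻¹' goodSet R ⊆
      (fun x : ℝ => (x : AddCircle T)) ⁻¹' circSet T R ∩ Set.Ioc 0 T := by
    intro t ht
    have hI := goodSet_subset ht
    simp only [← div_eq_mul_inv, Set.mem_Ioo, lt_div_iff₀ hTpos, div_lt_one hTpos, zero_mul] at hI
    refine ⟨?_, hI.1, hI.2.le⟩
    show ((AddCircle.equivIco T 0 (t : AddCircle T) : ℝ)) / T ∈ goodSet R
    rw [AddCircle.equivIco_coe_eq (by constructor <;> linarith [hI.1, hI.2]), div_eq_mul_inv]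
    exact ht
  have h1 : ENNReal.ofReal T * ENNReal.ofReal (1 / 20)
      ≤ ENNReal.ofReal T * haarAddCircle (circSet T R) := by
    calc ENNReal.ofReal T * ENNReal.ofReal (1 / 20)
        ≤ ENNReal.ofReal T * volume (goodSet R) := by gcongr; exact goodSet_volume hR
      _ = volume ((fun t => t * T⁻¹) ⁻¹' goodSet R) := by
          rw [Real.volume_preimage_mul_right (inv_ne_zero hTpos.ne'), inv_inv, abs_of_pos hTpos]
      _ ≤ volume ((fun x : ℝ => (x : AddCircle T)) ⁻¹' circSet T R ∩ Set.Ioc 0 T) :=
          measure_mono hsub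
      _ = ENNReal.ofReal T * haarAddCircle (circSet T R) := by
          rw [hvol, AddCircle.volume_eq_smul_haarAddCircle, Measure.smul_apply, smul_eq_mul]
  exact (ENNReal.mul_le_mul_iff_right (by simp [hTpos]) ENNReal.ofReal_ne_top).1 h1

lemma exists_translate {S U : Set (AddCircle T)} (hS : MeasurableSet S) (hU : MeasurableSet U) :
    ∃ c : AddCircle T, haarAddCircle (U \ (fun z => z - c) ⁻¹' S)
      ≤ haarAddCircle U * haarAddCircle Sᶜ := by
  set f : AddCircle T → ENNReal := fun c => haarAddCircle (U \ (fun z => z - c) ⁻¹' S) with hf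
  have hA : MeasurableSet {p : AddCircle T × AddCircle T | p.2 ∈ U ∧ p.2 - p.1 ∉ S} :=
    (measurable_snd hU).inter ((measurable_snd.sub measurable_fst) hS.compl)
  have hm : Measurable f := measurable_measure_prodMk_left hA
  have hint : ∫⁻ c, f c ∂haarAddCircle = haarAddCircle U * haarAddCircle Sᶜ := by
    have h1 := Measure.prod_apply (μ := (haarAddCircle : Measure (AddCircle T)))
      (ν := (haarAddCircle : Measure (AddCircle T))) hA
    have h2 := Measure.prod_apply_symm (μ := (haarAddCircle : Measure (AddCircle T)))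
      (ν := (haarAddCircle : Measure (AddCircle T))) hA
    have e : ∀ z : AddCircle T, haarAddCircle ((fun c => (c, z)) ⁻¹'
        {p : AddCircle T × AddCircle T | p.2 ∈ U ∧ p.2 - p.1 ∉ S})
        = U.indicator (fun _ => haarAddCircle Sᶜ) z := by
      intro z
      by_cases hz : z ∈ U
      · rw [Set.indicator_of_mem hz,
          ← (Measure.measurePreserving_sub_left haarAddCircle z).measure_preimage
            hS.compl.nullMeasurableSet]
        congr 1
        ext c; simp [hz]
      · rw [Set.indicator_of_notMem hz]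
        convert measure_empty (μ := (haarAddCircle : Measure (AddCircle T)))
        ext c; simp [hz]
    calc ∫⁻ c, f c ∂haarAddCircle
        = ∫⁻ z, U.indicator (fun _ => haarAddCircle Sᶜ) z ∂haarAddCircle := by
          rw [← lintegral_congr e, ← h2, h1]; rfl
      _ = _ := by rw [lintegral_indicator_const hU, mul_comm]
  obtain ⟨c, hc⟩ :=
    exists_le_lintegral (μ := (haarAddCircle : Measure (AddCircle T))) hm.aemeasurable
  exact ⟨c, by rw [← hint]; exact hc⟩

lemma exists_cover {R : ℕ} (hR : 9 ≤ R) (n : ℕ) :
    ∃ c : ℕ → AddCircle T, haarAddCircle (⋂ i ∈ range n, ((fun z => z - c i) ⁻¹' circSet T R)ᶜ)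
      ≤ ENNReal.ofReal ((19 / 20) ^ n) := by
  induction n with
  | zero => exact ⟨fun _ => 0, by simp⟩
  | succ n ih =>
    obtain ⟨c, hc⟩ := ih
    set U := ⋂ i ∈ range n, ((fun z => z - c i) ⁻¹' circSet T R)ᶜ with hU
    have hUm : MeasurableSet U := Finset.measurableSet_biInter _ fun i _ =>
      ((measurable_id.sub_const (c i)) (circSet_measurable R)).compl
    obtain ⟨c', hc'⟩ := exists_translate (circSet_measurable (T := T) R) hUm
    refine ⟨fun i => if i = n then c' else c i, ?_⟩
    have hset : (⋂ i ∈ range (n + 1), ((fun z => z - (if i = n then c' else c i)) ⁻¹' circSet T R)ᶜ)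
        = U \ (fun z => z - c') ⁻¹' circSet T R := by
      ext z
      simp only [hU, Set.mem_iInter, Set.mem_sdiff, Finset.mem_range, Set.mem_compl_iff]
      constructor
      · intro h
        refine ⟨fun i hi => ?_, ?_⟩
        · have := h i (by omega); rwa [if_neg (by omega : i ≠ n)] at this
        · have := h n (by omega); rwa [if_pos rfl] at this
      · rintro ⟨h1, h2⟩ i hi
        split_ifs with hin
        · exact h2
        · exact h1 i (by omega)
    rw [hset]
    refine hc'.trans ?_
    have hScompl : haarAddCircle (circSet T R)ᶜ ≤ ENNReal.ofReal (19 / 20) := by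
      rw [prob_compl_eq_one_sub (circSet_measurable R)]
      calc 1 - haarAddCircle (circSet T R) ≤ ENNReal.ofReal 1 - ENNReal.ofReal (1 / 20) := by
            rw [ENNReal.ofReal_one]; exact tsub_le_tsub_left (circSet_measure hR) _
        _ = _ := by rw [← ENNReal.ofReal_sub _ (by norm_num)]; norm_num
    calc haarAddCircle U * haarAddCircle (circSet T R)ᶜ
        ≤ ENNReal.ofReal ((19 / 20) ^ n) * ENNReal.ofReal (19 / 20) := mul_le_mul' hc hScompl
      _ = _ := by rw [← ENNReal.ofReal_mul (by positivity), pow_succ]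

end Vale.Agent.P091.Multi
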