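import Vale.Agent.P091.Kernel

/-!
P091: Fejér weights and their one-sided partial sums.
-/

noncomputable section

namespace Vale.Agent.P091

open Finset Real

lemma norm_one_sub_ee (y : ℝ) : ‖1 - ee y‖ = 2 * |Real.sin (π * y)| := by
  have h : ‖1 - ee y‖ ^ 2 = (2 * |Real.sin (π * y)|) ^ 2 := by
    rw [mul_pow, sq_abs, Complex.sq_norm, Complex.normSq_apply]
    unfold ee
    simp only [Complex.sub_re, Complex.sub_im, Complex.one_re, Complex.one_im,
      Complex.exp_ofReal_mul_I_re, Complex.exp_ofReal_mul_I_im]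
    rw [show 2 * π * y = 2 * (π * y) by ring, Real.cos_two_mul', Real.sin_two_mul]
    nlinarith [Real.sin_sq_add_cos_sq (π * y)]
  nlinarith [norm_nonneg (1 - ee y), abs_nonneg (Real.sin (π * y)),
    sq_nonneg (‖1 - ee y‖ - 2 * |Real.sin (π * y)|)]

lemma four_mul_abs_le {y : ℝ} (hy : |y| ≤ 1 / 2) : 4 * |y| ≤ ‖1 - ee y‖ := by
  rw [norm_one_sub_ee]
  have hp := Real.pi_pos
  have h1 : 2 / π * |π * y| ≤ |Real.sin (π * y)| := by
    refine Real.mul_abs_le_abs_sin ?_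
    rw [abs_mul, abs_of_pos hp]; nlinarith
  rw [abs_mul, abs_of_pos hp, ← mul_assoc, div_mul_cancel₀ _ hp.ne'] at h1
  linarith

lemma ee_nat_mul (k : ℕ) (y : ℝ) : ee y ^ k = ee ((k : ℝ) * y) := by
  induction k with
  | zero => simp [ee]
  | succ k ih => rw [pow_succ, ih, ← ee_add]; congr 1; push_cast; ring

/-- Fejér weight. -/
def wgt (M : ℕ) (ν : ℤ) : ℝ := 1 - (|ν| : ℝ) / ((M : ℝ) + 1)

lemma card_diff_eq {M : ℕ} {k : ℤ} (hk : |k| ≤ (M : ℤ)) :
    (((range (M + 1) ×ˢ range (M + 1)).filter fun p => ((p.1 : ℤ) - p.2) = k).card : ℤ)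
      = (M : ℤ) + 1 - |k| := by
  obtain ⟨hk1, hk2⟩ := abs_le.1 hk
  have hset : ((range (M + 1) ×ˢ range (M + 1)).filter fun p => ((p.1 : ℤ) - p.2) = k)
      = (range (M + 1 - k.natAbs)).image fun i => (i + k.toNat, i + (-k).toNat) := by
    ext ⟨a, b⟩
    simp only [mem_filter, mem_product, mem_range, mem_image, Prod.mk.injEq]
    constructor
    · rintro ⟨⟨ha, hb⟩, hab⟩
      exact ⟨a - k.toNat, by omega, by omega, by omega⟩
    · rintro ⟨i, hi, rfl, rfl⟩; omega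
  rw [hset, Finset.card_image_of_injective _ (fun a b h => by simpa using h), Finset.card_range,
    Nat.cast_sub (by omega), Int.natCast_natAbs]
  push_cast
  rfl

lemma fejer_eq_wgt (M : ℕ) (y : ℝ) :
    (fejer M y : ℂ) = ∑ ν ∈ Icc (-(M : ℤ)) M, (wgt M ν : ℂ) * ee ((ν : ℝ) * y) := by
  have hM : ((M : ℂ) + 1) ≠ 0 := Nat.cast_add_one_ne_zero M
  rw [fejer_eq, ← Finset.sum_fiberwise_of_maps_to (s := range (M + 1) ×ˢ range (M + 1))
    (t := Icc (-(M : ℤ)) M) (g := fun p => (p.1 : ℤ) - p.2)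
    (fun p hp => by simp only [mem_product, mem_range] at hp; rw [Finset.mem_Icc]; omega),
    Finset.sum_div]
  refine Finset.sum_congr rfl fun k hk => ?_
  rw [Finset.sum_congr rfl (g := fun _ => ee ((k : ℝ) * y))
    (fun p hp => by rw [(Finset.mem_filter.1 hp).2]), Finset.sum_const, nsmul_eq_mul]
  have h := card_diff_eq (M := M) (k := k) (abs_le.2 (Finset.mem_Icc.1 hk))
  have h' : ((((range (M + 1) ×ˢ range (M + 1)).filter fun p => ((p.1 : ℤ) - p.2) = k).card : ℕ) : ℝ)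
      = ((M : ℝ) + 1) - |(k : ℝ)| := by
    rw [← Int.cast_abs]; exact_mod_cast h
  rw [← Complex.ofReal_natCast (Finset.card _), h', wgt]
  push_cast
  field_simp

lemma norm_sum_pow_le {z : ℂ} (hz : ‖z‖ = 1) (n : ℕ) :
    ‖∑ j ∈ range n, z ^ (j + 1)‖ * ‖1 - z‖ ≤ 2 := by
  have : (∑ j ∈ range n, z ^ (j + 1)) * (1 - z) = z - z ^ (n + 1) := by
    induction n with
    | zero => simp
    | succ n ih => rw [Finset.sum_range_succ, add_mul, ih]; ring
  rw [← norm_mul, this]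
  refine (norm_sub_le _ _).trans ?_
  rw [norm_pow, hz, one_pow]; norm_num

lemma abel_id (δ z : ℂ) (n : ℕ) :
    (∑ j ∈ range n, (1 - (j : ℂ) * δ) * z ^ j) * (1 - z)
      = 1 - (1 - (n : ℂ) * δ) * z ^ n - δ * ∑ j ∈ range n, z ^ (j + 1) := by
  induction n with
  | zero => simp
  | succ n ih => rw [Finset.sum_range_succ, Finset.sum_range_succ, add_mul, ih]; push_cast; ring

lemma wgt_nonneg {M : ℕ} {ν : ℤ} (h : |ν| ≤ (M : ℤ) + 1) : 0 ≤ wgt M ν := by
  unfold wgt
  rw [sub_nonneg, div_le_one (by positivity)]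
  exact_mod_cast h

lemma wgt_le_one (M : ℕ) (ν : ℤ) : wgt M ν ≤ 1 := by
  unfold wgt
  have : 0 ≤ (|ν| : ℝ) / ((M : ℝ) + 1) := by positivity
  linarith

/-- One-sided partial sums of the Fejér kernel. -/
lemma one_sided {M N : ℕ} (hN : N < M) {y : ℝ} (hy0 : y ≠ 0) (hy : |y| ≤ 1 / 2) :
    ‖(∑ ν ∈ Icc (-(M : ℤ)) N, (wgt M ν : ℂ) * ee ((ν : ℝ) * y))
      - (wgt M ((N : ℤ) + 1) : ℂ) * ee ((N : ℝ) * y) / (1 - ee (-y))‖
      ≤ 1 / (4 * ((M : ℝ) + 1) * y ^ 2) := by
  set z := ee y with hz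
  set z' := ee (-y) with hz'
  set δ : ℂ := 1 / ((M : ℂ) + 1) with hδ
  have hzz : z * z' = 1 := by rw [hz, hz', ← ee_add, add_neg_cancel]; simp [ee]
  have hpos : 0 < |y| := abs_pos.2 hy0
  have hn1 : 4 * |y| ≤ ‖1 - z‖ := four_mul_abs_le hy
  have hn2 : 4 * |y| ≤ ‖1 - z'‖ := by
    have := four_mul_abs_le (y := -y) (by rwa [abs_neg]); rwa [abs_neg] at this
  have h1 : (1 : ℂ) - z ≠ 0 := fun h => by rw [h, norm_zero] at hn1; linarith
  have h2 : (1 : ℂ) - z' ≠ 0 := fun h => by rw [h, norm_zero] at hn2; linarith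
  set Am : ℂ := ∑ j ∈ range (M + 1), (1 - (j : ℂ) * δ) * z' ^ j with hAm
  set Ap : ℂ := ∑ j ∈ range (N + 1), (1 - (j : ℂ) * δ) * z ^ j with hAp
  have hsplit : (∑ ν ∈ Icc (-(M : ℤ)) N, (wgt M ν : ℂ) * ee ((ν : ℝ) * y)) = Am + Ap - 1 := by
    have hset : Icc (-(M : ℤ)) N = (range (M + 1)).image (fun j : ℕ => -(j : ℤ)) ∪
        (Ico 1 (N + 1)).image (fun j : ℕ => (j : ℤ)) := by
      ext ν
      simp only [mem_Icc, mem_union, mem_image, mem_range, mem_Ico]
      constructor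
      · intro h
        rcases le_or_gt ν 0 with h' | h'
        · exact Or.inl ⟨(-ν).toNat, by omega, by omega⟩
        · exact Or.inr ⟨ν.toNat, by omega, by omega⟩
      · rintro (⟨j, hj, rfl⟩ | ⟨j, hj, rfl⟩) <;> omega
    have hdisj : Disjoint ((range (M + 1)).image (fun j : ℕ => -(j : ℤ)))
        ((Ico 1 (N + 1)).image (fun j : ℕ => (j : ℤ))) := by
      rw [Finset.disjoint_left]
      intro ν h1 h2
      simp only [mem_image, mem_range, mem_Ico] at h1 h2
      obtain ⟨j, hj, rfl⟩ := h1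
      obtain ⟨j', hj', he⟩ := h2
      omega
    rw [hset, Finset.sum_union hdisj, Finset.sum_image (fun a _ b _ h => by simpa using h),
      Finset.sum_image (fun a _ b _ h => by simpa using h), hAm, hAp,
      Finset.range_eq_Ico]
    simp only [Finset.range_eq_Ico]
    rw [Finset.sum_eq_sum_Ico_succ_bot (a := 0) (b := N + 1) (by omega)]
    simp only [Nat.cast_zero, zero_mul, sub_zero, pow_zero, mul_one, zero_add]
    have e1 : ∀ j : ℕ, (wgt M (-(j : ℤ)) : ℂ) * ee (((-(j : ℤ) : ℤ) : ℝ) * y)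
        = (1 - (j : ℂ) * δ) * z' ^ j := by
      intro j
      rw [hz', ee_nat_mul, hδ, wgt]
      push_cast
      rw [abs_neg, Nat.abs_cast]
      push_cast
      rw [neg_mul, mul_neg]
      ring
    have e2 : ∀ j : ℕ, (wgt M (j : ℤ) : ℂ) * ee (((j : ℤ) : ℝ) * y)
        = (1 - (j : ℂ) * δ) * z ^ j := by
      intro j
      rw [hz, ee_nat_mul, hδ, wgt]
      push_cast
      rw [Nat.abs_cast]
      push_cast
      ring
    simp only [e1, e2]
    ring
  have hA1 := abel_id δ z' (M + 1)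
  have hA2 := abel_id δ z (N + 1)
  have hzero : (1 : ℂ) - ((M + 1 : ℕ) : ℂ) * δ = 0 := by
    rw [hδ]; push_cast
    field_simp [Nat.cast_add_one_ne_zero M]
    ring
  rw [hzero, zero_mul, sub_zero, ← hAm] at hA1
  rw [← hAp] at hA2
  set Sm : ℂ := ∑ j ∈ range (M + 1), z' ^ (j + 1) with hSm
  set Sp : ℂ := ∑ j ∈ range (N + 1), z ^ (j + 1) with hSp
  have hw : (wgt M ((N : ℤ) + 1) : ℂ) = 1 - ((N + 1 : ℕ) : ℂ) * δ := by
    rw [hδ, wgt]; push_cast
    rw [abs_of_nonneg (by positivity : (0 : ℝ) ≤ (N : ℝ) + 1)]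
    push_cast; ring
  have hmain : (∑ ν ∈ Icc (-(M : ℤ)) N, (wgt M ν : ℂ) * ee ((ν : ℝ) * y))
      - (wgt M ((N : ℤ) + 1) : ℂ) * ee ((N : ℝ) * y) / (1 - z')
      = -δ * (Sm / (1 - z')) - δ * (Sp / (1 - z)) := by
    have eAm : Am = (1 - δ * Sm) / (1 - z') := by rw [eq_div_iff h2]; exact hA1
    have eAp : Ap = (1 - (1 - ((N + 1 : ℕ) : ℂ) * δ) * z ^ (N + 1) - δ * Sp) / (1 - z) := by
      rw [eq_div_iff h1]; exact hA2
    rw [hsplit, hw, eAm, eAp, ← ee_nat_mul, ← hz]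
    field_simp
    linear_combination (z ^ N - ((N + 1 : ℕ) : ℂ) * δ * z ^ N - 1) * hzz
  rw [hmain]
  have hd : ‖δ‖ = 1 / ((M : ℝ) + 1) := by
    rw [hδ, norm_div, norm_one, show ((M : ℂ) + 1) = ((M + 1 : ℕ) : ℂ) by push_cast; rfl,
      Complex.norm_natCast]
    push_cast; rfl
  have hb : ∀ (S w : ℂ), ‖S‖ * ‖1 - w‖ ≤ 2 → 4 * |y| ≤ ‖1 - w‖ →
      ‖S / (1 - w)‖ ≤ 1 / (8 * y ^ 2) := by
    intro S w hS hw'
    have hwp : 0 < ‖1 - w‖ := by linarith
    have hsq : (4 * |y|) * (4 * |y|) ≤ ‖1 - w‖ * ‖1 - w‖ :=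
      mul_le_mul hw' hw' (by positivity) hwp.le
    rw [norm_div, div_le_div_iff₀ hwp (by positivity), ← sq_abs y]
    have h3 := mul_le_mul_of_nonneg_left hsq (norm_nonneg S)
    have h4 := mul_le_mul_of_nonneg_right hS hwp.le
    nlinarith
  have hm1 := hb Sm z' (norm_sum_pow_le (norm_ee _) _) hn2
  have hm2 := hb Sp z (norm_sum_pow_le (norm_ee _) _) hn1
  refine (norm_sub_le _ _).trans ?_
  rw [norm_mul, norm_mul, norm_neg, hd]
  calc 1 / ((M : ℝ) + 1) * ‖Sm / (1 - z')‖ + 1 / ((M : ℝ) + 1) * ‖Sp / (1 - z)‖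
      ≤ 1 / ((M : ℝ) + 1) * (1 / (8 * y ^ 2)) + 1 / ((M : ℝ) + 1) * (1 / (8 * y ^ 2)) := by
        gcongr
    _ = _ := by field_simp; ring

lemma real_part_main {y β : ℝ} (hy0 : y ≠ 0) (hy : |y| ≤ 1 / 2) :
    |(ee β / (1 - ee (-y))).re - Real.sin (2 * π * β) / (2 * (π * y))| ≤ 2 := by
  have hp := Real.pi_pos
  have hne : (1 : ℂ) - ee (-y) ≠ 0 := fun h => by
    have := four_mul_abs_le (y := -y) (by rwa [abs_neg])
    rw [h, norm_zero, abs_neg] at this
    linarith [abs_pos.2 hy0]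
  have hs : Real.sin (π * y) ≠ 0 := by
    intro h
    have := four_mul_abs_le (y := y) hy
    rw [norm_one_sub_ee, h, abs_zero] at this
    linarith [abs_pos.2 hy0]
  set c := Real.cos (π * y) / Real.sin (π * y) with hc
  have hinv : ee β / (1 - ee (-y))
      = ee β * ((1 / 2 : ℝ) - ((c / 2 : ℝ) : ℂ) * Complex.I) := by
    rw [div_eq_iff hne, mul_assoc]
    symm
    convert mul_one (ee β) using 2
    unfold ee
    apply Complex.ext
    · simp only [Complex.mul_re, Complex.sub_re, Complex.sub_im, Complex.one_re, Complex.one_im,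
        Complex.ofReal_re, Complex.ofReal_im, Complex.I_re, Complex.I_im, Complex.mul_im,
        Complex.exp_ofReal_mul_I_re, Complex.exp_ofReal_mul_I_im]
      rw [show 2 * π * -y = -(2 * (π * y)) by ring, Real.cos_neg, Real.sin_neg, Real.cos_two_mul',
        Real.sin_two_mul, hc]
      field_simp
      linear_combination Real.sin (π * y) * Real.sin_sq_add_cos_sq (π * y)
    · simp only [Complex.mul_re, Complex.sub_re, Complex.sub_im, Complex.one_re, Complex.one_im,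
        Complex.ofReal_re, Complex.ofReal_im, Complex.I_re, Complex.I_im, Complex.mul_im,
        Complex.exp_ofReal_mul_I_re, Complex.exp_ofReal_mul_I_im]
      rw [show 2 * π * -y = -(2 * (π * y)) by ring, Real.cos_neg, Real.sin_neg, Real.cos_two_mul',
        Real.sin_two_mul, hc]
      field_simp
      linear_combination Real.cos (π * y) * Real.sin_sq_add_cos_sq (π * y)
  rw [hinv]
  unfold ee
  simp only [Complex.mul_re, Complex.sub_re, Complex.sub_im, Complex.ofReal_re, Complex.ofReal_im,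
    Complex.I_re, Complex.I_im, Complex.mul_im, Complex.exp_ofReal_mul_I_re,
    Complex.exp_ofReal_mul_I_im]
  ring_nf
  have hcot : |c - 1 / (π * y)| ≤ 2 := by
    rcases lt_or_gt_of_ne hy0 with h | h
    · have := cot_sub_inv_le (z := -(π * y)) (by nlinarith) (by nlinarith [abs_le.1 hy])
      rw [Real.cos_neg, Real.sin_neg, div_neg, div_neg, ← hc, ← neg_sub', abs_neg] at this
      exact this
    · exact cot_sub_inv_le (by positivity) (by nlinarith [abs_le.1 hy])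
  have e : Real.cos (π * β * 2) * (1 / 2) + c * Real.sin (π * β * 2) * (1 / 2)
      + Real.sin (π * β * 2) * π⁻¹ * y⁻¹ * (-1 / 2)
      = Real.cos (π * β * 2) * (1 / 2) + (c - 1 / (π * y)) * Real.sin (π * β * 2) * (1 / 2) := by
    field_simp; ring
  rw [e]
  refine (abs_add_le _ _).trans ?_
  rw [abs_mul, abs_mul, abs_mul, abs_of_pos (by norm_num : (0 : ℝ) < 1 / 2)]
  have := mul_le_mul hcot (Real.abs_sin_le_one (π * β * 2)) (abs_nonneg _) (by norm_num)
  linarith [Real.abs_cos_le_one (π * β * 2)]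

end Vale.Agent.P091
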