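import Vale.Agent.P091.Multi.CompFun

/-!
P091: the set where one combined block has a large partial sum.
-/

noncomputable section

namespace Vale.Agent.P091.Multi

open Finset Real MeasureTheory AddCircle

variable {R : ℕ}

/-- The weight of component `k`. -/
def cw (R k : ℕ) : ℝ := 1 / (len R k : ℝ)

/-- The band sum of the combined block. -/
def bandv (R N : ℕ) (w : ℝ) : ℂ :=
  ∑ k ∈ range (num R), (cw R k : ℂ) * ∑ u ∈ atoms R k, (mass R k : ℂ) *
    asum (hfun R k u) (mdeg R k) N w (w - pos' R k u)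

/-- The interval of a sampling point. -/
def cell (R x : ℕ) : Set ℝ := Set.Icc (xpt R x (1 / 8)) (xpt R x (3 / 8))

/-- The part of the interval of `x` with a favourable global phase. -/
def gset (R x : ℕ) : Set ℝ :=
  cell R x ∩ {w | 1 / 4 ≤ |Real.sin (2 * π * ((nfreq R x : ℝ) * w))|}

/-- The good set. -/
def goodSet (R : ℕ) : Set ℝ := ⋃ x ∈ goodPts R, gset R x

lemma gset_measurable (R x : ℕ) : MeasurableSet (gset R x) :=
  measurableSet_Icc.inter (measurableSet_le measurable_const (by fun_prop))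

lemma goodSet_measurable (R : ℕ) : MeasurableSet (goodSet R) :=
  Finset.measurableSet_biUnion _ fun x _ => gset_measurable R x

lemma xpt_mem {x : ℕ} (hx : x < 2 ^ tot R) {θ : ℝ} (h0 : 0 < θ) (h1 : θ < 1) :
    0 < xpt R x θ ∧ xpt R x θ < 1 := by
  have hx' : (x : ℝ) + 1 ≤ (2 : ℝ) ^ tot R := by exact_mod_cast hx
  unfold xpt
  constructor
  · positivity
  · rw [div_lt_one (by positivity)]; linarith

lemma goodSet_subset : goodSet R ⊆ Set.Ioo 0 1 := by
  intro w hw
  simp only [goodSet, Set.mem_iUnion] at hw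
  obtain ⟨x, hx, ⟨h1, h2⟩, -⟩ := hw
  have hxT : x < 2 ^ tot R := by
    classical
    exact Finset.mem_range.1 (Finset.mem_filter.1 hx).1
  exact ⟨lt_of_lt_of_le (xpt_mem hxT (by norm_num) (by norm_num)).1 h1,
    lt_of_le_of_lt h2 (xpt_mem hxT (by norm_num) (by norm_num)).2⟩

lemma nfreq_le (hR : 1 ≤ R) (x : ℕ) : nfreq R x ≤ degR R := by
  have h := low_lt hR (num R) x
  unfold low at h
  unfold nfreq degR
  have : 2 * 2 ^ bot R (num R) ≤ (3 * R + 2) * 2 ^ bot R (num R) :=
    Nat.mul_le_mul_right _ (by omega)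
  omega

lemma nfreq_ge (x : ℕ) : 16 * 2 ^ tot R ≤ nfreq R x := by
  have h : 2 ^ (tot R + 4) ≤ 2 ^ bot R (num R) :=
    Nat.pow_le_pow_right (by norm_num) (tot_le_bot _)
  rw [pow_add] at h
  unfold nfreq
  omega

lemma gset_volume (R x : ℕ) :
    ENNReal.ofReal (1 / (10 * (2 : ℝ) ^ tot R)) ≤ volume (gset R x) := by
  have hN0 : (16 : ℝ) * (2 : ℝ) ^ tot R ≤ (nfreq R x : ℝ) := by exact_mod_cast nfreq_ge x
  set N : ℝ := (nfreq R x : ℝ) with hN
  set T : ℝ := (2 : ℝ) ^ tot R with hT
  have hTpos : 0 < T := by positivity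
  have hNpos : 0 < N := by linarith
  set δ := 1 / (4 * N) with hδ
  have hδ0 : 0 < δ := by positivity
  have hδ1 : δ ≤ 1 / (64 * T) := one_div_le_one_div_of_le (by positivity) (by linarith)
  set a := xpt R x (1 / 8) with ha
  set b := xpt R x (3 / 8) with hb
  have hsub : Set.Icc a (b - δ) ⊆ gset R x ∪ (fun w => w + δ) ⁻¹' gset R x := by
    intro w ⟨hw1, hw2⟩
    rcases sin_choice (α := 2 * π * (N * w)) (φ := π / 2)
      (by rw [Real.sin_pi_div_two]; norm_num) with h | h
    · exact Or.inl ⟨⟨hw1, by rw [← hb]; linarith⟩, h⟩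
    · refine Or.inr ⟨⟨by rw [← ha]; linarith, by rw [← hb]; linarith⟩, ?_⟩
      show 1 / 4 ≤ |Real.sin (2 * π * (N * (w + δ)))|
      have e : 2 * π * (N * (w + δ)) = 2 * π * (N * w) + π / 2 := by
        rw [hδ]; field_simp; ring
      rw [e]; exact h
  have hlen : 2 * (1 / (10 * T)) ≤ b - δ - a := by
    have e : b - a = 1 / (4 * T) := by rw [ha, hb, xpt, xpt, ← hT]; field_simp; ring
    have e2 : (1 : ℝ) / (4 * T) - 1 / (64 * T) - 2 * (1 / (10 * T)) = (11 / 320) / T := by
      field_simp; ring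
    have : 0 ≤ (11 / 320 : ℝ) / T := by positivity
    linarith
  have h1 : volume (Set.Icc a (b - δ)) ≤ volume (gset R x) + volume (gset R x) := by
    refine (measure_mono hsub).trans ((measure_union_le _ _).trans ?_)
    rw [measure_preimage_add_right]
  rw [Real.volume_Icc] at h1
  rw [← two_mul] at h1
  have h2 : ENNReal.ofReal 2 * ENNReal.ofReal (1 / (10 * T))
      ≤ ENNReal.ofReal (b - δ - a) := by
    rw [← ENNReal.ofReal_mul (by norm_num)]
    exact ENNReal.ofReal_le_ofReal hlen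
  have h3 : (2 : ENNReal) * ENNReal.ofReal (1 / (10 * T)) ≤ 2 * volume (gset R x) := by
    rw [ENNReal.ofReal_ofNat] at h2
    exact h2.trans h1
  exact (ENNReal.mul_le_mul_iff_right (by norm_num) (by norm_num)).1 h3

lemma goodSet_volume (hR : 9 ≤ R) : ENNReal.ofReal (1 / 20) ≤ volume (goodSet R) := by
  classical
  unfold goodSet
  rw [measure_biUnion_finset ?_ fun x _ => gset_measurable R x]
  · refine le_trans ?_ (Finset.sum_le_sum fun x _ => gset_volume R x)
    rw [Finset.sum_const, nsmul_eq_mul, ← ENNReal.ofReal_natCast,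
      ← ENNReal.ofReal_mul (Nat.cast_nonneg _)]
    refine ENNReal.ofReal_le_ofReal ?_
    have h := card_goodPts hR
    have hpos : (0 : ℝ) < (2 : ℝ) ^ tot R := by positivity
    rw [mul_one_div, div_le_div_iff₀ (by norm_num) (by positivity)]
    linarith
  · intro x _ x' _ hne
    refine Set.disjoint_left.2 fun w hw hw' => ?_
    obtain ⟨⟨h1, h2⟩, -⟩ := hw
    obtain ⟨⟨h1', h2'⟩, -⟩ := hw'
    have hpos : (0 : ℝ) < (2 : ℝ) ^ tot R := by positivity
    rcases lt_or_gt_of_ne hne with h | h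
    · have h3 : (x : ℝ) + 1 ≤ x' := by exact_mod_cast h
      have h4 : xpt R x (3 / 8) < xpt R x' (1 / 8) := by
        unfold xpt; exact div_lt_div_of_pos_right (by linarith) hpos
      linarith
    · have h3 : (x' : ℝ) + 1 ≤ x := by exact_mod_cast h
      have h4 : xpt R x' (3 / 8) < xpt R x (1 / 8) := by
        unfold xpt; exact div_lt_div_of_pos_right (by linarith) hpos
      linarith

lemma bandv_periodic (R N : ℕ) (w : ℝ) (m : ℤ) : bandv R N (w + m) = bandv R N w := by
  unfold bandv asum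
  refine Finset.sum_congr rfl fun k _ => ?_
  congr 1
  refine Finset.sum_congr rfl fun u _ => ?_
  congr 1
  refine Finset.sum_congr rfl fun ε _ => ?_
  rw [ee_int_mul_add]
  congr 1
  refine Finset.sum_congr rfl fun ν _ => ?_
  rw [show w + (m : ℝ) - pos' R k u = (w - pos' R k u) + m by ring, ee_int_mul_add]

lemma large_band (hR : 9 ≤ R) {w : ℝ} (hw : w ∈ goodSet R) :
    ∃ N ≤ degR R, (num R : ℝ) * R / 4000 ≤ ‖bandv R N w‖ := by
  classical
  have hR1 : 1 ≤ R := by omega
  simp only [goodSet, Set.mem_iUnion] at hw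
  obtain ⟨x, hx, hcell, hsin⟩ := hw
  obtain ⟨hxT, hz⟩ := Finset.mem_filter.1 hx
  rw [Finset.mem_range] at hxT
  set θ := w * (2 : ℝ) ^ tot R - x with hθdef
  have hpos : (0 : ℝ) < (2 : ℝ) ^ tot R := by positivity
  have hwx : xpt R x θ = w := by unfold xpt; rw [hθdef]; field_simp; ring
  have hθ : θ ∈ Set.Icc (1 / 8 : ℝ) (3 / 8) := by
    obtain ⟨h1, h2⟩ := hcell
    unfold xpt at h1 h2
    rw [div_le_iff₀ hpos] at h1
    rw [le_div_iff₀ hpos] at h2
    constructor <;> (rw [hθdef]; linarith)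
  simp only [Set.mem_ofPred_eq] at hsin
  rw [← hwx] at hsin
  set σ := Real.sin (2 * π * ((nfreq R x : ℝ) * xpt R x θ)) with hσ
  set g := -σ / |σ| with hg
  have hσ0 : 0 < |σ| := by linarith
  have hgb : |g| ≤ 1 := by rw [hg, abs_div, abs_neg, abs_abs, div_self hσ0.ne']
  have hgσ : g * σ = -|σ| := by
    rw [hg, div_mul_eq_mul_div, div_eq_iff hσ0.ne']
    rw [neg_mul, neg_mul, abs_mul_abs_self]
  refine ⟨nfreq R x, nfreq_le hR1 x, ?_⟩
  rw [← hwx]
  have hre : g * (bandv R (nfreq R x) (xpt R x θ)).re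
      = ∑ k ∈ range (num R), cw R k * (g * (csum R k x θ).re) := by
    rw [bandv, Complex.re_sum, Finset.mul_sum]
    refine Finset.sum_congr rfl fun k _ => ?_
    rw [Complex.re_ofReal_mul, csum]; ring
  have hle : g * (bandv R (nfreq R x) (xpt R x θ)).re ≤ ‖bandv R (nfreq R x) (xpt R x θ)‖ := by
    refine (le_abs_self _).trans ?_
    rw [abs_mul]
    exact (mul_le_of_le_one_left (abs_nonneg _) hgb).trans (Complex.abs_re_le_norm _)
  refine le_trans ?_ hle
  rw [hre]
  refine le_trans ?_ (Finset.sum_le_sum fun k hk => mul_le_mul_of_nonneg_left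
    (comp_bound hR1 (Finset.mem_range.1 hk) hxT hθ hgb hgσ hsin) (by unfold cw; positivity))
  have hterm : ∀ k, cw R k * (gain R k x * (len R k : ℝ) / 200 - 1)
      = gain R k x / 200 - cw R k := by
    intro k
    have : (0 : ℝ) < len R k := by
      have := len_large hR1 k
      exact Nat.cast_pos.2 (by omega)
    unfold cw; field_simp
  simp only [hterm, Finset.sum_sub_distrib, ← Finset.sum_div]
  have hc : ∑ k ∈ range (num R), cw R k ≤ (num R : ℝ) / 65536 := by
    refine (Finset.sum_le_sum (g := fun _ => (1 : ℝ) / 65536) fun k _ => ?_).trans ?_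
    · unfold cw
      exact one_div_le_one_div_of_le (by norm_num) (by exact_mod_cast len_large hR1 k)
    · rw [Finset.sum_const, Finset.card_range, nsmul_eq_mul]; exact (mul_one_div _ _).le
  have hR9 : (9 : ℝ) ≤ R := by exact_mod_cast hR
  have hm0 : (0 : ℝ) ≤ (num R : ℝ) := Nat.cast_nonneg _
  have hzz : zgain R x = ∑ k ∈ range (num R), gain R k x := rfl
  rw [hzz] at hz
  have h2 := mul_le_mul_of_nonneg_left hR9 hm0
  linarith

end Vale.Agent.P091.Multi
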