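import Vale.Agent.P091.Multi.Series

/-!
P091: the gauge dominates `√(log u)`.
-/

noncomputable section

namespace Vale.Agent.P091.Multi

open Filter Topology Real

/-- The gauge of the class `L √(log L)`. -/
lemma mono_sqrtLog : MonotoneOn (fun u : ℝ => u * Real.sqrt (Real.log (2 + u))) (Set.Ici 0) := by
  intro a ha b hb hab
  simp only [Set.mem_Ici] at ha hb
  exact mul_le_mul hab (Real.sqrt_le_sqrt (Real.log_le_log (by linarith) (by linarith)))
    (Real.sqrt_nonneg _) hb

lemma sqrtLog_littleO :
    (fun u : ℝ => u * Real.sqrt (Real.log (2 + u)))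
      =o[atTop] fun u => u * Real.sqrt (Real.log u * Real.log (Real.log (Real.log u))) := by
  refine Asymptotics.isLittleO_iff.2 fun c hc => ?_
  have hlll : Tendsto (fun u : ℝ => Real.log (Real.log (Real.log u))) atTop atTop :=
    tendsto_log_atTop.comp (tendsto_log_atTop.comp tendsto_log_atTop)
  filter_upwards [hlll.eventually_ge_atTop (2 / c ^ 2), eventually_ge_atTop (2 : ℝ)] with u hu h2
  have hl : 0 ≤ Real.log u := Real.log_nonneg (by linarith)
  rw [Real.norm_eq_abs, Real.norm_eq_abs, abs_of_nonneg (mul_nonneg (by linarith)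
    (Real.sqrt_nonneg _)), abs_of_nonneg (mul_nonneg (by linarith) (Real.sqrt_nonneg _))]
  have h1 : Real.log (2 + u) ≤ 2 * Real.log u := by
    have h := Real.log_le_log (by linarith) (show 2 + u ≤ u * u by nlinarith)
    rw [Real.log_mul (by linarith) (by linarith)] at h
    linarith
  have h3 : 2 ≤ c ^ 2 * Real.log (Real.log (Real.log u)) := by
    rw [div_le_iff₀ (by positivity)] at hu
    linarith
  have h4 : Real.log (2 + u) ≤ c ^ 2 * (Real.log u * Real.log (Real.log (Real.log u))) := by
    calc Real.log (2 + u) ≤ 2 * Real.log u := h1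
      _ ≤ (c ^ 2 * Real.log (Real.log (Real.log u))) * Real.log u :=
          mul_le_mul_of_nonneg_right h3 hl
      _ = _ := by ring
  calc u * Real.sqrt (Real.log (2 + u))
      ≤ u * Real.sqrt (c ^ 2 * (Real.log u * Real.log (Real.log (Real.log u)))) :=
        mul_le_mul_of_nonneg_left (Real.sqrt_le_sqrt h4) (by linarith)
    _ = c * (u * Real.sqrt (Real.log u * Real.log (Real.log (Real.log u)))) := by
        rw [Real.sqrt_mul (sq_nonneg c), Real.sqrt_sq hc.le]; ring

end Vale.Agent.P091.Multi
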