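import Vale.Agent.P091.Block

/-!
P091: the layout of components, digit bands and frequencies of the multi-scale example.
Component `k` (from `k = 0`, the finest, to `k = 2 ^ R - 1`, the coarsest) has `R` digit groups of
`L k` binary digits each.
-/

noncomputable section

namespace Vale.Agent.P091.Multi

open Finset

/-- Number of components. -/
def num (R : ℕ) : ℕ := 2 ^ R

/-- Digits per group. -/
def len (R k : ℕ) : ℕ := 65536 * R * 2 ^ k

/-- Binary digits below component `k`. -/
def blw (R k : ℕ) : ℕ := ∑ i ∈ range k, R * len R i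

/-- Total number of binary digits. -/
def tot (R : ℕ) : ℕ := blw R (num R)

/-- Width of a code band. -/
def wid (R k : ℕ) : ℕ := 2 * ex' (len R k) + R

/-- Slack. -/
def gap (R k : ℕ) : ℕ := 4 * R * len R k + 8 * R + 40

/-- Width of a label band. -/
def lwid (R k : ℕ) : ℕ := R * len R k + 2

/-- Bottom of the bands of component `k`. -/
def bot (R : ℕ) : ℕ → ℕ
  | 0 => tot R + 4
  | k + 1 => bot R k + R * len R k + 1 + R * wid R k + gap R k + 2 + R * lwid R k + 2

/-- Code band of group `j`. -/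
def sh (R k j : ℕ) : ℕ := bot R k + R * len R k + 1 + j * wid R k

/-- Exponent of the resolution of component `k`. -/
def mex (R k : ℕ) : ℕ := sh R k R + gap R k

/-- Label band of group `r`. -/
def lb (R k r : ℕ) : ℕ := mex R k + 2 + r * lwid R k

/-- The digits of component `k`. -/
def idk (R k x : ℕ) : ℕ := x / 2 ^ blw R k % 2 ^ (R * len R k)

/-- Digit `j` (from the top) of component `k`. -/
def dig (R k j x : ℕ) : ℕ := idk R k x / 2 ^ ((R - 1 - j) * len R k) % 2 ^ len R k

/-- The first `r` digits of component `k`. -/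
def loc' (R k r x : ℕ) : ℕ := idk R k x / 2 ^ ((R - r) * len R k)

/-- Middle half. -/
def Mid (L d : ℕ) : Prop := 2 ^ (L - 2) ≤ d ∧ d < 3 * 2 ^ (L - 2)

/-- The two outer eighths. -/
def Outer (L d : ℕ) : Prop := d < 2 ^ (L - 3) ∨ 7 * 2 ^ (L - 3) ≤ d

/-- `x` uses group `r` of component `k`. -/
def IsCls (R k r x : ℕ) : Prop :=
  r + 1 < R ∧ (∀ j, j ≤ r → Mid (len R k) (dig R k j x)) ∧ Outer (len R k) (dig R k (r + 1) x)

/-- The code term of a point. -/
def codeTerm (R k x : ℕ) : ℕ :=
  open scoped Classical in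
  ∑ r ∈ range R, if IsCls R k r x then freq (len R k) (dig R k r x) * 2 ^ sh R k r else 0

/-- The label term of a point. -/
def labTerm (R k x : ℕ) : ℕ :=
  open scoped Classical in
  ∑ r ∈ range R, if IsCls R k r x then (loc' R k r x + 1) * 2 ^ lb R k r else 0

/-- The part of the frequency of `x` carried by component `k`. -/
def part' (R k x : ℕ) : ℕ := idk R k x * 2 ^ bot R k + codeTerm R k x + labTerm R k x

/-- The part of the frequency above component `k`. -/
def hd (R k x : ℕ) : ℕ := 2 ^ bot R (num R) + ∑ i ∈ Ico (k + 1) (num R), part' R i x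

/-- The part of the frequency below component `k`. -/
def low (R k x : ℕ) : ℕ := ∑ i ∈ range k, part' R i x

/-- The frequency of a point. -/
def nfreq (R x : ℕ) : ℕ := 2 ^ bot R (num R) + ∑ i ∈ range (num R), part' R i x

variable {R : ℕ}

lemma len_large (hR : 1 ≤ R) (k : ℕ) : 65536 ≤ len R k := by
  unfold len
  have := Nat.one_le_two_pow (n := k)
  calc 65536 = 65536 * 1 * 1 := rfl
    _ ≤ _ := by gcongr

lemma blw_succ (k : ℕ) : blw R (k + 1) = blw R k + R * len R k := by
  simp [blw, Finset.sum_range_succ]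

lemma blw_mono {a b : ℕ} (h : a ≤ b) : blw R a ≤ blw R b :=
  Finset.sum_le_sum_of_subset (Finset.range_mono h)

lemma blw_le (k : ℕ) : blw R k ≤ R * len R k := by
  induction k with
  | zero => simp [blw]
  | succ k ih =>
    rw [blw_succ]
    have : R * len R (k + 1) = R * len R k + R * len R k := by unfold len; rw [pow_succ]; ring
    omega

lemma bot_mono {a b : ℕ} (h : a ≤ b) : bot R a ≤ bot R b :=
  monotone_nat_of_le_succ (fun k => by rw [bot]; omega) h

lemma tot_le_bot (k : ℕ) : tot R + 4 ≤ bot R k := by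
  have := bot_mono (R := R) (Nat.zero_le k); rw [bot] at this; exact this

lemma sh_mono {k a b : ℕ} (h : a ≤ b) : sh R k a ≤ sh R k b := by
  unfold sh; have := Nat.mul_le_mul_right (wid R k) h; omega

lemma sh_succ (k j : ℕ) : sh R k (j + 1) = sh R k j + wid R k := by unfold sh; ring

lemma bot_lt_sh (k j : ℕ) : bot R k + R * len R k < sh R k j := by unfold sh; omega

lemma lb_succ (k r : ℕ) : lb R k (r + 1) = lb R k r + lwid R k := by unfold lb; ring

lemma lb_mono {k a b : ℕ} (h : a ≤ b) : lb R k a ≤ lb R k b := by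
  unfold lb; have := Nat.mul_le_mul_right (lwid R k) h; omega

lemma bot_succ (k : ℕ) : bot R (k + 1) = lb R k R + 2 := by
  simp only [bot, lb, mex, sh]

lemma mex_lt_lb (k r : ℕ) : mex R k + 2 ≤ lb R k r := by unfold lb; omega

lemma idk_lt (k x : ℕ) : idk R k x < 2 ^ (R * len R k) := Nat.mod_lt _ (Nat.two_pow_pos _)

lemma dig_lt (k j x : ℕ) : dig R k j x < 2 ^ len R k := Nat.mod_lt _ (Nat.two_pow_pos _)

lemma loc'_lt {k r x : ℕ} (hr : r ≤ R) : loc' R k r x < 2 ^ (r * len R k) := by
  unfold loc'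
  rw [Nat.div_lt_iff_lt_mul (Nat.two_pow_pos _), ← pow_add, ← add_mul, Nat.add_sub_cancel' hr]
  exact idk_lt k x

lemma isCls_unique {k r r' x : ℕ} (hR : 1 ≤ R) (h : IsCls R k r x) (h' : IsCls R k r' x) :
    r = r' := by
  have hL : 3 ≤ len R k := by have := len_large hR k; omega
  have hout : ∀ d, Mid (len R k) d → Outer (len R k) d → False := by
    intro d hm ho
    have e : 2 ^ (len R k - 2) = 2 * 2 ^ (len R k - 3) := by
      rw [← pow_succ']; congr 1; omega
    unfold Mid at hm
    unfold Outer at ho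
    rw [e] at hm
    omega
  rcases lt_trichotomy r r' with hlt | heq | hlt
  · exact (hout _ (h'.2.1 (r + 1) hlt) h.2.2).elim
  · exact heq
  · exact (hout _ (h.2.1 (r' + 1) hlt) h'.2.2).elim

lemma sum_isCls_eq {k r x : ℕ} (hR : 1 ≤ R) (h : IsCls R k r x) {α : Type*} [AddCommMonoid α]
    (g : ℕ → α) [DecidablePred fun s => IsCls R k s x] :
    (∑ s ∈ range R, if IsCls R k s x then g s else 0) = g r := by
  rw [Finset.sum_eq_single_of_mem r (Finset.mem_range.2 (by have := h.1; omega))
    (fun s _ hs => if_neg fun hs' => hs (isCls_unique hR hs' h)), if_pos h]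

lemma sum_isCls_none {k x : ℕ} (h : ∀ r, ¬ IsCls R k r x) {α : Type*} [AddCommMonoid α]
    (g : ℕ → α) [DecidablePred fun s => IsCls R k s x] :
    (∑ s ∈ range R, if IsCls R k s x then g s else 0) = 0 :=
  Finset.sum_eq_zero fun s _ => if_neg (h s)

lemma code_lt (hR : 1 ≤ R) (k x : ℕ) :
    idk R k x * 2 ^ bot R k + codeTerm R k x < 2 ^ sh R k R := by
  classical
  have hw : ex' (len R k) + 2 ≤ wid R k := by
    have : 2 ≤ ex' (len R k) := by rw [ex']; unfold base; omega
    unfold wid; omega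
  have hid : idk R k x * 2 ^ bot R k < 2 ^ sh R k 0 := by
    calc idk R k x * 2 ^ bot R k < 2 ^ (R * len R k) * 2 ^ bot R k :=
          Nat.mul_lt_mul_of_pos_right (idk_lt k x) (Nat.two_pow_pos _)
      _ ≤ _ := by rw [← pow_add]; exact Nat.pow_le_pow_right (by norm_num) (by have := bot_lt_sh (R := R) k 0; omega)
  have hcode : codeTerm R k x + 2 ^ sh R k 0 ≤ 2 ^ sh R k R := by
    have h0 : 2 ^ sh R k 0 * 2 ≤ 2 ^ sh R k R := by
      rw [← pow_succ]; refine Nat.pow_le_pow_right (by norm_num) ?_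
      have h1 := sh_succ (R := R) k 0
      have := sh_mono (R := R) (k := k) (show 0 + 1 ≤ R from hR)
      omega
    by_cases h : ∃ r, IsCls R k r x
    · obtain ⟨r, hr⟩ := h
      unfold codeTerm
      rw [sum_isCls_eq hR hr]
      have hf : freq (len R k) (dig R k r x) ≤ 2 ^ ex' (len R k) := by
        refine (freq_le _ _).trans (Nat.pow_le_pow_right (by norm_num) ?_)
        rw [ex']; omega
      have h1 : freq (len R k) (dig R k r x) * 2 ^ sh R k r * 2 ≤ 2 ^ sh R k R := by
        refine (Nat.mul_le_mul_right _ (Nat.mul_le_mul_right _ hf)).trans ?_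
        rw [← pow_add, ← pow_succ]
        refine Nat.pow_le_pow_right (by norm_num) ?_
        have h1 := sh_succ (R := R) k r
        have := sh_mono (R := R) (k := k) (show r + 1 ≤ R by have := hr.1; omega)
        omega
      omega
    · push Not at h
      unfold codeTerm
      rw [sum_isCls_none h]
      omega
  omega

lemma lab_le (hR : 1 ≤ R) (k x : ℕ) : labTerm R k x + 2 ^ lb R k 0 ≤ 2 ^ lb R k R := by
  classical
  have h0 : 2 ^ lb R k 0 * 2 ≤ 2 ^ lb R k R := by
    rw [← pow_succ]; refine Nat.pow_le_pow_right (by norm_num) ?_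
    have h1 := lb_succ (R := R) k 0
    have := lb_mono (R := R) (k := k) (show 0 + 1 ≤ R from hR)
    unfold lwid at h1
    omega
  by_cases h : ∃ r, IsCls R k r x
  · obtain ⟨r, hr⟩ := h
    unfold labTerm
    rw [sum_isCls_eq hR hr]
    have hrR : r < R := by have := hr.1; omega
    have hl : loc' R k r x + 1 ≤ 2 ^ (R * len R k) :=
      le_trans (loc'_lt hrR.le) (Nat.pow_le_pow_right (by norm_num) (Nat.mul_le_mul_right _ hrR.le))
    have h1 : (loc' R k r x + 1) * 2 ^ lb R k r * 2 ≤ 2 ^ lb R k R := by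
      refine (Nat.mul_le_mul_right _ (Nat.mul_le_mul_right _ hl)).trans ?_
      rw [← pow_add, ← pow_succ]
      refine Nat.pow_le_pow_right (by norm_num) ?_
      have h1 := lb_succ (R := R) k r
      have := lb_mono (R := R) (k := k) (show r + 1 ≤ R from hrR)
      unfold lwid at h1
      omega
    omega
  · push Not at h
    unfold labTerm
    rw [sum_isCls_none h]
    omega

lemma part'_lt (hR : 1 ≤ R) (k x : ℕ) : part' R k x + 2 ^ bot R k ≤ 2 ^ bot R (k + 1) := by
  have h1 := code_lt hR k x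
  have h2 := lab_le hR k x
  have h3 : 2 ^ sh R k R * 2 ≤ 2 ^ lb R k 0 := by
    rw [← pow_succ]; refine Nat.pow_le_pow_right (by norm_num) ?_
    have := mex_lt_lb (R := R) k 0; unfold mex at this; omega
  have h4 : 2 ^ bot R (k + 1) = 4 * 2 ^ lb R k R := by rw [bot_succ, pow_add]; ring
  have h5 : 2 ^ bot R k ≤ 2 ^ sh R k R :=
    Nat.pow_le_pow_right (by norm_num) (by unfold sh; omega)
  unfold part'
  omega

lemma low_lt (hR : 1 ≤ R) (k x : ℕ) : low R k x < 2 ^ bot R k := by
  induction k with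
  | zero => simp [low]
  | succ k ih =>
    unfold low at ih ⊢
    rw [Finset.sum_range_succ]
    have := part'_lt hR k x
    omega

lemma codeTerm_dvd (k x : ℕ) : 2 ^ sh R k 0 ∣ codeTerm R k x := by
  classical
  unfold codeTerm
  refine Finset.dvd_sum fun r _ => ?_
  split_ifs
  · exact Dvd.dvd.mul_left (pow_dvd_pow 2 (sh_mono (Nat.zero_le r))) _
  · exact dvd_zero _

lemma labTerm_dvd (k x : ℕ) : 2 ^ lb R k 0 ∣ labTerm R k x := by
  classical
  unfold labTerm
  refine Finset.dvd_sum fun r _ => ?_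
  split_ifs
  · exact Dvd.dvd.mul_left (pow_dvd_pow 2 (lb_mono (Nat.zero_le r))) _
  · exact dvd_zero _

lemma bot_le_lb (k r : ℕ) : bot R k + R * len R k + 1 ≤ lb R k r := by
  have := bot_lt_sh (R := R) k R
  unfold lb mex
  omega

lemma part'_dvd (k x : ℕ) : 2 ^ bot R k ∣ part' R k x := by
  unfold part'
  refine dvd_add (dvd_add (Dvd.intro_left _ rfl) ?_) ?_
  · exact (pow_dvd_pow 2 (by have := bot_lt_sh (R := R) k 0; omega)).trans (codeTerm_dvd k x)
  · exact (pow_dvd_pow 2 (by have := bot_le_lb (R := R) k 0; omega)).trans (labTerm_dvd k x)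

lemma hd_dvd {k : ℕ} (hk : k < num R) (x : ℕ) : 2 ^ bot R (k + 1) ∣ hd R k x := by
  unfold hd
  refine dvd_add (pow_dvd_pow 2 (bot_mono hk)) (Finset.dvd_sum fun i hi => ?_)
  exact (pow_dvd_pow 2 (bot_mono (Finset.mem_Ico.1 hi).1)).trans (part'_dvd i x)

lemma hd_pos (k x : ℕ) : 0 < hd R k x := by
  unfold hd; have := Nat.two_pow_pos (bot R (num R)); omega

lemma hd_step {k : ℕ} (hk : k + 1 < num R) (x : ℕ) :
    hd R k x = hd R (k + 1) x + part' R (k + 1) x := by
  unfold hd
  rw [Finset.sum_eq_sum_Ico_succ_bot hk]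
  ring

lemma hd_top (x : ℕ) : hd R (num R - 1) x = 2 ^ bot R (num R) := by
  unfold hd
  rw [Finset.Ico_eq_empty (by omega), Finset.sum_empty, add_zero]

lemma nfreq_split {k : ℕ} (hk : k < num R) (x : ℕ) :
    nfreq R x = hd R k x + part' R k x + low R k x := by
  unfold nfreq hd low
  rw [← Finset.sum_range_add_sum_Ico _ hk, Finset.sum_range_succ]
  ring

lemma part'_idk (k x : ℕ) : part' R k x % 2 ^ (bot R k + R * len R k)
    = idk R k x * 2 ^ bot R k := by
  obtain ⟨a, ha⟩ := (pow_dvd_pow 2 (bot_lt_sh (R := R) k 0).le).trans (codeTerm_dvd k x)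
  obtain ⟨b, hb⟩ :=
    (pow_dvd_pow 2 (by have := bot_le_lb (R := R) k 0; omega : bot R k + R * len R k ≤ lb R k 0)).trans
      (labTerm_dvd k x)
  unfold part'
  rw [ha, hb, Nat.add_mul_mod_self_left, Nat.add_mul_mod_self_left, Nat.mod_eq_of_lt]
  rw [pow_add, mul_comm (2 ^ bot R k)]
  exact Nat.mul_lt_mul_of_pos_right (idk_lt k x) (Nat.two_pow_pos _)

lemma top_eq_of_hd_eq (hR : 1 ≤ R) {x u : ℕ} (hx : x < 2 ^ tot R) (hu : u < 2 ^ tot R) :
    ∀ k, k < num R → hd R k x = hd R k u → x / 2 ^ blw R (k + 1) = u / 2 ^ blw R (k + 1) := by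
  suffices H : ∀ d k, k + d + 1 = num R → hd R k x = hd R k u →
      x / 2 ^ blw R (k + 1) = u / 2 ^ blw R (k + 1) by
    intro k hk h; exact H (num R - k - 1) k (by omega) h
  intro d
  induction d with
  | zero =>
    intro k hk _
    rw [show k + 1 = num R by omega]
    change x / 2 ^ tot R = u / 2 ^ tot R
    rw [Nat.div_eq_of_lt hx, Nat.div_eq_of_lt hu]
  | succ d ih =>
    intro k hk h
    have hk1 : k + 1 < num R := by omega
    rw [hd_step hk1, hd_step hk1] at h
    obtain ⟨a, ha⟩ := hd_dvd (R := R) hk1 x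
    obtain ⟨b, hb⟩ := hd_dvd (R := R) hk1 u
    have hpx : part' R (k + 1) x < 2 ^ bot R (k + 1 + 1) := by
      have := part'_lt hR (k + 1) x; have := Nat.two_pow_pos (bot R (k + 1)); omega
    have hpu : part' R (k + 1) u < 2 ^ bot R (k + 1 + 1) := by
      have := part'_lt hR (k + 1) u; have := Nat.two_pow_pos (bot R (k + 1)); omega
    rw [ha, hb] at h
    have hpart : part' R (k + 1) x = part' R (k + 1) u := by
      have := congrArg (fun z => z % 2 ^ bot R (k + 1 + 1)) h
      simpa [Nat.mul_add_mod, Nat.mod_eq_of_lt hpx, Nat.mod_eq_of_lt hpu] using this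
    have hhd : hd R (k + 1) x = hd R (k + 1) u := by rw [ha, hb]; omega
    have htop := ih (k + 1) (by omega) hhd
    have hid : idk R (k + 1) x = idk R (k + 1) u := by
      have := part'_idk (R := R) (k + 1) x
      rw [hpart, part'_idk] at this
      exact Nat.eq_of_mul_eq_mul_right (Nat.two_pow_pos _) this.symm
    unfold idk at hid
    rw [blw_succ (k + 1), pow_add, ← Nat.div_div_eq_div_mul, ← Nat.div_div_eq_div_mul] at htop
    have h1 := Nat.div_add_mod (x / 2 ^ blw R (k + 1)) (2 ^ (R * len R (k + 1)))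
    have h2 := Nat.div_add_mod (u / 2 ^ blw R (k + 1)) (2 ^ (R * len R (k + 1)))
    rw [htop, hid] at h1
    rw [← h1, h2]

lemma idk_congr {k : ℕ} {x u s : ℕ} (hs : s ≤ blw R k) (h : x / 2 ^ s = u / 2 ^ s) :
    idk R k x = idk R k u := by
  unfold idk
  obtain ⟨e, he⟩ := Nat.exists_eq_add_of_le hs
  rw [he, pow_add, ← Nat.div_div_eq_div_mul, ← Nat.div_div_eq_div_mul, h]

lemma part'_congr {k : ℕ} {x u : ℕ} (h : idk R k x = idk R k u) :
    part' R k x = part' R k u := by
  classical
  have hd' : ∀ j, dig R k j x = dig R k j u := fun j => by unfold dig; rw [h]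
  have hl : ∀ r, loc' R k r x = loc' R k r u := fun r => by unfold loc'; rw [h]
  have hc : ∀ r, IsCls R k r x ↔ IsCls R k r u := fun r => by unfold IsCls; simp only [hd']
  unfold part' codeTerm labTerm
  simp only [h, hd', hl, hc]

lemma hd_congr {k x u : ℕ} (h : x / 2 ^ blw R (k + 1) = u / 2 ^ blw R (k + 1)) :
    hd R k x = hd R k u := by
  unfold hd
  congr 1
  exact Finset.sum_congr rfl fun i hi =>
    part'_congr (idk_congr (blw_mono (Finset.mem_Ico.1 hi).1) h)

end Vale.Agent.P091.Multi
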