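import Vale.Agent.P091.Multi.Fejer

/-!
P091: one atom, a Fejér kernel multiplied by a short Riesz product.
-/

noncomputable section

namespace Vale.Agent.P091

open Finset Real

/-- Sign patterns. -/
def pats (R : ℕ) : Finset (Fin R → ℤ) := Fintype.piFinset fun _ => Icc (-1 : ℤ) 1

/-- The coefficient of a sign pattern. -/
def pcoef {R : ℕ} (ε : Fin R → ℤ) : ℝ := ∏ r, if ε r = 0 then 1 else 1 / 2

/-- The frequency of a sign pattern. -/
def pfreq {R : ℕ} (H : Fin R → ℤ) (ε : Fin R → ℤ) : ℤ := ∑ r, ε r * H r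

/-- The Riesz product. -/
def riesz {R : ℕ} (H : Fin R → ℤ) (x : ℝ) : ℝ := ∏ r, (1 + Real.cos (2 * π * (H r : ℝ) * x))

/-- The part of an atom seen by the `N`-th partial sum. -/
def asum {R : ℕ} (H : Fin R → ℤ) (M N : ℕ) (x y : ℝ) : ℂ :=
  ∑ ε ∈ pats R, ((pcoef ε : ℂ) * ee ((pfreq H ε : ℝ) * x)) *
    ∑ ν ∈ (Icc (-(M : ℤ)) M).filter (fun ν => |pfreq H ε + ν| ≤ (N : ℤ)),
      (wgt M ν : ℂ) * ee ((ν : ℝ) * y)

lemma pcoef_nonneg {R : ℕ} (ε : Fin R → ℤ) : 0 ≤ pcoef ε :=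
  Finset.prod_nonneg fun r _ => by split_ifs <;> norm_num

lemma sum_pcoef (R : ℕ) : ∑ ε ∈ pats R, pcoef ε = 2 ^ R := by
  unfold pats pcoef
  rw [Finset.sum_prod_piFinset (Icc (-1 : ℤ) 1) fun _ j => if j = 0 then (1 : ℝ) else 1 / 2]
  have : ∑ j ∈ Icc (-1 : ℤ) 1, (if j = 0 then (1 : ℝ) else 1 / 2) = 2 := by
    rw [show Icc (-1 : ℤ) 1 = {-1, 0, 1} by decide]; norm_num
  rw [this]; simp

lemma riesz_eq {R : ℕ} (H : Fin R → ℤ) (x : ℝ) :
    (riesz H x : ℂ) = ∑ ε ∈ pats R, (pcoef ε : ℂ) * ee ((pfreq H ε : ℝ) * x) := by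
  have hcos : ∀ a : ℝ, ((1 + Real.cos (2 * π * a) : ℝ) : ℂ)
      = ∑ j ∈ Icc (-1 : ℤ) 1, ((if j = 0 then (1 : ℝ) else 1 / 2 : ℝ) : ℂ) * ee ((j : ℝ) * a) := by
    intro a
    rw [show Icc (-1 : ℤ) 1 = {-1, 0, 1} by decide, Finset.sum_insert (by decide),
      Finset.sum_insert (by decide), Finset.sum_singleton]
    simp only [if_neg (show ¬((-1 : ℤ) = 0) by decide), ite_true, eq_self_iff_true,
      if_neg (show ¬((1 : ℤ) = 0) by decide), Int.cast_neg, Int.cast_one, Int.cast_zero, one_mul,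
      neg_one_mul, zero_mul, Complex.ofReal_one]
    rw [ee_neg_conj, show ee 0 = 1 by simp [ee]]
    apply Complex.ext
    · simp only [ee, Complex.add_re, Complex.mul_re, Complex.conj_re, Complex.conj_im,
        Complex.ofReal_re, Complex.ofReal_im, Complex.one_re, Complex.exp_ofReal_mul_I_re]
      ring
    · simp only [ee, Complex.add_im, Complex.mul_im, Complex.conj_re, Complex.conj_im,
        Complex.ofReal_re, Complex.ofReal_im, Complex.one_im, Complex.exp_ofReal_mul_I_im]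
      ring
  have hprod : ∀ ε : Fin R → ℤ, (pcoef ε : ℂ) * ee ((pfreq H ε : ℝ) * x)
      = ∏ r, ((if ε r = 0 then (1 : ℝ) else 1 / 2 : ℝ) : ℂ) * ee ((ε r : ℝ) * ((H r : ℝ) * x)) := by
    intro ε
    rw [Finset.prod_mul_distrib, pcoef, Complex.ofReal_prod]
    congr 1
    unfold ee pfreq
    rw [← Complex.exp_sum]
    congr 1
    rw [← Finset.sum_mul, ← Complex.ofReal_sum]
    congr 2
    push_cast
    simp only [Finset.mul_sum, Finset.sum_mul]
    exact Finset.sum_congr rfl fun r _ => by ring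
  unfold riesz
  rw [Complex.ofReal_prod]
  simp only [hprod]
  rw [pats, Finset.sum_congr rfl fun ε _ => rfl]
  have e : ∀ r : Fin R, ((1 + Real.cos (2 * π * (H r : ℝ) * x) : ℝ) : ℂ)
      = ∑ j ∈ Icc (-1 : ℤ) 1,
        ((if j = 0 then (1 : ℝ) else 1 / 2 : ℝ) : ℂ) * ee ((j : ℝ) * ((H r : ℝ) * x)) := by
    intro r
    rw [← hcos]; congr 3; ring
  rw [Finset.prod_congr rfl fun r _ => e r, Finset.prod_univ_sum]

lemma riesz_nonneg {R : ℕ} (H : Fin R → ℤ) (x : ℝ) : 0 ≤ riesz H x :=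
  Finset.prod_nonneg fun r _ => by linarith [Real.neg_one_le_cos (2 * π * (H r : ℝ) * x)]

lemma riesz_le {R : ℕ} (H : Fin R → ℤ) (x : ℝ) : riesz H x ≤ 2 ^ R := by
  unfold riesz
  refine (Finset.prod_le_prod (g := fun _ => (2 : ℝ))
    (fun r _ => by linarith [Real.neg_one_le_cos (2 * π * (H r : ℝ) * x)])
    (fun r _ => by linarith [Real.cos_le_one (2 * π * (H r : ℝ) * x)])).trans ?_
  simp

lemma fejer_decay (M : ℕ) {y : ℝ} (hy0 : y ≠ 0) (hy : |y| ≤ 1 / 2) :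
    fejer M y ≤ 1 / (4 * ((M : ℝ) + 1) * y ^ 2) := by
  unfold fejer
  have hpos : 0 < |y| := abs_pos.2 hy0
  have h4 := four_mul_abs_le hy
  have h : (∑ j ∈ range (M + 1), ee ((j : ℝ) * y)) * (1 - ee y) = 1 - ee y ^ (M + 1) := by
    rw [← geom_sum_mul_neg]
    congr 1
    exact Finset.sum_congr rfl fun j _ => (ee_nat_mul j y).symm
  have hn : ‖∑ j ∈ range (M + 1), ee ((j : ℝ) * y)‖ * (4 * |y|) ≤ 2 := by
    refine (mul_le_mul_of_nonneg_left h4 (norm_nonneg _)).trans ?_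
    rw [← norm_mul, h]
    refine (norm_sub_le _ _).trans ?_
    rw [norm_pow, norm_ee, norm_one]; norm_num
  have h2 : ‖∑ j ∈ range (M + 1), ee ((j : ℝ) * y)‖ ≤ 1 / (2 * |y|) := by
    rw [le_div_iff₀ (by linarith)]; linarith
  calc ‖∑ j ∈ range (M + 1), ee ((j : ℝ) * y)‖ ^ 2 / ((M : ℝ) + 1)
      ≤ (1 / (2 * |y|)) ^ 2 / ((M : ℝ) + 1) := by gcongr
    _ = _ := by rw [div_pow, mul_pow, sq_abs]; field_simp; ring

/-- Frequencies outside the band give either nothing or the whole Fejér kernel. -/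
lemma inner_bound {M N : ℕ} {Q : ℤ} (h : |Q| + M ≤ (N : ℤ) ∨ (N : ℤ) + M < |Q|) (y : ℝ) :
    ‖∑ ν ∈ (Icc (-(M : ℤ)) M).filter (fun ν => |Q + ν| ≤ (N : ℤ)),
      (wgt M ν : ℂ) * ee ((ν : ℝ) * y)‖ ≤ fejer M y := by
  rcases h with h | h
  · rw [Finset.filter_true_of_mem, ← fejer_eq_wgt, Complex.norm_real, Real.norm_eq_abs,
      abs_of_nonneg (fejer_nonneg _ _)]
    intro ν hν
    have := abs_le.2 (Finset.mem_Icc.1 hν)
    exact (abs_add_le _ _).trans (by omega)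
  · rw [Finset.filter_false_of_mem, Finset.sum_empty, norm_zero]
    · exact fejer_nonneg _ _
    intro ν hν hle
    have h1 := abs_le.2 (Finset.mem_Icc.1 hν)
    have h2 : |Q| ≤ |Q + ν| + |ν| := by
      calc |Q| = |(Q + ν) - ν| := by ring_nf
        _ ≤ _ := abs_sub _ _
    omega

lemma outer_cases {M N' : ℕ} {Q Nh d : ℤ} (hd : 2 * (M : ℤ) < d) (hN' : (N' : ℤ) ≤ M) (hQ : d ∣ Q)
    (hNh : d ∣ Nh) (hpos : 0 ≤ Nh) (h1 : Q ≠ Nh) (h2 : Q ≠ -Nh) :
    |Q| + M ≤ Nh + N' ∨ Nh + N' + M < |Q| := by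
  have hne : |Q| ≠ Nh := by
    intro h
    rcases abs_choice Q with h' | h' <;> rw [h'] at h
    · exact h1 h
    · exact h2 (by omega)
  have hdQ : d ∣ |Q| - Nh := dvd_sub ((dvd_abs _ _).2 hQ) hNh
  have hd0 : 0 < d := by omega
  rcases lt_or_gt_of_ne hne with h | h
  · left
    have h3 : d ∣ Nh - |Q| := by rw [← neg_sub]; exact hdQ.neg_right
    have := Int.le_of_dvd (by omega) h3
    omega
  · right
    have := Int.le_of_dvd (by omega) hdQ
    omega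

lemma asum_killed {R M N : ℕ} (H : Fin R → ℤ) (x y : ℝ)
    (h : ∀ ε ∈ pats R, |pfreq H ε| + M ≤ (N : ℤ) ∨ (N : ℤ) + M < |pfreq H ε|) :
    ‖asum H M N x y‖ ≤ 2 ^ R * fejer M y := by
  unfold asum
  refine (norm_sum_le _ _).trans ?_
  rw [← sum_pcoef, Finset.sum_mul]
  refine Finset.sum_le_sum fun ε hε => ?_
  rw [norm_mul, norm_mul, norm_ee, mul_one, Complex.norm_real, Real.norm_eq_abs,
    abs_of_nonneg (pcoef_nonneg ε)]
  exact mul_le_mul_of_nonneg_left (inner_bound (h ε hε) y) (pcoef_nonneg ε)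

lemma pfreq_neg {R : ℕ} (H ε : Fin R → ℤ) : pfreq H (-ε) = -pfreq H ε := by
  simp [pfreq]

/-- An atom which is visible through exactly one pair `± ε₀`. -/
lemma asum_visible {R M : ℕ} {N' : ℕ} (H : Fin R → ℤ) {ε₀ : Fin R → ℤ} {Nh : ℕ}
    (hN' : N' < M) (hNh : 2 * M < Nh) (hmem : ε₀ ∈ pats R) (hne : ε₀ ≠ 0)
    (hq : pfreq H ε₀ = (Nh : ℤ)) (hc : pcoef ε₀ = 1 / 2) {x y : ℝ} (hy0 : y ≠ 0)
    (hy : |y| ≤ 1 / 2)
    (h : ∀ ε ∈ pats R, ε ≠ ε₀ → ε ≠ -ε₀ →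
      |pfreq H ε| + M ≤ ((Nh + N' : ℕ) : ℤ) ∨ ((Nh + N' : ℕ) : ℤ) + M < |pfreq H ε|) :
    ‖asum H M (Nh + N') x y
      - ((Real.sin (2 * π * ((Nh : ℝ) * x + (N' : ℝ) * y)) / (2 * (π * y)) : ℝ) : ℂ)‖
      ≤ 2 + (2 ^ R + 1) / (4 * ((M : ℝ) + 1) * y ^ 2) + ((N' : ℝ) + 1) / (((M : ℝ) + 1) * |y|) := by
  classical
  have hmem' : -ε₀ ∈ pats R := by
    simp only [pats, Fintype.mem_piFinset, Finset.mem_Icc, Pi.neg_apply] at hmem ⊢
    intro r; have := hmem r; omega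
  have hne' : -ε₀ ≠ ε₀ := fun he => hne (by funext r; have := congrFun he r; simp at this ⊢; omega)
  have hc' : pcoef (-ε₀) = 1 / 2 := by rw [← hc]; unfold pcoef; simp
  set A : ℂ := ∑ ν ∈ Icc (-(M : ℤ)) N', (wgt M ν : ℂ) * ee ((ν : ℝ) * y) with hA
  set rest : ℂ := ∑ ε ∈ ((pats R).erase ε₀).erase (-ε₀),
    ((pcoef ε : ℂ) * ee ((pfreq H ε : ℝ) * x)) *
      ∑ ν ∈ (Icc (-(M : ℤ)) M).filter (fun ν => |pfreq H ε + ν| ≤ ((Nh + N' : ℕ) : ℤ)),
        (wgt M ν : ℂ) * ee ((ν : ℝ) * y) with hrest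
  have hplus : ∑ ν ∈ (Icc (-(M : ℤ)) M).filter (fun ν => |(Nh : ℤ) + ν| ≤ ((Nh + N' : ℕ) : ℤ)),
      (wgt M ν : ℂ) * ee ((ν : ℝ) * y) = A := by
    rw [hA]
    refine Finset.sum_congr ?_ fun _ _ => rfl
    ext ν
    simp only [mem_filter, mem_Icc, abs_le]
    push_cast
    omega
  have hminus : ∑ ν ∈ (Icc (-(M : ℤ)) M).filter (fun ν => |-(Nh : ℤ) + ν| ≤ ((Nh + N' : ℕ) : ℤ)),
      (wgt M ν : ℂ) * ee ((ν : ℝ) * y) = starRingEnd ℂ A := by
    rw [hA, map_sum]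
    refine Finset.sum_nbij' (fun ν => -ν) (fun ν => -ν) ?_ ?_ (fun a _ => neg_neg a)
      (fun a _ => neg_neg a) ?_
    · intro ν hν
      simp only [mem_Icc, mem_filter, abs_le]
        at hν ⊢
      push_cast at hν
      omega
    · intro ν hν
      simp only [mem_Icc, mem_filter, abs_le]
        at hν ⊢
      push_cast
      omega
    · intro ν _
      rw [map_mul, Complex.conj_ofReal, ← ee_neg_conj, wgt, wgt]
      push_cast
      rw [abs_neg, neg_mul, neg_neg]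
  have hsplit : asum H M (Nh + N') x y
      = (((ee ((Nh : ℝ) * x) * A).re : ℝ) : ℂ) + rest := by
    unfold asum
    rw [← Finset.add_sum_erase _ _ hmem,
      ← Finset.add_sum_erase _ _ (Finset.mem_erase.2 ⟨hne', hmem'⟩), ← hrest, ← add_assoc]
    congr 1
    rw [pfreq_neg, hq, hc, hc', hplus, hminus, Int.cast_neg, Int.cast_natCast, neg_mul,
      ee_neg_conj, mul_assoc, mul_assoc, ← map_mul, ← mul_add, Complex.add_conj]
    push_cast
    ring
  have hrest_le : ‖rest‖ ≤ 2 ^ R * fejer M y := by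
    rw [hrest]
    refine (norm_sum_le _ _).trans ?_
    rw [← sum_pcoef, Finset.sum_mul]
    refine (Finset.sum_le_sum (g := fun ε => pcoef ε * fejer M y) fun ε hε => ?_).trans
      (Finset.sum_le_sum_of_subset_of_nonneg
        ((Finset.erase_subset _ _).trans (Finset.erase_subset _ _))
        fun ε _ _ => mul_nonneg (pcoef_nonneg ε) (fejer_nonneg _ _))
    obtain ⟨hε1, hε2, hε3⟩ : ε ≠ -ε₀ ∧ ε ≠ ε₀ ∧ ε ∈ pats R := by
      simpa using hε
    rw [norm_mul, norm_mul, norm_ee, mul_one, Complex.norm_real, Real.norm_eq_abs,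
      abs_of_nonneg (pcoef_nonneg ε)]
    exact mul_le_mul_of_nonneg_left (inner_bound (h ε hε3 hε2 hε1) y) (pcoef_nonneg ε)
  have hA1 := one_sided hN' hy0 hy
  rw [← hA] at hA1
  set w := wgt M ((N' : ℤ) + 1) with hw
  set β := (Nh : ℝ) * x + (N' : ℝ) * y with hβ
  set S := Real.sin (2 * π * β) / (2 * (π * y)) with hS
  have hw1 : 0 ≤ w := wgt_nonneg (by rw [abs_of_nonneg (by omega)]; omega)
  have hw2 : w ≤ 1 := wgt_le_one _ _
  have hw3 : 1 - w = ((N' : ℝ) + 1) / ((M : ℝ) + 1) := by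
    rw [hw, wgt]; push_cast
    rw [abs_of_nonneg (by positivity : (0 : ℝ) ≤ (N' : ℝ) + 1)]; ring
  have hre : |(ee ((Nh : ℝ) * x) * A).re - w * (ee β / (1 - ee (-y))).re|
      ≤ 1 / (4 * ((M : ℝ) + 1) * y ^ 2) := by
    have e : (ee ((Nh : ℝ) * x) * A).re - w * (ee β / (1 - ee (-y))).re
        = (ee ((Nh : ℝ) * x) * (A - (w : ℂ) * ee ((N' : ℝ) * y) / (1 - ee (-y)))).re := by
      rw [mul_sub, Complex.sub_re, hβ, ee_add,
        show ee ((Nh : ℝ) * x) * ((w : ℂ) * ee ((N' : ℝ) * y) / (1 - ee (-y)))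
          = (w : ℂ) * (ee ((Nh : ℝ) * x) * ee ((N' : ℝ) * y) / (1 - ee (-y))) by ring,
        Complex.re_ofReal_mul]
    rw [e]
    refine (Complex.abs_re_le_norm _).trans ?_
    rw [norm_mul, norm_ee, one_mul]
    exact hA1
  have hmid := real_part_main (β := β) hy0 hy
  rw [← hS] at hmid
  have hSle : |S| ≤ 1 / |y| := by
    rw [hS, abs_div, abs_mul, abs_mul, abs_of_pos Real.pi_pos, abs_two]
    gcongr
    · exact Real.abs_sin_le_one _
    · nlinarith [Real.pi_gt_three, abs_nonneg y]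
  have hreal : |(ee ((Nh : ℝ) * x) * A).re - S|
      ≤ 1 / (4 * ((M : ℝ) + 1) * y ^ 2) + 2 + ((N' : ℝ) + 1) / (((M : ℝ) + 1) * |y|) := by
    set P := (ee β / (1 - ee (-y))).re
    have e : (ee ((Nh : ℝ) * x) * A).re - S
        = ((ee ((Nh : ℝ) * x) * A).re - w * P) + w * (P - S) + (-(1 - w) * S) := by ring
    rw [e]
    refine (abs_add_three _ _ _).trans (add_le_add (add_le_add hre ?_) ?_)
    · rw [abs_mul, abs_of_nonneg hw1]
      calc w * |P - S| ≤ 1 * 2 := mul_le_mul hw2 hmid (abs_nonneg _) zero_le_one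
        _ = 2 := one_mul _
    · rw [abs_mul, abs_neg, abs_of_nonneg (by linarith : 0 ≤ 1 - w), hw3]
      calc ((N' : ℝ) + 1) / ((M : ℝ) + 1) * |S| ≤ ((N' : ℝ) + 1) / ((M : ℝ) + 1) * (1 / |y|) :=
            mul_le_mul_of_nonneg_left hSle (by positivity)
        _ = _ := by rw [div_mul_div_comm, mul_one]
  rw [hsplit, add_sub_right_comm, ← Complex.ofReal_sub]
  refine (norm_add_le _ _).trans ?_
  rw [Complex.norm_real, Real.norm_eq_abs]
  have hF : 2 ^ R * fejer M y ≤ (2 : ℝ) ^ R * (1 / (4 * ((M : ℝ) + 1) * y ^ 2)) :=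
    mul_le_mul_of_nonneg_left (fejer_decay M hy0 hy) (by positivity)
  have e : (2 + (2 ^ R + 1) / (4 * ((M : ℝ) + 1) * y ^ 2) : ℝ)
      = 2 + 1 / (4 * ((M : ℝ) + 1) * y ^ 2) + (2 : ℝ) ^ R * (1 / (4 * ((M : ℝ) + 1) * y ^ 2)) := by
    ring
  rw [e]
  linarith

end Vale.Agent.P091
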