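import Vale.Agent.P091.Multi.SeriesParams

/-!
P091: the multi-scale series with almost everywhere unbounded partial sums.
-/

noncomputable section

namespace Vale.Agent.P091.Multi

open Finset Real MeasureTheory AddCircle Filter Topology
open scoped ENNReal

variable {T : ℝ} [hT : Fact (0 < T)]

/-- Block `j` of the series, with translations `τ`. -/
def blk (T : ℝ) (B : ℕ → ℕ) (τ : ℕ → ℕ → ℝ) (j : ℕ) (z : AddCircle T) : ℂ :=
  ∑ i ∈ range (j + 1), ∑ k ∈ range (num (rad B j)),
    (wgtj B j k : ℂ) * gk T (rad B j) k (lamj B j i : ℤ) (τ j i) z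

/-- The absolute size of component `k` of block `j`. -/
def pab (T : ℝ) (B : ℕ → ℕ) (τ : ℕ → ℕ → ℝ) (j k : ℕ) (z : AddCircle T) : ℝ :=
  ∑ i ∈ range (j + 1), wgtj B j k * ‖gk T (rad B j) k (lamj B j i : ℤ) (τ j i) z‖

/-- The absolute size of block `j`. -/
def gab (T : ℝ) (B : ℕ → ℕ) (τ : ℕ → ℕ → ℝ) (j : ℕ) (z : AddCircle T) : ℝ :=
  ∑ k ∈ range (num (rad B j)), pab T B τ j k z

/-- The series. -/
def series (T : ℝ) (B : ℕ → ℕ) (τ : ℕ → ℕ → ℝ) (z : AddCircle T) : ℂ := ∑' j, blk T B τ j z

/-- The part of the absolute series above component `k` of block `j`. -/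
def tailT (T : ℝ) (B : ℕ → ℕ) (τ : ℕ → ℕ → ℝ) (j k : ℕ) (z : AddCircle T) : ℝ≥0∞ :=
  ∑ k' ∈ Ico k (num (rad B j)), ENNReal.ofReal (pab T B τ j k' z)
    + ∑' i, ENNReal.ofReal (gab T B τ (i + (j + 1)) z)

/-- The symmetric partial sum of order `N`. -/
def psum (f : AddCircle T → ℂ) (N : ℕ) (z : AddCircle T) : ℂ :=
  ∑ k ∈ Icc (-(N : ℤ)) N, fourierCoeff f k * fourier k z

variable (B : ℕ → ℕ) (τ : ℕ → ℕ → ℝ)

omit hT in
lemma pab_nonneg (j k : ℕ) (z : AddCircle T) : 0 ≤ pab T B τ j k z :=
  Finset.sum_nonneg fun _ _ => mul_nonneg (wgtj_pos B j k).le (norm_nonneg _)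

lemma gab_nonneg (j : ℕ) (z : AddCircle T) : 0 ≤ gab T B τ j z :=
  Finset.sum_nonneg fun _ _ => pab_nonneg B τ j _ z

lemma blk_continuous (j : ℕ) : Continuous (blk T B τ j) := by
  unfold blk
  exact continuous_finsetSum _ fun i _ => continuous_finsetSum _ fun k _ =>
    continuous_const.mul (gk_continuous _ _ _)

lemma pab_continuous (j k : ℕ) : Continuous (pab T B τ j k) := by
  unfold pab
  exact continuous_finsetSum _ fun i _ => continuous_const.mul (gk_continuous _ _ _).norm

lemma gab_continuous (j : ℕ) : Continuous (gab T B τ j) := by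
  unfold gab
  exact continuous_finsetSum _ fun k _ => pab_continuous B τ j k

omit hT in
lemma norm_blk_le (j : ℕ) (z : AddCircle T) : ‖blk T B τ j z‖ ≤ gab T B τ j z := by
  unfold blk gab pab
  rw [Finset.sum_comm (s := range (num (rad B j)))]
  refine (norm_sum_le _ _).trans (Finset.sum_le_sum fun i _ => ?_)
  refine (norm_sum_le _ _).trans (Finset.sum_le_sum fun k _ => ?_)
  rw [norm_mul, Complex.norm_real, Real.norm_eq_abs, abs_of_pos (wgtj_pos B j k)]

lemma pab_le (j : ℕ) {k : ℕ} (hk : k < num (rad B j)) (z : AddCircle T) :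
    pab T B τ j k z ≤ hgt (rad B j) k := by
  obtain ⟨y, rfl⟩ := exists_rep z
  have hR : 1 ≤ rad B j := by have := rad_ge B j; omega
  unfold pab
  refine (Finset.sum_le_sum (g := fun _ => wgtj B j k * hgt (rad B j) k) fun i _ => ?_).trans ?_
  · refine mul_le_mul_of_nonneg_left ?_ (wgtj_pos B j k).le
    rw [norm_gk_rep]
    exact gval_le hR hk _
  · rw [Finset.sum_const, Finset.card_range, nsmul_eq_mul, ← mul_assoc]
    refine mul_le_of_le_one_left (hgt_pos _ _).le ?_
    push_cast
    exact wgt_small B j k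

lemma integral_pab (j : ℕ) {k : ℕ} (hk : k < num (rad B j)) :
    ∫⁻ z, ENNReal.ofReal (pab T B τ j k z) ∂haarAddCircle
      = ENNReal.ofReal (((j : ℝ) + 1) * wgtj B j k) := by
  rw [← ofReal_integral_eq_lintegral_ofReal
    ((pab_continuous B τ j k).integrable_of_hasCompactSupport (HasCompactSupport.of_compactSpace _))
    (ae_of_all _ fun z => pab_nonneg B τ j k z)]
  congr 1
  have hR : 1 ≤ rad B j := by have := rad_ge B j; omega
  unfold pab
  have hint : ∀ i ∈ range (j + 1), Integrable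
      (fun z : AddCircle T => wgtj B j k * ‖gk T (rad B j) k (lamj B j i : ℤ) (τ j i) z‖)
      haarAddCircle := fun i _ => Continuous.integrable_of_hasCompactSupport
    (continuous_const.mul (gk_continuous _ _ _).norm) (HasCompactSupport.of_compactSpace _)
  rw [integral_finsetSum _ hint]
  rw [Finset.sum_congr rfl (g := fun _ => wgtj B j k) fun i _ => ?_]
  · rw [Finset.sum_const, Finset.card_range, nsmul_eq_mul]; push_cast; rfl
  · rw [integral_const_mul, integral_norm_gk hR hk, mul_one]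

lemma integral_gab (j : ℕ) :
    ∫⁻ z, ENNReal.ofReal (gab T B τ j z) ∂haarAddCircle ≤ ENNReal.ofReal (nb B j) := by
  unfold gab
  simp only [ENNReal.ofReal_sum_of_nonneg fun k _ => pab_nonneg B τ j k _]
  rw [lintegral_finsetSum _ fun k _ => (pab_continuous B τ j k).measurable.ennreal_ofReal,
    Finset.sum_congr rfl fun k hk => integral_pab B τ j (Finset.mem_range.1 hk),
    ← ENNReal.ofReal_sum_of_nonneg fun k _ =>
      mul_nonneg (by positivity) (wgtj_pos B j k).le, ← Finset.mul_sum]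
  exact ENNReal.ofReal_le_ofReal (block_norm_le B j)

lemma integral_block_tail (j : ℕ) :
    ∑' i, ∫⁻ z, ENNReal.ofReal (gab T B τ (i + j) z) ∂haarAddCircle
      ≤ ENNReal.ofReal (2 * nb B j) := by
  have hnb : 0 ≤ nb B j := by unfold nb; positivity
  have hs : HasSum (fun i : ℕ => nb B j * (1 / 2 : ℝ) ^ i) (2 * nb B j) := by
    have h := hasSum_geometric_two.mul_left (nb B j)
    rwa [mul_comm (nb B j) 2] at h
  rw [← hs.tsum_eq, ENNReal.ofReal_tsum_of_nonneg (fun i => by positivity) hs.summable]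
  exact ENNReal.tsum_le_tsum fun i =>
    (integral_gab B τ (i + j)).trans (ENNReal.ofReal_le_ofReal (nb_geom B j i))

lemma ae_summable_gab : ∀ᵐ z ∂(haarAddCircle : Measure (AddCircle T)),
    Summable fun j => gab T B τ j z := by
  have hne : ∫⁻ z, ∑' j, ENNReal.ofReal (gab T B τ j z) ∂haarAddCircle ≠ ∞ := by
    rw [lintegral_tsum fun j => (gab_continuous B τ j).measurable.ennreal_ofReal.aemeasurable]
    exact ne_top_of_le_ne_top ENNReal.ofReal_ne_top (integral_block_tail B τ 0)
  filter_upwards [ae_lt_top (Measurable.tsum fun j =>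
    (gab_continuous (T := T) B τ j).measurable.ennreal_ofReal) hne] with z hz
  have h := ENNReal.summable_toReal hz.ne
  simpa [ENNReal.toReal_ofReal (gab_nonneg B τ _ z)] using h

lemma series_aestronglyMeasurable :
    AEStronglyMeasurable (series T B τ) (haarAddCircle : Measure (AddCircle T)) := by
  refine aestronglyMeasurable_of_tendsto_ae atTop
    (f := fun m z => ∑ j ∈ range m, blk T B τ j z) (fun m => ?_) ?_
  · exact (continuous_finsetSum _ fun j _ => blk_continuous B τ j).aestronglyMeasurable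
  · filter_upwards [ae_summable_gab B τ] with z hz
    have hs : Summable fun j => ‖blk T B τ j z‖ :=
      Summable.of_nonneg_of_le (fun j => norm_nonneg _) (fun j => norm_blk_le B τ j z) hz
    exact hs.of_norm.hasSum.tendsto_sum_nat

lemma tsum_lintegral_blk :
    ∑' j, ∫⁻ z, ‖blk T B τ j z‖ₑ ∂haarAddCircle ≠ ∞ := by
  refine ne_top_of_le_ne_top ENNReal.ofReal_ne_top
    (le_trans (ENNReal.tsum_le_tsum fun j => lintegral_mono fun z => ?_) (integral_block_tail B τ 0))
  rw [← ofReal_norm, add_zero]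
  exact ENNReal.ofReal_le_ofReal (norm_blk_le B τ j z)

lemma series_integrable : Integrable (series T B τ) haarAddCircle := by
  refine ⟨series_aestronglyMeasurable B τ, ?_⟩
  rw [hasFiniteIntegral_iff_enorm]
  refine lt_of_le_of_lt (lintegral_mono fun z => enorm_tsum_le_tsum_enorm) ?_
  rw [lintegral_tsum fun j => (blk_continuous B τ j).enorm.measurable.aemeasurable]
  exact lt_top_iff_ne_top.2 (tsum_lintegral_blk B τ)

lemma fourierCoeff_blk (j : ℕ) (m : ℤ) : fourierCoeff (blk T B τ j) m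
    = ∑ i ∈ range (j + 1), ∑ k ∈ range (num (rad B j)), (wgtj B j k : ℂ) *
      ∑ p ∈ (terms (rad B j) k).filter (fun p => (lamj B j i : ℤ) + tfreq (rad B j) k p = m),
        tcoef (rad B j) k (τ j i) p := by
  have hint : ∀ i k, Integrable (fun z => (wgtj B j k : ℂ) *
      gk T (rad B j) k (lamj B j i : ℤ) (τ j i) z) haarAddCircle :=
    fun i k => (continuous_const.mul (gk_continuous _ _ _)).integrable_of_hasCompactSupport
      (HasCompactSupport.of_compactSpace _)
  have e : blk T B τ j = ∑ i ∈ range (j + 1), ∑ k ∈ range (num (rad B j)),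
      fun z => (wgtj B j k : ℂ) * gk T (rad B j) k (lamj B j i : ℤ) (τ j i) z := by
    funext z; simp only [Finset.sum_apply]; rfl
  rw [e, fourierCoeff.sum _ _ fun i _ => integrable_finsetSum' _ fun k _ => hint i k,
    Finset.sum_apply]
  refine Finset.sum_congr rfl fun i _ => ?_
  rw [fourierCoeff.sum _ _ fun k _ => hint i k, Finset.sum_apply]
  refine Finset.sum_congr rfl fun k _ => ?_
  rw [fourierCoeff.const_mul, fourierCoeff_gk]

lemma fourierCoeff_series (m : ℤ) :
    fourierCoeff (series T B τ) m = ∑' j, fourierCoeff (blk T B τ j) m := by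
  unfold fourierCoeff series
  simp only [smul_eq_mul, ← tsum_mul_left]
  refine integral_tsum (fun j => ?_) ?_
  · exact ((map_continuous (fourier (-m))).mul (blk_continuous B τ j)).aestronglyMeasurable
  · refine ne_top_of_le_ne_top (tsum_lintegral_blk (T := T) B τ) (le_of_eq ?_)
    refine tsum_congr fun n => lintegral_congr fun z => ?_
    rw [enorm_mul, fourier_apply, ← ofReal_norm, Circle.norm_coe, ENNReal.ofReal_one, one_mul]

lemma coef_zero {j i k : ℕ} (hk : k < num (rad B j)) {m : ℤ}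
    (h : (degR (rad B j) : ℤ) < |m - lamj B j i|) :
    (terms (rad B j) k).filter (fun p => (lamj B j i : ℤ) + tfreq (rad B j) k p = m) = ∅ := by
  rw [Finset.filter_eq_empty_iff]
  intro p hp he
  have := tfreq_bound (R := rad B j) (by have := rad_ge B j; omega) hk hp
  rw [← he, add_sub_cancel_left] at h
  linarith

lemma series_coeff_nonpos {m : ℤ} (hm : m ≤ 0) : fourierCoeff (series T B τ) m = 0 := by
  rw [fourierCoeff_series, (?_ : (fun j => fourierCoeff (blk T B τ j) m) = fun _ => (0 : ℂ)),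
    tsum_zero]
  funext j
  rw [fourierCoeff_blk]
  refine Finset.sum_eq_zero fun i _ => Finset.sum_eq_zero fun k hk => ?_
  rw [coef_zero B (Finset.mem_range.1 hk) (by
    have := deg_lt_lamj B j i
    rw [abs_of_nonpos (by omega)]; omega), Finset.sum_empty, mul_zero]

lemma series_coeff_band {j i : ℕ} (hi : i ≤ j) {m : ℤ}
    (h : |m - lamj B j i| ≤ (degR (rad B j) : ℤ)) :
    fourierCoeff (series T B τ) m = ∑ k ∈ range (num (rad B j)), (wgtj B j k : ℂ) *
      ∑ p ∈ (terms (rad B j) k).filter (fun p => (lamj B j i : ℤ) + tfreq (rad B j) k p = m),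
        tcoef (rad B j) k (τ j i) p := by
  rw [fourierCoeff_series, tsum_eq_single j]
  · rw [fourierCoeff_blk, Finset.sum_eq_single_of_mem i (Finset.mem_range.2 (by omega))]
    intro i' hi' hne
    refine Finset.sum_eq_zero fun k hk => ?_
    rw [coef_zero B (Finset.mem_range.1 hk), Finset.sum_empty, mul_zero]
    by_contra hc
    push Not at hc
    exact hne (band_unique B (by have := Finset.mem_range.1 hi'; omega) hi hc h).2
  · intro j' hj'
    rw [fourierCoeff_blk]
    refine Finset.sum_eq_zero fun i' hi' => Finset.sum_eq_zero fun k hk => ?_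
    rw [coef_zero B (Finset.mem_range.1 hk), Finset.sum_empty, mul_zero]
    by_contra hc
    push Not at hc
    exact hj' (band_unique B (by have := Finset.mem_range.1 hi'; omega) hi hc h).1

lemma series_norm_band {j i N : ℕ} (hi : i ≤ j) (hN : N ≤ degR (rad B j)) (y : ℝ) :
    ampj B j * ‖bandv (rad B j) N (y - τ j i)‖
      ≤ ‖psum (series T B τ) (lamj B j i + N) ((T * y : ℝ) : AddCircle T)‖
        + ‖psum (series T B τ) (lamj B j i - N - 1) ((T * y : ℝ) : AddCircle T)‖ := by
  classical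
  set z : AddCircle T := ((T * y : ℝ) : AddCircle T) with hz
  set Λ := lamj B j i with hΛ
  have hlam := deg_lt_lamj B j i
  set R := rad B j with hR
  have hpos : ∀ K : ℕ, psum (series T B τ) K z
      = ∑ k ∈ Icc (1 : ℤ) K, fourierCoeff (series T B τ) k * fourier k z := by
    intro K
    unfold psum
    refine (Finset.sum_subset (fun k hk => ?_) fun k hk hk' => ?_).symm
    · simp only [Finset.mem_Icc] at hk ⊢; omega
    · simp only [Finset.mem_Icc] at hk hk'
      rw [series_coeff_nonpos B τ (by omega), zero_mul]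
  have hdiff : psum (series T B τ) (Λ + N) z - psum (series T B τ) (Λ - N - 1) z
      = ∑ k ∈ Icc ((Λ : ℤ) - N) (Λ + N), fourierCoeff (series T B τ) k * fourier k z := by
    rw [hpos, hpos, sub_eq_iff_eq_add, ← Finset.sum_union]
    · refine Finset.sum_congr ?_ fun _ _ => rfl
      ext k
      simp only [Finset.mem_Icc, Finset.mem_union]
      push_cast
      omega
    · rw [Finset.disjoint_left]
      intro k hk hk'
      simp only [Finset.mem_Icc] at hk hk'
      omega
  have hband : ∑ m ∈ Icc ((Λ : ℤ) - N) (Λ + N), fourierCoeff (series T B τ) m * fourier m z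
      = (ampj B j : ℂ) * (ee (((Λ : ℤ) : ℝ) * y) * bandv R N (y - τ j i)) := by
    have hk : ∀ k : ℕ, ∑ m ∈ Icc ((Λ : ℤ) - N) (Λ + N),
        (∑ p ∈ (terms R k).filter (fun p => (Λ : ℤ) + tfreq R k p = m), tcoef R k (τ j i) p)
          * fourier m z
        = ee (((Λ : ℤ) : ℝ) * y) * ∑ u ∈ atoms R k, (mass R k : ℂ) *
            asum (hfun R k u) (mdeg R k) N (y - τ j i) (y - τ j i - pos' R k u) := by
      intro k
      rw [← band_rep (T := T) k N (Λ : ℤ) (τ j i) y, ← hz,
        ← Finset.sum_fiberwise_of_maps_to (t := Icc ((Λ : ℤ) - N) (Λ + N))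
          (g := fun p => (Λ : ℤ) + tfreq R k p) (fun p hp => by
            have := abs_le.1 (Finset.mem_filter.1 hp).2
            rw [Finset.mem_Icc]; omega)]
      refine Finset.sum_congr rfl fun m hm => ?_
      rw [Finset.sum_mul]
      have hset : ((terms R k).filter fun p => |tfreq R k p| ≤ (N : ℤ)).filter
            (fun p => (Λ : ℤ) + tfreq R k p = m)
          = (terms R k).filter fun p => (Λ : ℤ) + tfreq R k p = m := by
        rw [Finset.filter_filter]
        refine Finset.filter_congr fun p _ => ⟨fun h => h.2, fun h => ⟨?_, h⟩⟩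
        rw [Finset.mem_Icc] at hm
        rw [abs_le]; omega
      rw [hset]
      refine Finset.sum_congr rfl fun p hp => ?_
      rw [(Finset.mem_filter.1 hp).2]
    have h1 : ∀ m ∈ Icc ((Λ : ℤ) - N) (Λ + N), fourierCoeff (series T B τ) m * fourier m z
        = ∑ k ∈ range (num R), (wgtj B j k : ℂ) *
          ((∑ p ∈ (terms R k).filter (fun p => (Λ : ℤ) + tfreq R k p = m), tcoef R k (τ j i) p)
            * fourier m z) := by
      intro m hm
      rw [series_coeff_band B τ hi (m := m) (by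
        show |m - (Λ : ℤ)| ≤ (degR R : ℤ)
        rw [Finset.mem_Icc] at hm
        rw [abs_le]
        have : (N : ℤ) ≤ (degR R : ℤ) := by exact_mod_cast hN
        constructor <;> omega), Finset.sum_mul]
      exact Finset.sum_congr rfl fun k _ => mul_assoc _ _ _
    rw [Finset.sum_congr rfl h1, Finset.sum_comm]
    simp only [← Finset.mul_sum, hk]
    unfold bandv wgtj
    rw [← hR, Finset.mul_sum, Finset.mul_sum]
    refine Finset.sum_congr rfl fun k _ => ?_
    push_cast
    simp only [← Finset.mul_sum]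
    ring
  have := norm_sub_le (psum (series T B τ) (Λ + N) z) (psum (series T B τ) (Λ - N - 1) z)
  rw [hdiff, hband, norm_mul, norm_mul, norm_ee, one_mul, Complex.norm_real, Real.norm_eq_abs,
    abs_of_pos (ampj_pos B j)] at this
  exact this

lemma block_sum_le (j : ℕ) (z : AddCircle T) :
    ∑ j' ∈ range (j + 1), gab T B τ j' z ≤ topT B j / 4 := by
  have hblock : ∀ j', gab T B τ j' z
      ≤ (num (rad B j') : ℝ) * hgt (rad B j') (num (rad B j') - 1) := by
    intro j'
    unfold gab
    refine (Finset.sum_le_sum fun k hk => (pab_le B τ j' (Finset.mem_range.1 hk) z).trans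
      (hgt_mono le_rfl (len_mono _ (show k ≤ num (rad B j') - 1 by
        have := Finset.mem_range.1 hk; omega)))).trans ?_
    rw [Finset.sum_const, Finset.card_range, nsmul_eq_mul]
  induction j with
  | zero =>
    rw [Finset.sum_range_one]
    refine (hblock 0).trans ?_
    unfold topT thrT
    have := hgt_pos (rad B 0) (num (rad B 0) - 1)
    have : (0 : ℝ) ≤ (num (rad B 0) : ℝ) := Nat.cast_nonneg _
    nlinarith
  | succ j ih =>
    rw [Finset.sum_range_succ]
    refine (add_le_add (ih.trans (top_step B j (k := num (rad B (j + 1)) - 1)))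
      (hblock (j + 1))).trans ?_
    unfold topT thrT
    have := hgt_pos (rad B (j + 1)) (num (rad B (j + 1)) - 1)
    have : (0 : ℝ) ≤ (num (rad B (j + 1)) : ℝ) := Nat.cast_nonneg _
    nlinarith

lemma integral_tailT (j : ℕ) {k : ℕ} (hk : k < num (rad B j)) :
    ∫⁻ z, tailT T B τ j k z ∂haarAddCircle
      ≤ ENNReal.ofReal (4 * ((j : ℝ) + 1) * wgtj B j k) := by
  have hR : 1 ≤ rad B j := by have := rad_ge B j; omega
  unfold tailT
  rw [lintegral_add_left (Finset.measurable_sum _ fun k' _ =>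
      (pab_continuous B τ j k').measurable.ennreal_ofReal),
    lintegral_finsetSum _ fun k' _ => (pab_continuous B τ j k').measurable.ennreal_ofReal,
    lintegral_tsum fun i =>
      (gab_continuous B τ (i + (j + 1))).measurable.ennreal_ofReal.aemeasurable,
    Finset.sum_congr rfl fun k' hk' => integral_pab B τ j (Finset.mem_Ico.1 hk').2,
    ← ENNReal.ofReal_sum_of_nonneg fun k' _ => mul_nonneg (by positivity) (wgtj_pos B j k').le]
  refine (add_le_add le_rfl (integral_block_tail B τ (j + 1))).trans ?_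
  rw [← ENNReal.ofReal_add (Finset.sum_nonneg fun k' _ =>
    mul_nonneg (by positivity) (wgtj_pos B j k').le) (by unfold nb; positivity)]
  refine ENNReal.ofReal_le_ofReal ?_
  have h1 : ∑ k' ∈ Ico k (num (rad B j)), ((j : ℝ) + 1) * wgtj B j k'
      ≤ 2 * ((j : ℝ) + 1) * wgtj B j k := by
    unfold wgtj
    rw [← Finset.mul_sum, ← Finset.mul_sum]
    calc ((j : ℝ) + 1) * (ampj B j * ∑ i ∈ Ico k (num (rad B j)), cw (rad B j) i)
        ≤ ((j : ℝ) + 1) * (ampj B j * (2 * cw (rad B j) k)) :=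
          mul_le_mul_of_nonneg_left
            (mul_le_mul_of_nonneg_left (sum_cw_le hR hk.le) (ampj_pos B j).le) (by positivity)
      _ = _ := by ring
  linarith [nb_next_le B j hk]

lemma rad_ge_self (j : ℕ) : j ≤ rad B j := by have := rad_ge B j; omega

lemma rad_ge_16 (j : ℕ) : 16 ≤ rad B j := by have := rad_ge B j; omega

lemma shell_low {z : AddCircle T} {g : ℝ} (j k : ℕ) (hk : k < num (rad B (j + 1)))
    (hprev : topT B j < g) (hlast : 0 < k → thrT B (j + 1) (k - 1) < g) :
    2 * (∑ i ∈ range (j + 1), gab T B τ i z + ∑ k' ∈ range k, pab T B τ (j + 1) k' z) ≤ g := by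
  have h1 := block_sum_le B τ j z
  rcases Nat.eq_zero_or_pos k with h0 | h0
  · rw [h0, Finset.sum_range_zero, add_zero]
    have h : 0 ≤ topT B j := (Nat.cast_nonneg _).trans (rad_le_thrT B j _)
    linarith only [h1, hprev, h]
  · have h2 : ∑ k' ∈ range k, pab T B τ (j + 1) k' z
        ≤ (num (rad B (j + 1)) : ℝ) * hgt (rad B (j + 1)) (k - 1) := by
      refine (Finset.sum_le_sum (g := fun _ => hgt (rad B (j + 1)) (k - 1))
        fun k' hk' => (pab_le B τ (j + 1)
          (by have := Finset.mem_range.1 hk'; omega) z).trans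
          (hgt_mono le_rfl (len_mono _ (show k' ≤ k - 1 by
            have := Finset.mem_range.1 hk'; omega)))).trans ?_
      rw [Finset.sum_const, Finset.card_range, nsmul_eq_mul]
      exact mul_le_mul_of_nonneg_right (Nat.cast_le.2 hk.le) (hgt_pos _ _).le
    have h3 := top_step B j (k := k - 1)
    have h4 := hlast h0
    have h5 : thrT B (j + 1) (k - 1)
        = 8 * ((num (rad B (j + 1)) : ℝ) * hgt (rad B (j + 1)) (k - 1)) := mul_assoc _ _ _
    have h6 : 0 ≤ (num (rad B (j + 1)) : ℝ) * hgt (rad B (j + 1)) (k - 1) :=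
      mul_nonneg (Nat.cast_nonneg _) (hgt_pos _ _).le
    linarith only [h1, h2, h3, h4, h5, h6]

omit hT in
lemma shell_split (j k : ℕ) (hk : k ≤ num (rad B (j + 1))) {z : AddCircle T}
    (hz : Summable fun i => gab T B τ i z) :
    ∑' i, gab T B τ i z = (∑ i ∈ range (j + 1), gab T B τ i z
      + ∑ k' ∈ range k, pab T B τ (j + 1) k' z)
      + ((∑ k' ∈ Ico k (num (rad B (j + 1))), pab T B τ (j + 1) k' z)
        + ∑' i, gab T B τ (i + (j + 1 + 1)) z) := by
  have h1 : ∑ k' ∈ range k, pab T B τ (j + 1) k' z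
      + ∑ k' ∈ Ico k (num (rad B (j + 1))), pab T B τ (j + 1) k' z = gab T B τ (j + 1) z :=
    Finset.sum_range_add_sum_Ico _ hk
  have h2 := hz.sum_add_tsum_nat_add (j + 1 + 1)
  rw [Finset.sum_range_succ] at h2
  linarith only [h1, h2]

lemma shell_tail (j k : ℕ) {z : AddCircle T} (hz : Summable fun i => gab T B τ i z) :
    tailT T B τ (j + 1) k z
      = ENNReal.ofReal ((∑ k' ∈ Ico k (num (rad B (j + 1))), pab T B τ (j + 1) k' z)
        + ∑' i, gab T B τ (i + (j + 1 + 1)) z) := by
  unfold tailT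
  rw [ENNReal.ofReal_add (Finset.sum_nonneg fun k' _ => pab_nonneg B τ _ k' z)
      (tsum_nonneg fun i => gab_nonneg B τ _ z),
    ENNReal.ofReal_sum_of_nonneg fun k' _ => pab_nonneg B τ _ k' z,
    ENNReal.ofReal_tsum_of_nonneg (fun i => gab_nonneg B τ _ z)
      ((summable_nat_add_iff (f := fun i => gab T B τ i z) (j + 1 + 1)).2 hz)]

lemma shell_find {g : ℝ} (hg : topT B 0 < g) :
    ∃ j k, k < num (rad B (j + 1)) ∧ topT B j < g ∧ g ≤ thrT B (j + 1) k ∧
      (0 < k → thrT B (j + 1) (k - 1) < g) := by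
  classical
  have hex : ∃ J, g ≤ topT B J := ⟨⌈g⌉₊, (Nat.le_ceil g).trans (le_trans
    (Nat.cast_le.2 (show ⌈g⌉₊ ≤ rad B ⌈g⌉₊ from rad_ge_self B _))
    (rad_le_thrT B _ _))⟩
  have hne : Nat.find hex ≠ 0 := fun h0 => by
    have h := Nat.find_spec hex; rw [h0] at h; exact absurd h (not_le.2 hg)
  obtain ⟨j, hj⟩ := Nat.exists_eq_succ_of_ne_zero hne
  have hprev : topT B j < g := not_le.1 (Nat.find_min hex (by omega))
  have hcur : g ≤ topT B (j + 1) := by
    have h := Nat.find_spec hex; rwa [hj] at h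
  have hexk : ∃ k, g ≤ thrT B (j + 1) k := ⟨num (rad B (j + 1)) - 1, hcur⟩
  refine ⟨j, Nat.find hexk, ?_, hprev, Nat.find_spec hexk,
    fun h0 => not_le.1 (Nat.find_min hexk (by omega))⟩
  have := Nat.find_min' hexk (m := num (rad B (j + 1)) - 1) hcur
  have := num_pos (rad B (j + 1))
  omega

lemma shell_bound (φ : ℝ → ℝ)
    (hB : ∀ j u, (rad B j : ℝ) ≤ u →
      φ u ≤ ((1 / 2 : ℝ) ^ (j + 1) / ((j + 1 : ℕ) + 1) ^ 2) * (u * gauge u))
    {z : AddCircle T} (hz : Summable fun j => gab T B τ j z)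
    (hg : topT B 0 < ∑' j, gab T B τ j z) :
    ∃ j k, k < num (rad B (j + 1)) ∧ ENNReal.ofReal (φ (∑' i, gab T B τ i z)) ≤
      ENNReal.ofReal ((1 / 2 : ℝ) ^ (j + 1) / ((j + 1 : ℕ) + 1) ^ 2 * 2 *
        (2 ^ 15 * (rad B (j + 1) : ℝ) * (len (rad B (j + 1)) k : ℝ)))
      * tailT T B τ (j + 1) k z := by
  obtain ⟨j, k, hk, hprev, hcur, hlast⟩ := shell_find B hg
  refine ⟨j, k, hk, ?_⟩
  have hlower := shell_low B τ (z := z) j k hk hprev hlast
  have hsplit := shell_split B τ j k hk.le hz
  rw [shell_tail B τ j k hz]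
  generalize (∑' i, gab T B τ i z) = g at *
  generalize (∑ i ∈ range (j + 1), gab T B τ i z + ∑ k' ∈ range k, pab T B τ (j + 1) k' z) = a at *
  generalize (∑ k' ∈ Ico k (num (rad B (j + 1))), pab T B τ (j + 1) k' z)
        + ∑' i, gab T B τ (i + (j + 1 + 1)) z = t at *
  have hradj : (rad B j : ℝ) ≤ g := le_trans (rad_le_thrT B j _) hprev.le
  have h16 : (16 : ℝ) ≤ (rad B j : ℝ) := Nat.ofNat_le_cast.2 (rad_ge_16 B j)
  have hg2 : g ≤ 2 * t := by linarith only [hlower, hsplit]
  rw [← ENNReal.ofReal_mul (by positivity)]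
  refine ENNReal.ofReal_le_ofReal ((hB j g hradj).trans ?_)
  have hgauge := gauge_le B (j + 1) k hk (h16.trans hradj) hcur
  generalize (2 ^ 15 * (rad B (j + 1) : ℝ) * (len (rad B (j + 1)) k : ℝ)) = G at *
  have hgauge0 : 0 ≤ gauge g := Real.sqrt_nonneg _
  refine (mul_le_mul_of_nonneg_left (mul_le_mul hg2 hgauge hgauge0
    (by linarith only [hg2, h16, hradj])) (by positivity)).trans_eq ?_
  ring

lemma series_phi (φ : ℝ → ℝ) (hmono : MonotoneOn φ (Set.Ici 0)) (h0 : ∀ u, 0 ≤ u → 0 ≤ φ u)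
    (hB : ∀ j u, (rad B j : ℝ) ≤ u →
      φ u ≤ ((1 / 2 : ℝ) ^ (j + 1) / ((j + 1 : ℕ) + 1) ^ 2) * (u * gauge u)) :
    Integrable (fun z => φ ‖series T B τ z‖) haarAddCircle := by
  classical
  set φ' : ℝ → ℝ := fun u => φ (max u 0) with hφ'
  have hmono' : Monotone φ' := fun a b hab =>
    hmono (le_max_right a 0) (le_max_right b 0) (max_le_max hab le_rfl)
  have heq : (fun z => φ ‖series T B τ z‖) = fun z => φ' ‖series T B τ z‖ := by
    funext z; rw [hφ']; simp only; rw [max_eq_left (norm_nonneg _)]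
  rw [heq]
  refine ⟨(hmono'.measurable.comp_aemeasurable
    (series_aestronglyMeasurable (T := T) B τ).norm.aemeasurable).aestronglyMeasurable, ?_⟩
  rw [hasFiniteIntegral_iff_enorm]
  set c : ℕ → ℕ → ℝ := fun j k => (1 / 2 : ℝ) ^ (j + 1) / ((j + 1 : ℕ) + 1) ^ 2 * 2 *
    (2 ^ 15 * (rad B (j + 1) : ℝ) * (len (rad B (j + 1)) k : ℝ)) with hc
  have hc0 : ∀ j k, 0 ≤ c j k := fun j k => by rw [hc]; positivity
  set G : ℕ → AddCircle T → ℝ≥0∞ := fun j z => ∑ k ∈ range (num (rad B (j + 1))),
    ENNReal.ofReal (c j k) * tailT T B τ (j + 1) k z with hG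
  have hGm : ∀ j, Measurable (G j) := fun j => Finset.measurable_sum _ fun k _ =>
    Measurable.const_mul (Measurable.add
      (Finset.measurable_sum _ fun k' _ => (pab_continuous B τ _ k').measurable.ennreal_ofReal)
      (Measurable.tsum fun i => (gab_continuous B τ _).measurable.ennreal_ofReal)) _
  have hpt : ∀ᵐ z ∂(haarAddCircle : Measure (AddCircle T)), ‖φ' ‖series T B τ z‖‖ₑ ≤
      ENNReal.ofReal (φ (topT B 0)) + ∑' j, G j z := by
    filter_upwards [ae_summable_gab B τ] with z hz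
    set g := ∑' j, gab T B τ j z with hgdef
    have hg0 : 0 ≤ g := tsum_nonneg fun j => gab_nonneg B τ j z
    have hsn : Summable fun j => ‖blk T B τ j z‖ :=
      Summable.of_nonneg_of_le (fun j => norm_nonneg _) (fun j => norm_blk_le B τ j z) hz
    have hnorm : ‖series T B τ z‖ ≤ g :=
      (norm_tsum_le_tsum_norm hsn).trans (hsn.tsum_le_tsum (fun j => norm_blk_le B τ j z) hz)
    have hφg : φ' ‖series T B τ z‖ ≤ φ g := by
      refine (hmono' hnorm).trans_eq ?_
      rw [hφ']; simp only; rw [max_eq_left hg0]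
    have hnn : 0 ≤ φ' ‖series T B τ z‖ := h0 _ (le_max_right _ _)
    rw [← ofReal_norm, Real.norm_eq_abs, abs_of_nonneg hnn]
    refine (ENNReal.ofReal_le_ofReal hφg).trans ?_
    rcases le_or_gt g (topT B 0) with hsmall | hbig
    · exact le_add_of_le_of_nonneg (ENNReal.ofReal_le_ofReal
        (hmono hg0 (le_trans hg0 hsmall) hsmall)) zero_le
    · obtain ⟨j, k, hk, hle⟩ := shell_bound B τ φ hB hz hbig
      refine le_add_of_nonneg_of_le zero_le (hle.trans (le_trans ?_ (ENNReal.le_tsum j)))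
      exact Finset.single_le_sum
        (f := fun k => ENNReal.ofReal (c j k) * tailT T B τ (j + 1) k z)
        (fun _ _ => zero_le) (Finset.mem_range.2 hk)
  refine lt_of_le_of_lt (lintegral_mono_ae hpt) ?_
  rw [lintegral_add_left measurable_const, lintegral_const, measure_univ, mul_one,
    lintegral_tsum fun j => (hGm j).aemeasurable]
  refine ENNReal.add_lt_top.2 ⟨ENNReal.ofReal_lt_top, ?_⟩
  have hterm : ∀ j, ∫⁻ z, G j z ∂haarAddCircle
      ≤ ENNReal.ofReal (2 ^ 18 * (1 / 2 : ℝ) ^ (j + 1)) := by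
    intro j
    have hmeas : ∀ k, Measurable fun z => tailT T B τ (j + 1) k z := fun k => Measurable.add
      (Finset.measurable_sum _ fun k' _ => (pab_continuous B τ _ k').measurable.ennreal_ofReal)
      (Measurable.tsum fun i => (gab_continuous B τ _).measurable.ennreal_ofReal)
    rw [hG]; dsimp only
    rw [lintegral_finsetSum _ fun k _ => (hmeas k).const_mul _]
    refine (Finset.sum_le_sum (g := fun _ => ENNReal.ofReal
      (2 ^ 18 * (1 / 2 : ℝ) ^ (j + 1) / (num (rad B (j + 1)) : ℝ))) fun k hk => ?_).trans ?_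
    · rw [lintegral_const_mul _ (hmeas k)]
      refine (mul_le_mul' le_rfl (integral_tailT B τ (j + 1) (Finset.mem_range.1 hk))).trans ?_
      rw [← ENNReal.ofReal_mul (hc0 j k)]
      refine ENNReal.ofReal_le_ofReal (le_of_eq ?_)
      have hR : 1 ≤ rad B (j + 1) := by have := rad_ge B (j + 1); omega
      have h1 : (0 : ℝ) < (rad B (j + 1) : ℝ) := Nat.cast_pos.2 (by omega)
      have h2 : (0 : ℝ) < (len (rad B (j + 1)) k : ℝ) :=
        Nat.cast_pos.2 (by have := len_large hR k; omega)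
      have h3 : (0 : ℝ) < (num (rad B (j + 1)) : ℝ) := Nat.cast_pos.2 (num_pos _)
      rw [hc]; dsimp only
      unfold wgtj ampj cw
      field_simp
      ring
    · rw [Finset.sum_const, Finset.card_range, nsmul_eq_mul, ← ENNReal.ofReal_natCast,
        ← ENNReal.ofReal_mul (Nat.cast_nonneg _)]
      refine ENNReal.ofReal_le_ofReal (le_of_eq ?_)
      have h3 : (0 : ℝ) < (num (rad B (j + 1)) : ℝ) := Nat.cast_pos.2 (num_pos _)
      field_simp
  refine lt_of_le_of_lt (ENNReal.tsum_le_tsum hterm) ?_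
  rw [← ENNReal.ofReal_tsum_of_nonneg (fun j => by positivity)
    (((summable_nat_add_iff 1).2 summable_geometric_two).mul_left _)]
  exact ENNReal.ofReal_lt_top

lemma series_unbounded_of_cover {j i : ℕ} (hi : i ≤ j) {z : AddCircle T} {C : ℝ}
    (hC : ∀ N, ‖psum (series T B τ) N z‖ ≤ C)
    (hz : z - ((T * τ j i : ℝ) : AddCircle T) ∈ circSet T (rad B j)) :
    ((j : ℝ) + 1) / 4000 ≤ 2 * C := by
  obtain ⟨y, rfl⟩ := exists_rep z
  obtain ⟨w, hw, hwe⟩ := exists_good_rep hz
  have hwe' : (((T * y - T * τ j i) - T * w : ℝ) : AddCircle T) = 0 := by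
    rw [AddCircle.coe_sub, AddCircle.coe_sub, hwe, sub_self]
  obtain ⟨m, hm⟩ := (AddCircle.coe_eq_zero_iff (p := T)).1 hwe'
  rw [zsmul_eq_mul] at hm
  have hTne : T ≠ 0 := hT.out.ne'
  have hyw : y - τ j i = w + (m : ℝ) := by
    apply mul_left_cancel₀ hTne
    linarith
  obtain ⟨N, hN, hbig⟩ := large_band (rad_nine B j) hw
  have h := series_norm_band (T := T) B τ hi hN y
  rw [hyw, bandv_periodic] at h
  have h1 := mul_le_mul_of_nonneg_left hbig (ampj_pos B j).le
  have h2 : ampj B j * ((num (rad B j) : ℝ) * (rad B j : ℝ) / 4000) = ((j : ℝ) + 1) / 4000 := by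
    have h3 : (0 : ℝ) < (num (rad B j) : ℝ) := Nat.cast_pos.2 (num_pos _)
    have h4 : (0 : ℝ) < (rad B j : ℝ) := Nat.cast_pos.2 (by have := rad_ge B j; omega)
    unfold ampj; field_simp
  have h5 := hC (lamj B j i + N)
  have h6 := hC (lamj B j i - N - 1)
  linarith

/-- Almost everywhere divergence below `u * gauge u`. -/
theorem ae_unbounded (φ : ℝ → ℝ) (hmono : MonotoneOn φ (Set.Ici 0))
    (h0 : ∀ u, 0 ≤ u → 0 ≤ φ u) (ho : φ =o[atTop] fun u => u * gauge u) :
    ∃ f : AddCircle T → ℂ, Integrable f haarAddCircle ∧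
      Integrable (fun z => φ ‖f z‖) haarAddCircle ∧
      ∀ᵐ z ∂(haarAddCircle : Measure (AddCircle T)), ∀ C : ℝ, ∃ N, C < ‖psum f N z‖ := by
  classical
  have hk : ∀ j : ℕ, ∃ b : ℕ, ∀ u : ℝ, (b : ℝ) ≤ u →
      φ u ≤ ((1 / 2 : ℝ) ^ (j + 1) / ((j + 1 : ℕ) + 1) ^ 2) * (u * gauge u) := by
    intro j
    have hε : (0 : ℝ) < (1 / 2 : ℝ) ^ (j + 1) / ((j + 1 : ℕ) + 1) ^ 2 := by positivity
    obtain ⟨a, ha⟩ := Filter.eventually_atTop.1 (ho.bound hε)
    refine ⟨⌈max a 0⌉₊, fun u hu => ?_⟩
    have hu' : max a 0 ≤ u := (Nat.le_ceil _).trans hu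
    have h := ha u ((le_max_left _ _).trans hu')
    have hu0 : 0 ≤ u := (le_max_right _ _).trans hu'
    rw [Real.norm_eq_abs, Real.norm_eq_abs, abs_mul, abs_of_nonneg hu0,
      abs_of_nonneg (a := gauge u) (Real.sqrt_nonneg _)] at h
    exact (le_abs_self _).trans h
  choose B hB using hk
  have hcov : ∀ j, ∃ c : ℕ → AddCircle T, haarAddCircle
      (⋂ i ∈ range (j + 1), ((fun z => z - c i) ⁻¹' circSet T (rad B j))ᶜ)
      ≤ ENNReal.ofReal ((19 / 20) ^ (j + 1)) := fun j => exists_cover (rad_nine B j) (j + 1)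
  choose c hc using hcov
  choose t ht using fun j i => exists_rep (c j i)
  refine ⟨series T B t, series_integrable B t,
    series_phi B t φ hmono h0 (fun j u hu => hB j u (le_trans
      (Nat.cast_le.2 (by have := rad_ge B j; omega)) hu)), ?_⟩
  set U : ℕ → Set (AddCircle T) := fun j =>
    ⋂ i ∈ range (j + 1), ((fun z => z - c j i) ⁻¹' circSet T (rad B j))ᶜ with hU
  have hnull : ∀ J, haarAddCircle (⋂ j ∈ Set.Ici J, U j) = 0 := by
    intro J
    refine le_antisymm ?_ zero_le
    have hle : ∀ n, haarAddCircle (⋂ j ∈ Set.Ici J, U j)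
        ≤ ENNReal.ofReal ((19 / 20 : ℝ) ^ (J + n + 1)) := fun n =>
      (measure_mono (Set.biInter_subset_of_mem (by simp : J + n ∈ Set.Ici J))).trans (hc (J + n))
    have hlim : Tendsto (fun n => ENNReal.ofReal ((19 / 20 : ℝ) ^ (J + n + 1))) atTop (𝓝 0) := by
      rw [← ENNReal.ofReal_zero]
      refine ENNReal.tendsto_ofReal ((tendsto_pow_atTop_nhds_zero_of_lt_one (by norm_num)
        (by norm_num)).comp ?_)
      exact tendsto_atTop_mono (fun n => show n ≤ J + n + 1 by omega) tendsto_id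
    exact ge_of_tendsto' hlim hle
  have hbad : haarAddCircle (⋃ J, ⋂ j ∈ Set.Ici J, U j) = 0 := measure_iUnion_null hnull
  filter_upwards [measure_eq_zero_iff_ae_notMem.1 hbad] with z hz
  intro C
  by_contra hC
  push Not at hC
  refine hz (Set.mem_iUnion.2 ⟨⌈8000 * |C|⌉₊, ?_⟩)
  simp only [Set.mem_iInter, hU]
  intro j hj i hi hmem
  simp only [Set.mem_preimage] at hmem
  rw [← ht j i] at hmem
  have h := series_unbounded_of_cover B t (by have := Finset.mem_range.1 hi; omega) hC hmem
  have h2 : 8000 * |C| ≤ (j : ℝ) :=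
    (Nat.le_ceil _).trans (Nat.cast_le.2 (Set.mem_Ici.1 hj))
  linarith [le_abs_self C]

end Vale.Agent.P091.Multi
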