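import Vale.Agent.P091.Multi.Cover

/-!
P091: parameters of the multi-scale series.
-/

noncomputable section

namespace Vale.Agent.P091.Multi

open Finset Real

/-- The parameters of the blocks. -/
def rad (B : ℕ → ℕ) : ℕ → ℕ
  | 0 => 16 + B 0
  | j + 1 => rad B j + 2 * num (rad B j) + len (rad B j) (num (rad B j)) + 4 * j + 16 + B (j + 1)

/-- The amplitude of block `j`. -/
def ampj (B : ℕ → ℕ) (j : ℕ) : ℝ := ((j : ℝ) + 1) / ((num (rad B j) : ℝ) * (rad B j : ℝ))

/-- The weight of component `k` of block `j`. -/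
def wgtj (B : ℕ → ℕ) (j k : ℕ) : ℝ := ampj B j * cw (rad B j) k

/-- The height threshold of component `k` of block `j`. -/
def thrT (B : ℕ → ℕ) (j k : ℕ) : ℝ := 8 * (num (rad B j) : ℝ) * hgt (rad B j) k

/-- The height threshold of block `j`. -/
def topT (B : ℕ → ℕ) (j : ℕ) : ℝ := thrT B j (num (rad B j) - 1)

/-- The gauge. -/
def gauge (u : ℝ) : ℝ := Real.sqrt (Real.log u * Real.log (Real.log (Real.log u)))

variable (B : ℕ → ℕ)

lemma rad_succ (j : ℕ) : rad B (j + 1)
    = rad B j + 2 * num (rad B j) + len (rad B j) (num (rad B j)) + 4 * j + 16 + B (j + 1) := rfl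

lemma rad_ge (j : ℕ) : 16 + 4 * j + B j ≤ rad B j := by
  induction j with
  | zero => simp [rad]
  | succ j ih => rw [rad]; omega

lemma rad_mono {a b : ℕ} (h : a ≤ b) : rad B a ≤ rad B b :=
  monotone_nat_of_le_succ (fun j => by rw [rad]; omega) h

lemma rad_nine (j : ℕ) : 9 ≤ rad B j := by have := rad_ge B j; omega

lemma num_pos (R : ℕ) : 0 < num R := Nat.two_pow_pos R

lemma ampj_pos (j : ℕ) : 0 < ampj B j := by
  have h1 : (0 : ℝ) < (num (rad B j) : ℝ) := Nat.cast_pos.2 (num_pos _)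
  have h2 : (0 : ℝ) < (rad B j : ℝ) := Nat.cast_pos.2 (by have := rad_ge B j; omega)
  unfold ampj; positivity

lemma cw_pos {R : ℕ} (hR : 1 ≤ R) (k : ℕ) : 0 < cw R k := by
  have : (0 : ℝ) < len R k := Nat.cast_pos.2 (by have := len_large hR k; omega)
  unfold cw; positivity

lemma wgtj_pos (j k : ℕ) : 0 < wgtj B j k :=
  mul_pos (ampj_pos B j) (cw_pos (by have := rad_ge B j; omega) k)

lemma cw_succ (R k : ℕ) : cw R (k + 1) = cw R k / 2 := by
  unfold cw len; push_cast; rw [pow_succ, ← mul_assoc, div_div]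

lemma sum_cw_le {R : ℕ} (hR : 1 ≤ R) {k n : ℕ} (h : k ≤ n) :
    ∑ i ∈ Ico k n, cw R i ≤ 2 * cw R k := by
  have key : ∀ d, ∑ i ∈ Ico k (k + d), cw R i = 2 * cw R k - 2 * cw R (k + d) := by
    intro d
    induction d with
    | zero => simp
    | succ d ih =>
      rw [← add_assoc, Finset.sum_Ico_succ_top (Nat.le_add_right k d), ih, cw_succ]; ring
  obtain ⟨d, rfl⟩ := Nat.exists_eq_add_of_le h
  rw [key]
  linarith [cw_pos hR (k + d)]

lemma sq_succ_le (j : ℕ) : (j + 1) * (j + 1) ≤ 2 ^ (2 * j) := by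
  rw [two_mul, pow_add]
  exact Nat.mul_le_mul Nat.lt_two_pow_self Nat.lt_two_pow_self

lemma amp_small (j : ℕ) : ((j : ℝ) + 1) * ampj B j ≤ 1 := by
  have h1 : (0 : ℝ) < (num (rad B j) : ℝ) * (rad B j : ℝ) :=
    mul_pos (Nat.cast_pos.2 (num_pos _)) (Nat.cast_pos.2 (by have := rad_ge B j; omega))
  unfold ampj
  rw [mul_div_assoc', div_le_one h1]
  have h : (j + 1) * (j + 1) ≤ num (rad B j) * rad B j := by
    refine (sq_succ_le j).trans ((Nat.pow_le_pow_right (by norm_num) ?_).trans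
      (Nat.le_mul_of_pos_right _ (by have := rad_ge B j; omega)))
    have := rad_ge B j; omega
  exact_mod_cast h

lemma cw_le_one {R : ℕ} (hR : 1 ≤ R) (k : ℕ) : cw R k ≤ 1 := by
  unfold cw
  have : (1 : ℝ) ≤ len R k := by exact_mod_cast (by have := len_large hR k; omega : 1 ≤ len R k)
  rw [div_le_one (by linarith)]
  exact this

lemma wgt_small (j k : ℕ) : ((j : ℝ) + 1) * wgtj B j k ≤ 1 := by
  unfold wgtj
  rw [← mul_assoc]
  exact mul_le_one₀ (amp_small B j) (cw_pos (by have := rad_ge B j; omega) k).le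
    (cw_le_one (by have := rad_ge B j; omega) k)

lemma len_mono (R : ℕ) {a b : ℕ} (h : a ≤ b) : len R a ≤ len R b := by
  unfold len; gcongr; norm_num

lemma hgt_mono {R R' k k' : ℕ} (hR : R ≤ R') (hL : len R k ≤ len R' k') : hgt R k ≤ hgt R' k' := by
  unfold hgt
  refine pow_le_pow_right₀ (by norm_num) ?_
  gcongr

lemma hgt_pos (R k : ℕ) : 0 < hgt R k := by unfold hgt; positivity

lemma rad_le_thrT (j k : ℕ) : (rad B j : ℝ) ≤ thrT B j k := by
  have hR : 1 ≤ rad B j := by have := rad_ge B j; omega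
  have h1 : rad B j ≤ 2 ^ 27 * rad B j * len (rad B j) k * len (rad B j) k := by
    have := len_large hR k
    calc rad B j = 1 * rad B j * 1 * 1 := by ring
      _ ≤ _ := by gcongr <;> omega
  have h2 : (rad B j : ℝ) ≤ hgt (rad B j) k := by
    unfold hgt
    exact_mod_cast le_trans h1 Nat.lt_two_pow_self.le
  have h3 : (1 : ℝ) ≤ (num (rad B j) : ℝ) := by exact_mod_cast num_pos (rad B j)
  unfold thrT
  have h4 := hgt_pos (rad B j) k
  nlinarith

lemma top_step (j : ℕ) {k : ℕ} :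
    topT B j / 4 ≤ (num (rad B (j + 1)) : ℝ) * hgt (rad B (j + 1)) k := by
  have hR' : rad B j ≤ rad B (j + 1) := rad_mono B (Nat.le_succ j)
  have hL : len (rad B j) (num (rad B j) - 1) ≤ len (rad B (j + 1)) k := by
    calc len (rad B j) (num (rad B j) - 1) ≤ len (rad B j) (num (rad B j)) :=
          len_mono _ (Nat.sub_le _ _)
      _ ≤ rad B (j + 1) := by rw [rad_succ]; omega
      _ = 1 * rad B (j + 1) * 1 := by ring
      _ ≤ _ := by unfold len; gcongr <;> [norm_num; exact Nat.one_le_two_pow]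
  have h1 := hgt_mono hR' hL
  have h2 : 2 * num (rad B j) ≤ num (rad B (j + 1)) := by
    unfold num
    rw [← pow_succ']
    refine Nat.pow_le_pow_right (by norm_num) ?_
    rw [rad_succ]
    omega
  have h2' : 2 * (num (rad B j) : ℝ) ≤ (num (rad B (j + 1)) : ℝ) := by exact_mod_cast h2
  unfold topT thrT
  calc 8 * (num (rad B j) : ℝ) * hgt (rad B j) (num (rad B j) - 1) / 4
      = 2 * (num (rad B j) : ℝ) * hgt (rad B j) (num (rad B j) - 1) := by ring
    _ ≤ _ := mul_le_mul h2' h1 (hgt_pos _ _).le (Nat.cast_nonneg _)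

/-- A summable bound for the norm of block `j`. -/
def nb (B : ℕ → ℕ) (j : ℕ) : ℝ := (2 : ℝ) ^ (2 * j) / (2 : ℝ) ^ rad B j

lemma block_norm_le (j : ℕ) :
    ((j : ℝ) + 1) * ∑ k ∈ range (num (rad B j)), wgtj B j k ≤ nb B j := by
  have hR : 1 ≤ rad B j := by have := rad_ge B j; omega
  have h0 : ((j : ℝ) + 1) * ∑ k ∈ range (num (rad B j)), wgtj B j k
      ≤ ((j : ℝ) + 1) * (ampj B j * (2 * cw (rad B j) 0)) := by
    refine mul_le_mul_of_nonneg_left ?_ (by positivity)
    unfold wgtj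
    rw [← Finset.mul_sum, Finset.range_eq_Ico]
    exact mul_le_mul_of_nonneg_left (sum_cw_le hR (Nat.zero_le _)) (ampj_pos B j).le
  refine h0.trans ?_
  have h1 : (2 : ℝ) ≤ (len (rad B j) 0 : ℝ) := by
    exact_mod_cast (by have := len_large hR 0; omega : 2 ≤ len (rad B j) 0)
  have h2 : 2 * cw (rad B j) 0 ≤ 1 := by
    unfold cw
    rw [mul_one_div, div_le_one (by linarith)]
    exact h1
  have h3 : ((j : ℝ) + 1) * ampj B j ≤ nb B j := by
    unfold ampj nb
    have e : (num (rad B j) : ℝ) = (2 : ℝ) ^ rad B j := by unfold num; push_cast; rfl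
    rw [e, mul_div_assoc']
    have hR' : (1 : ℝ) ≤ (rad B j : ℝ) := by exact_mod_cast hR
    have hsq : ((j : ℝ) + 1) * ((j : ℝ) + 1) ≤ (2 : ℝ) ^ (2 * j) := by
      exact_mod_cast sq_succ_le j
    exact div_le_div₀ (by positivity) hsq (by positivity) (le_mul_of_one_le_right (by positivity) hR')
  calc ((j : ℝ) + 1) * (ampj B j * (2 * cw (rad B j) 0))
      = (((j : ℝ) + 1) * ampj B j) * (2 * cw (rad B j) 0) := by ring
    _ ≤ (((j : ℝ) + 1) * ampj B j) * 1 :=
        mul_le_mul_of_nonneg_left h2 (mul_nonneg (by positivity) (ampj_pos B j).le)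
    _ ≤ _ := by rw [mul_one]; exact h3

lemma nb_half (j : ℕ) : nb B (j + 1) ≤ nb B j / 2 := by
  unfold nb
  have h : 2 * j + 2 + (rad B j + 1) ≤ 2 * j + rad B (j + 1) := by rw [rad_succ]; omega
  rw [div_div, div_le_div_iff₀ (by positivity) (by positivity), show 2 * (j + 1) = 2 * j + 2 by ring,
    ← pow_succ, ← pow_add, ← pow_add]
  exact pow_le_pow_right₀ (by norm_num) h

lemma nb_geom (j i : ℕ) : nb B (i + j) ≤ nb B j * (1 / 2) ^ i := by
  induction i with
  | zero => simp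
  | succ i ih =>
    rw [pow_succ, ← mul_assoc, show i + 1 + j = i + j + 1 by ring]
    linarith [nb_half B (i + j)]

lemma nb_next_le (j : ℕ) {k : ℕ} (hk : k < num (rad B j)) :
    2 * nb B (j + 1) ≤ 2 * ((j : ℝ) + 1) * wgtj B j k := by
  have hR : 1 ≤ rad B j := by have := rad_ge B j; omega
  have hex : 2 * (j + 1) + num (rad B j) + rad B j + len (rad B j) k ≤ rad B (j + 1) := by
    have := len_mono (rad B j) hk.le
    rw [rad_succ]
    omega
  have h1 : 2 ^ (2 * (j + 1)) * (num (rad B j) * rad B j * len (rad B j) k)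
      ≤ 2 ^ rad B (j + 1) := by
    calc 2 ^ (2 * (j + 1)) * (num (rad B j) * rad B j * len (rad B j) k)
        ≤ 2 ^ (2 * (j + 1)) * (2 ^ num (rad B j) * 2 ^ rad B j * 2 ^ len (rad B j) k) := by
          gcongr <;> exact Nat.lt_two_pow_self.le
      _ ≤ _ := by
          rw [← pow_add, ← pow_add, ← pow_add]
          exact Nat.pow_le_pow_right (by norm_num) (by omega)
  have h1' : (2 : ℝ) ^ (2 * (j + 1))
      * ((num (rad B j) : ℝ) * (rad B j : ℝ) * (len (rad B j) k : ℝ))
      ≤ (2 : ℝ) ^ rad B (j + 1) := by exact_mod_cast h1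
  have hpos : (0 : ℝ) < (num (rad B j) : ℝ) * (rad B j : ℝ) * (len (rad B j) k : ℝ) := by
    have := len_large hR k
    exact mul_pos (mul_pos (Nat.cast_pos.2 (num_pos _)) (Nat.cast_pos.2 (by omega)))
      (Nat.cast_pos.2 (by omega))
  have hj : (0 : ℝ) ≤ (j : ℝ) := j.cast_nonneg
  have h2 : nb B (j + 1) ≤ 1 / ((num (rad B j) : ℝ) * (rad B j : ℝ) * (len (rad B j) k : ℝ)) := by
    unfold nb
    rw [div_le_div_iff₀ (by positivity) hpos, one_mul]
    exact h1'
  have h3 : 1 / ((num (rad B j) : ℝ) * (rad B j : ℝ) * (len (rad B j) k : ℝ))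
      ≤ ((j : ℝ) + 1) * wgtj B j k := by
    unfold wgtj ampj cw
    rw [div_mul_div_comm, mul_one, mul_div_assoc']
    refine div_le_div_of_nonneg_right ?_ hpos.le
    nlinarith
  linarith

lemma gauge_le (j k : ℕ) (hk : k < num (rad B j)) {u : ℝ} (hu : 16 ≤ u) (hu' : u ≤ thrT B j k) :
    gauge u ≤ 2 ^ 15 * (rad B j : ℝ) * (len (rad B j) k : ℝ) := by
  set R := rad B j with hRdef
  set L := len R k with hLdef
  have hR : 9 ≤ R := rad_nine B j
  have hL := len_large (show 1 ≤ R by omega) k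
  set X : ℕ := 2 ^ 28 * R * L * L with hX
  have hXexp : 3 + R + 2 ^ 27 * R * L * L ≤ X := by
    have h1 : 3 + R ≤ 2 ^ 27 * R * L * L := by
      calc 3 + R ≤ 2 ^ 27 * R * 1 * 1 := by omega
        _ ≤ _ := by gcongr <;> omega
    have h2 : X = 2 ^ 27 * R * L * L + 2 ^ 27 * R * L * L := by rw [hX]; ring
    omega
  have huX : u ≤ (2 : ℝ) ^ X := by
    refine hu'.trans (le_trans (le_of_eq ?_) (pow_le_pow_right₀ (by norm_num) hXexp))
    unfold thrT hgt num
    rw [← hRdef, ← hLdef, pow_add _ (3 + R), pow_add]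
    push_cast; ring
  have hlog2 : Real.log 2 ≤ 1 := by linarith [Real.log_two_lt_d9]
  have hlogpow : ∀ n : ℕ, Real.log ((2 : ℝ) ^ n) ≤ n := by
    intro n; rw [Real.log_pow]; exact mul_le_of_le_one_right n.cast_nonneg hlog2
  have h1 : Real.log u ≤ X := (Real.log_le_log (by linarith) huX).trans (hlogpow X)
  have h16 : 2 < Real.log u := by
    have h := Real.log_le_log (by norm_num) hu
    rw [show (16 : ℝ) = (2 : ℝ) ^ (4 : ℕ) by norm_num, Real.log_pow] at h
    push_cast at h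
    linarith [Real.log_two_gt_d9]
  have hXle : X ≤ 2 ^ (60 + 3 * R + 2 * num R) := by
    have hLle : L ≤ 2 ^ 16 * 2 ^ R * 2 ^ num R := by
      rw [hLdef]; unfold len
      calc 65536 * R * 2 ^ k ≤ 65536 * 2 ^ R * 2 ^ num R := by
            gcongr
            · exact Nat.lt_two_pow_self.le
            · norm_num
        _ = _ := by norm_num
    calc X ≤ 2 ^ 28 * 2 ^ R * (2 ^ 16 * 2 ^ R * 2 ^ num R) * (2 ^ 16 * 2 ^ R * 2 ^ num R) := by
          rw [hX]; gcongr; exact Nat.lt_two_pow_self.le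
      _ = _ := by rw [pow_add _ (60 + 3 * R), pow_add _ 60]; ring
  have h2 : Real.log (Real.log u) ≤ ((60 + 3 * R + 2 * num R : ℕ) : ℝ) := by
    refine (Real.log_le_log (by linarith) h1).trans ?_
    refine le_trans (Real.log_le_log (Nat.cast_pos.2 (by omega)) ?_) (hlogpow _)
    exact_mod_cast hXle
  have h3a : 60 + 3 * R + 2 * num R ≤ 2 ^ (R + 7) := by
    have h : R < num R := Nat.lt_two_pow_self
    have e : 2 ^ (R + 7) = num R * 128 := by rw [pow_add]; rfl
    omega
  have h3 : Real.log (Real.log (Real.log u)) ≤ 2 * (R : ℝ) := by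
    have hll : 0 < Real.log (Real.log u) := Real.log_pos (by linarith)
    refine (Real.log_le_log hll h2).trans ((Real.log_le_log (Nat.cast_pos.2 (by omega)) ?_).trans
      ((hlogpow (R + 7)).trans ?_))
    · exact_mod_cast h3a
    · have : (9 : ℝ) ≤ R := by exact_mod_cast hR
      push_cast; linarith
  unfold gauge
  rw [Real.sqrt_le_iff]
  refine ⟨by positivity, ?_⟩
  calc Real.log u * Real.log (Real.log (Real.log u)) ≤ Real.log u * (2 * (R : ℝ)) :=
        mul_le_mul_of_nonneg_left h3 (by linarith)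
    _ ≤ (X : ℝ) * (2 * (R : ℝ)) := mul_le_mul_of_nonneg_right h1 (by positivity)
    _ = 2 ^ 29 * ((R : ℝ) * L) ^ 2 := by rw [hX]; push_cast; ring
    _ ≤ 2 ^ 30 * ((R : ℝ) * L) ^ 2 := mul_le_mul_of_nonneg_right (by norm_num) (sq_nonneg _)
    _ = (2 ^ 15 * (R : ℝ) * (L : ℝ)) ^ 2 := by ring

/-- Bottom of the frequency bands of block `j`. -/
def bse (B : ℕ → ℕ) : ℕ → ℕ
  | 0 => 1
  | j + 1 => bse B j + (j + 1) * (2 * degR (rad B j) + 1)

/-- The modulation of copy `i` of block `j`. -/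
def lamj (B : ℕ → ℕ) (j i : ℕ) : ℕ := bse B j + i * (2 * degR (rad B j) + 1) + degR (rad B j)

lemma bse_pos (j : ℕ) : 0 < bse B j := by
  induction j with
  | zero => simp [bse]
  | succ j ih => rw [bse]; omega

lemma bse_mono {a b : ℕ} (h : a ≤ b) : bse B a ≤ bse B b :=
  monotone_nat_of_le_succ (fun j => by rw [bse]; omega) h

lemma deg_lt_lamj (j i : ℕ) : degR (rad B j) < lamj B j i := by
  have := bse_pos B j; unfold lamj; omega

lemma band_unique {j i j' i' : ℕ} (hi : i ≤ j) (hi' : i' ≤ j') {m : ℤ}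
    (h : |m - lamj B j i| ≤ (degR (rad B j) : ℤ))
    (h' : |m - lamj B j' i'| ≤ (degR (rad B j') : ℤ)) : j = j' ∧ i = i' := by
  obtain ⟨a1, a2⟩ := abs_le.1 h
  obtain ⟨b1, b2⟩ := abs_le.1 h'
  have hA : bse B j + (i + 1) * (2 * degR (rad B j) + 1) ≤ bse B (j + 1) := by
    rw [bse]; gcongr
  have hA' : bse B j' + (i' + 1) * (2 * degR (rad B j') + 1) ≤ bse B (j' + 1) := by
    rw [bse]; gcongr
  rw [add_mul, one_mul] at hA hA'
  unfold lamj at a1 a2 b1 b2
  rcases lt_trichotomy j j' with hj | hj | hj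
  · have := bse_mono B (show j + 1 ≤ j' from hj); omega
  · subst hj
    refine ⟨rfl, ?_⟩
    rcases lt_trichotomy i i' with hh | hh | hh
    · have := Nat.mul_le_mul_right (2 * degR (rad B j) + 1) (show i + 1 ≤ i' from hh)
      rw [add_mul, one_mul] at this; omega
    · exact hh
    · have := Nat.mul_le_mul_right (2 * degR (rad B j) + 1) (show i' + 1 ≤ i from hh)
      rw [add_mul, one_mul] at this; omega
  · have := bse_mono B (show j' + 1 ≤ j from hj); omega

end Vale.Agent.P091.Multi
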