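import Vale.Agent.P091.Multi.Layout
import Vale.Agent.P091.Multi.Riesz

/-!
P091: which atoms are visible from a point of the multi-scale example.
-/

noncomputable section

namespace Vale.Agent.P091.Multi

open Finset

variable {R : ℕ}

/-- The frequencies of the Riesz product of an atom of component `k`. -/
def hfun (R k u : ℕ) (r : Fin R) : ℤ :=
  (hd R k u : ℤ) + ((loc' R k (r : ℕ) u : ℤ) + 1) * 2 ^ lb R k (r : ℕ)

/-- Binary exponent of the cluster seen through group `r`. -/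
def pexp (R k r : ℕ) : ℕ := blw R k + (R - r) * len R k

/-- The high part of the frequency of `x` at component `k`. -/
def nhi (R k x : ℕ) : ℕ := hd R k x + labTerm R k x

/-- The low part of the frequency of `x` at component `k`. -/
def nlo (R k x : ℕ) : ℕ := low R k x + (idk R k x * 2 ^ bot R k + codeTerm R k x)

lemma nfreq_eq {k : ℕ} (hk : k < num R) (x : ℕ) : nfreq R x = nhi R k x + nlo R k x := by
  rw [nfreq_split hk, part', nhi, nlo]; ring

lemma nlo_lt (hR : 1 ≤ R) (k x : ℕ) : nlo R k x < 2 ^ mex R k := by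
  have h1 := code_lt hR k x
  have h2 := low_lt hR k x
  have h3 : 2 ^ bot R k ≤ 2 ^ sh R k R := Nat.pow_le_pow_right (by norm_num) (by unfold sh; omega)
  have h4 : 2 ^ sh R k R * 2 ≤ 2 ^ mex R k := by
    rw [← pow_succ]; exact Nat.pow_le_pow_right (by norm_num) (by unfold mex gap; omega)
  unfold nlo
  omega

lemma two_mex_lt (k : ℕ) : 2 * 2 ^ mex R k < 2 ^ lb R k 0 := by
  rw [← pow_succ']; exact Nat.pow_lt_pow_right (by norm_num) (by unfold lb; omega)

lemma nhi_dvd (hR : 1 ≤ R) {k : ℕ} (hk : k < num R) (x : ℕ) : 2 ^ lb R k 0 ∣ nhi R k x := by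
  refine dvd_add ((pow_dvd_pow 2 ?_).trans (hd_dvd hk x)) (labTerm_dvd k x)
  rw [bot_succ]
  have := lb_mono (R := R) (k := k) (Nat.zero_le R)
  omega

lemma two_mex_lt_nhi (hR : 1 ≤ R) {k : ℕ} (hk : k < num R) (x : ℕ) :
    2 * 2 ^ mex R k < nhi R k x := by
  have := two_mex_lt (R := R) k
  have := Nat.le_of_dvd (by unfold nhi; have := hd_pos (R := R) k x; omega) (nhi_dvd hR hk x)
  omega

lemma digits_abs_lt {B : ℤ} (hB : 1 ≤ B) (d : ℕ → ℤ) (n : ℕ) (h : ∀ i < n, |d i| ≤ B - 1) :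
    |∑ i ∈ range n, d i * B ^ i| < B ^ n := by
  induction n with
  | zero => simp
  | succ n ih =>
    rw [Finset.sum_range_succ]
    have h1 := ih fun i hi => h i (by omega)
    have h2 : |d n * B ^ n| ≤ (B - 1) * B ^ n := by
      rw [abs_mul, abs_of_nonneg (a := B ^ n) (pow_nonneg (by omega) n)]
      exact mul_le_mul_of_nonneg_right (h n (by omega)) (pow_nonneg (by omega) n)
    refine lt_of_le_of_lt (abs_add_le _ _) ?_
    rw [pow_succ]
    linarith

lemma digits_zero {B : ℤ} (hB : 1 ≤ B) : ∀ (n : ℕ) (d : ℕ → ℤ), (∀ i < n, |d i| ≤ B - 1) →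
    ∑ i ∈ range n, d i * B ^ i = 0 → ∀ i < n, d i = 0 := by
  intro n
  induction n with
  | zero => intro d _ _ i hi; omega
  | succ n ih =>
    intro d h hs
    rw [Finset.sum_range_succ'] at hs
    simp only [pow_zero, mul_one, pow_succ, ← mul_assoc, ← Finset.sum_mul] at hs
    have h0 : B ∣ d 0 := ⟨-(∑ i ∈ range n, d (i + 1) * B ^ i), by linarith⟩
    have hd0 : d 0 = 0 := by
      refine Int.eq_zero_of_abs_lt_dvd h0 ?_
      have := h 0 (by omega)
      omega
    rw [hd0, add_zero, mul_eq_zero] at hs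
    have hs' : ∑ i ∈ range n, d (i + 1) * B ^ i = 0 := hs.resolve_right (by omega)
    intro i hi
    rcases i with _ | i
    · exact hd0
    · exact ih (fun j => d (j + 1)) (fun j hj => h (j + 1) (by omega)) hs' i (by omega)

lemma div_eq_of_top_loc {k r x u : ℕ} (hr : r ≤ R)
    (htop : x / 2 ^ blw R (k + 1) = u / 2 ^ blw R (k + 1)) (hl : loc' R k r x = loc' R k r u) :
    x / 2 ^ pexp R k r = u / 2 ^ pexp R k r := by
  set A := 2 ^ (r * len R k) with hA
  have hexp : pexp R k r + r * len R k = blw R (k + 1) := by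
    rw [pexp, blw_succ, add_assoc, ← add_mul, Nat.sub_add_cancel hr]
  have hdiv : ∀ z, z / 2 ^ pexp R k r % A = loc' R k r z := by
    intro z
    unfold loc' idk
    rw [show R * len R k = (R - r) * len R k + r * len R k by
        rw [← add_mul, Nat.sub_add_cancel hr], pow_add _ ((R - r) * len R k), Nat.mod_mul_right_div_self,
      Nat.div_div_eq_div_mul, ← pow_add, hA]
    rfl
  have hdd : ∀ z, z / 2 ^ pexp R k r / A = z / 2 ^ blw R (k + 1) := by
    intro z; rw [Nat.div_div_eq_div_mul, hA, ← pow_add, hexp]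
  have h1 := Nat.div_add_mod (x / 2 ^ pexp R k r) A
  have h2 := Nat.div_add_mod (u / 2 ^ pexp R k r) A
  rw [hdiv, hdd, hl, htop] at h1
  rw [hdiv, hdd] at h2
  rw [← h1, h2]

lemma freq_eq_iff (hR : 1 ≤ R) {k : ℕ} (hk : k < num R) {x u : ℕ} (hx : x < 2 ^ tot R)
    (hu : u < 2 ^ tot R) {ε : Fin R → ℤ} (hε : ε ∈ pats R)
    (h : pfreq (hfun R k u) ε = (nhi R k x : ℤ)) :
    ∃ r : Fin R, IsCls R k (r : ℕ) x ∧ ε = Pi.single r 1 ∧
      x / 2 ^ pexp R k r = u / 2 ^ pexp R k r := by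
  classical
  set B : ℤ := 2 ^ lwid R k with hB
  set b0 : ℤ := 2 ^ lb R k 0 with hb0
  have hlbr : ∀ r, (2 : ℤ) ^ lb R k r = b0 * B ^ r := by
    intro r; rw [hb0, hB, ← pow_mul, ← pow_add]; congr 1; unfold lb; ring
  set tx : ℕ → ℤ := fun r => if IsCls R k r x then (loc' R k r x : ℤ) + 1 else 0 with htx
  set d : ℕ → ℤ := fun i =>
    if hi : i < R then tx i - ε ⟨i, hi⟩ * ((loc' R k i u : ℤ) + 1) else 0 with hd'
  have hB1 : 1 ≤ B := one_le_pow₀ (by norm_num)
  have hloc : ∀ r ≤ R, ∀ z, (loc' R k r z : ℤ) + 1 ≤ 2 ^ (R * len R k) := by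
    intro r hr z
    have := le_trans (loc'_lt (R := R) (k := k) (x := z) hr)
      (Nat.pow_le_pow_right (n := 2) (by norm_num) (Nat.mul_le_mul_right (len R k) hr))
    exact_mod_cast this
  have hdb : ∀ i < R, |d i| ≤ B - 1 := by
    intro i hi
    have hB4 : B = 2 ^ (R * len R k) * 4 := by rw [hB, lwid, pow_add]; norm_num
    have hp : (1 : ℤ) ≤ 2 ^ (R * len R k) := one_le_pow₀ (by norm_num)
    have h1 : |tx i| ≤ 2 ^ (R * len R k) := by
      rw [htx]; dsimp only
      split_ifs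
      · rw [abs_of_nonneg (by positivity)]; exact hloc i hi.le x
      · simp
    have h2 : |ε ⟨i, hi⟩ * ((loc' R k i u : ℤ) + 1)| ≤ 2 ^ (R * len R k) := by
      rw [abs_mul]
      have he : |ε ⟨i, hi⟩| ≤ 1 := by
        simp only [pats, Fintype.mem_piFinset, Finset.mem_Icc] at hε
        exact abs_le.2 (hε _)
      calc |ε ⟨i, hi⟩| * |(loc' R k i u : ℤ) + 1| ≤ 1 * |(loc' R k i u : ℤ) + 1| :=
            mul_le_mul_of_nonneg_right he (abs_nonneg _)
        _ ≤ _ := by rw [one_mul, abs_of_nonneg (by positivity)]; exact hloc i hi.le u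
    rw [hd']; dsimp only; rw [dif_pos hi]
    refine (abs_sub _ _).trans ?_
    omega
  set K : ℤ := ∑ r, ε r with hK
  have hmain : K * (hd R k u : ℤ) - (hd R k x : ℤ) = b0 * ∑ i ∈ range R, d i * B ^ i := by
    have hl : (labTerm R k x : ℤ) = b0 * ∑ i ∈ range R, tx i * B ^ i := by
      unfold labTerm
      push_cast
      rw [Finset.mul_sum]
      refine Finset.sum_congr rfl fun i _ => ?_
      rw [htx]; dsimp only
      split_ifs
      · rw [hlbr]; ring
      · ring
    have hs : ∑ i ∈ range R, d i * B ^ i = (∑ i ∈ range R, tx i * B ^ i)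
        - ∑ r : Fin R, ε r * ((loc' R k (r : ℕ) u : ℤ) + 1) * B ^ (r : ℕ) := by
      rw [← Fin.sum_univ_eq_sum_range (fun i => d i * B ^ i) R,
        ← Fin.sum_univ_eq_sum_range (fun i => tx i * B ^ i) R, ← Finset.sum_sub_distrib]
      refine Finset.sum_congr rfl fun r _ => ?_
      rw [hd']; dsimp only; rw [dif_pos r.isLt]; ring
    have hp : pfreq (hfun R k u) ε = K * (hd R k u : ℤ)
        + b0 * ∑ r : Fin R, ε r * ((loc' R k (r : ℕ) u : ℤ) + 1) * B ^ (r : ℕ) := by
      rw [hK, Finset.sum_mul, Finset.mul_sum, ← Finset.sum_add_distrib, pfreq]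
      refine Finset.sum_congr rfl fun r _ => ?_
      rw [hfun, hlbr]; ring
    rw [nhi, Nat.cast_add, hl, hp] at h
    rw [hs]
    linear_combination h
  have hzero : K * (hd R k u : ℤ) - (hd R k x : ℤ) = 0 := by
    have hdvd : (2 : ℤ) ^ bot R (k + 1) ∣ K * (hd R k u : ℤ) - (hd R k x : ℤ) := by
      refine dvd_sub (Dvd.dvd.mul_left ?_ _) ?_
      · exact_mod_cast hd_dvd hk u
      · exact_mod_cast hd_dvd hk x
    refine Int.eq_zero_of_abs_lt_dvd hdvd ?_
    rw [hmain, abs_mul, abs_of_nonneg (a := b0) (by rw [hb0]; positivity)]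
    calc b0 * |∑ i ∈ range R, d i * B ^ i| < b0 * B ^ R :=
          mul_lt_mul_of_pos_left (digits_abs_lt hB1 d R hdb) (by rw [hb0]; positivity)
      _ = 2 ^ lb R k R := (hlbr R).symm
      _ ≤ _ := by rw [bot_succ]; exact pow_le_pow_right₀ (by norm_num) (by omega)
  have hdz : ∀ i < R, d i = 0 := by
    refine digits_zero hB1 R d hdb ?_
    rw [hzero] at hmain
    exact (mul_eq_zero.1 hmain.symm).resolve_left (by rw [hb0]; positivity)
  have heq : ∀ r : Fin R, tx r = ε r * ((loc' R k (r : ℕ) u : ℤ) + 1) := by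
    intro r
    have := hdz r r.isLt
    rw [hd'] at this; dsimp only at this
    rw [dif_pos r.isLt] at this
    linarith
  by_cases hc : ∃ r, IsCls R k r x
  · obtain ⟨r0, hr0⟩ := hc
    have hr0R : r0 < R := by have := hr0.1; omega
    set r : Fin R := ⟨r0, hr0R⟩ with hr
    have hr1 : ε r = 1 ∧ loc' R k r0 x = loc' R k r0 u := by
      have := heq r
      rw [htx] at this; dsimp only at this
      simp only [hr, if_pos hr0] at this
      simp only [pats, Fintype.mem_piFinset, Finset.mem_Icc] at hε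
      obtain ⟨e1, e2⟩ := hε r
      rcases (by omega : ε r = -1 ∨ ε r = 0 ∨ ε r = 1) with he | he | he <;>
        simp only [hr] at he <;> rw [he] at this
      · omega
      · omega
      · exact ⟨he, by omega⟩
    have hεeq : ε = Pi.single r 1 := by
      funext s
      by_cases hs : s = r
      · subst hs; rw [Pi.single_eq_same]; exact hr1.1
      · rw [Pi.single_eq_of_ne hs]
        have := heq s
        rw [htx] at this; dsimp only at this
        rw [if_neg fun hcl => hs (Fin.ext (isCls_unique hR hcl hr0))] at this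
        exact (mul_eq_zero.1 this.symm).resolve_right (by positivity)
    refine ⟨r, hr0, hεeq, ?_⟩
    have hK1 : K = 1 := by rw [hK, hεeq]; simp
    rw [hK1, one_mul, sub_eq_zero] at hzero
    have hhd : hd R k x = hd R k u := by exact_mod_cast hzero.symm
    exact div_eq_of_top_loc hr0R.le (top_eq_of_hd_eq hR hx hu k hk hhd) hr1.2
  · push Not at hc
    exfalso
    have hε0 : ε = 0 := by
      funext s
      have := heq s
      rw [htx] at this; dsimp only at this
      rw [if_neg (hc _)] at this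
      exact (mul_eq_zero.1 this.symm).resolve_right (by positivity)
    have hK0 : K = 0 := by rw [hK, hε0]; simp
    rw [hK0, zero_mul, zero_sub, neg_eq_zero] at hzero
    have := hd_pos (R := R) k x
    omega

lemma pfreq_dvd (hR : 1 ≤ R) {k : ℕ} (hk : k < num R) (u : ℕ) (ε : Fin R → ℤ) :
    (2 : ℤ) ^ lb R k 0 ∣ pfreq (hfun R k u) ε := by
  refine Finset.dvd_sum fun r _ => Dvd.dvd.mul_left ?_ _
  refine dvd_add ?_ (Dvd.dvd.mul_left (pow_dvd_pow 2 (lb_mono (Nat.zero_le _))) _)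
  have h := (pow_dvd_pow 2 (?_ : lb R k 0 ≤ bot R (k + 1))).trans (hd_dvd hk u)
  · exact_mod_cast h
  · rw [bot_succ]
    have := lb_mono (R := R) (k := k) (Nat.zero_le R)
    omega

lemma neg_mem_pats {ε : Fin R → ℤ} (hε : ε ∈ pats R) : -ε ∈ pats R := by
  simp only [pats, Fintype.mem_piFinset, Finset.mem_Icc, Pi.neg_apply] at hε ⊢
  intro r; have := hε r; omega

lemma outer_of_ne (hR : 1 ≤ R) {k : ℕ} (hk : k < num R) {x u : ℕ} {ε : Fin R → ℤ}
    (h1 : pfreq (hfun R k u) ε ≠ (nhi R k x : ℤ))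
    (h2 : pfreq (hfun R k u) (-ε) ≠ (nhi R k x : ℤ)) :
    |pfreq (hfun R k u) ε| + ((2 ^ mex R k : ℕ) : ℤ) ≤ ((nhi R k x + nlo R k x : ℕ) : ℤ) ∨
      ((nhi R k x + nlo R k x : ℕ) : ℤ) + ((2 ^ mex R k : ℕ) : ℤ)
        < |pfreq (hfun R k u) ε| := by
  rw [pfreq_neg] at h2
  have := outer_cases (M := 2 ^ mex R k) (N' := nlo R k x) (Q := pfreq (hfun R k u) ε)
    (Nh := (nhi R k x : ℤ)) (d := 2 ^ lb R k 0)
    (by exact_mod_cast two_mex_lt (R := R) k) (by exact_mod_cast (nlo_lt hR k x).le)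
    (pfreq_dvd hR hk u ε) (by exact_mod_cast nhi_dvd hR hk x) (by positivity) h1
    (fun h => h2 (by omega))
  rwa [Nat.cast_add]

lemma killed (hR : 1 ≤ R) {k : ℕ} (hk : k < num R) {x u : ℕ} (hx : x < 2 ^ tot R)
    (hu : u < 2 ^ tot R)
    (h : ∀ r : Fin R, IsCls R k (r : ℕ) x → x / 2 ^ pexp R k r ≠ u / 2 ^ pexp R k r) :
    ∀ ε ∈ pats R,
    |pfreq (hfun R k u) ε| + ((2 ^ mex R k : ℕ) : ℤ) ≤ ((nhi R k x + nlo R k x : ℕ) : ℤ) ∨
      ((nhi R k x + nlo R k x : ℕ) : ℤ) + ((2 ^ mex R k : ℕ) : ℤ)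
        < |pfreq (hfun R k u) ε| := by
  intro ε hε
  refine outer_of_ne hR hk (fun he => ?_) (fun he => ?_)
  · obtain ⟨r, hc, -, hp⟩ := freq_eq_iff hR hk hx hu hε he
    exact h r hc hp
  · obtain ⟨r, hc, -, hp⟩ := freq_eq_iff hR hk hx hu (neg_mem_pats hε) he
    exact h r hc hp

lemma visible (hR : 1 ≤ R) {k : ℕ} (hk : k < num R) {x u : ℕ} (hx : x < 2 ^ tot R)
    (hu : u < 2 ^ tot R) {r : Fin R} (hc : IsCls R k (r : ℕ) x)
    (hp : x / 2 ^ pexp R k r = u / 2 ^ pexp R k r) :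
    pfreq (hfun R k u) (Pi.single r 1) = (nhi R k x : ℤ) ∧
    ∀ ε ∈ pats R, ε ≠ Pi.single r 1 → ε ≠ -Pi.single r 1 →
    |pfreq (hfun R k u) ε| + ((2 ^ mex R k : ℕ) : ℤ) ≤ ((nhi R k x + nlo R k x : ℕ) : ℤ) ∨
      ((nhi R k x + nlo R k x : ℕ) : ℤ) + ((2 ^ mex R k : ℕ) : ℤ)
        < |pfreq (hfun R k u) ε| := by
  classical
  constructor
  · have htop : x / 2 ^ blw R (k + 1) = u / 2 ^ blw R (k + 1) := by
      obtain ⟨e, he⟩ := Nat.exists_eq_add_of_le (show pexp R k r ≤ blw R (k + 1) by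
        rw [pexp, blw_succ]; gcongr; exact Nat.sub_le _ _)
      rw [he, pow_add, ← Nat.div_div_eq_div_mul, ← Nat.div_div_eq_div_mul, hp]
    have hl : loc' R k r u = loc' R k r x := by
      have h1 : ∀ z, loc' R k r z = z / 2 ^ pexp R k r % 2 ^ ((r : ℕ) * len R k) := by
        intro z
        unfold loc' idk pexp
        rw [show R * len R k = (R - r) * len R k + (r : ℕ) * len R k by
            rw [← add_mul, Nat.sub_add_cancel r.isLt.le], pow_add _ ((R - r) * len R k),
          Nat.mod_mul_right_div_self, Nat.div_div_eq_div_mul, ← pow_add]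
      rw [h1, h1, hp]
    unfold pfreq
    rw [Finset.sum_eq_single_of_mem r (Finset.mem_univ r) (fun s _ hs => by
      rw [Pi.single_eq_of_ne hs, zero_mul]), Pi.single_eq_same, one_mul]
    unfold hfun nhi labTerm
    rw [sum_isCls_eq hR hc, hl, ← hd_congr htop]
    push_cast
    ring
  · intro ε hε hne hne'
    refine outer_of_ne hR hk (fun he => ?_) (fun he => ?_)
    · obtain ⟨r', hc', he', -⟩ := freq_eq_iff hR hk hx hu hε he
      exact hne (by rw [he', Fin.ext (isCls_unique hR hc' hc)])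
    · obtain ⟨r', hc', he', -⟩ := freq_eq_iff hR hk hx hu (neg_mem_pats hε) he
      exact hne' (by rw [← Fin.ext (isCls_unique hR hc' hc), ← he', neg_neg])

end Vale.Agent.P091.Multi
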